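import Vale.Agent.P096.Full.Defs

/-!
P096, II_1 factors: shared lemmas on conjugation and on amplifications by square matrices.
-/

open scoped InnerProductSpace ComplexConjugate
open ContinuousLinearMap

namespace Vale.Agent.P096.Full

universe u

variable {H : Type u} [NormedAddCommGroup H] [InnerProductSpace ℂ H] [CompleteSpace H] {d : ℕ}

/-! ### Coordinates -/

omit [CompleteSpace H] in
lemma comp_mul_apply {K : Type u} [NormedAddCommGroup K] [InnerProductSpace ℂ K]
    (A B : K →L[ℂ] K) (v : K) : (A * B) v = A (B v) := rfl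

omit [CompleteSpace H] in
@[simp] lemma coord_apply (p : Fin d × Fin d) (v : Amp H d) : coord p v = v p := rfl

omit [CompleteSpace H] in
@[simp] lemma pack_apply {K : Type u} [NormedAddCommGroup K] [InnerProductSpace ℂ K]
    (f : Fin d × Fin d → (K →L[ℂ] H)) (v : K) (p : Fin d × Fin d) :
    pack f v p = f p v := rfl

omit [CompleteSpace H] in
lemma Amp.ext' {v w : Amp H d} (h : ∀ i k, v (i, k) = w (i, k)) : v = w :=
  PiLp.ext fun p => h p.1 p.2

omit [CompleteSpace H] in
@[simp] lemma leftOp_apply (X : Mat H d) (v : Amp H d) (i k : Fin d) :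
    leftOp X v (i, k) = ∑ j, X i j (v (j, k)) := by
  simp [leftOp]

omit [CompleteSpace H] in
@[simp] lemma rightOp_apply (Y : Mat H d) (v : Amp H d) (i k : Fin d) :
    rightOp Y v (i, k) = ∑ l, Y l k (v (i, l)) := by
  simp [rightOp]

omit [CompleteSpace H] in
@[simp] lemma ampOp_apply (T : H →L[ℂ] H) (v : Amp H d) (i k : Fin d) :
    ampOp d T v (i, k) = T (v (i, k)) := by
  simp [ampOp]

omit [CompleteSpace H] in
@[simp] lemma vecOf_apply (v : Fin d → Fin d → H) (i k : Fin d) :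
    vecOf v (i, k) = (((Real.sqrt d)⁻¹ : ℝ) : ℂ) • v i k := rfl

omit [CompleteSpace H] in
lemma norm_sq_vecOf (v : Fin d → Fin d → H) :
    ‖vecOf v‖ ^ 2 = (d : ℝ)⁻¹ * ∑ i, ∑ k, ‖v i k‖ ^ 2 := by
  rw [PiLp.norm_sq_eq_of_L2, Fintype.sum_prod_type]
  simp only [vecOf_apply, norm_smul, mul_pow, Complex.norm_real, Real.norm_eq_abs, sq_abs,
    inv_pow, Real.sq_sqrt (Nat.cast_nonneg d), Finset.mul_sum]

omit [CompleteSpace H] in
lemma vecOf_add (v w : Fin d → Fin d → H) : vecOf (v + w) = vecOf v + vecOf w :=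
  Amp.ext' fun i k => by simp [smul_add]

omit [CompleteSpace H] in
lemma vecOf_smul (c : ℂ) (v : Fin d → Fin d → H) : vecOf (c • v) = c • vecOf v :=
  Amp.ext' fun i k => by
    rw [PiLp.smul_apply, vecOf_apply, vecOf_apply, Pi.smul_apply, Pi.smul_apply, smul_comm]

/-! ### Left and right multiplications -/

omit [CompleteSpace H] in
lemma leftOp_zero : leftOp (0 : Mat H d) = 0 :=
  ContinuousLinearMap.ext fun v => Amp.ext' fun i k => by simp

omit [CompleteSpace H] in
lemma leftOp_one : leftOp (1 : Mat H d) = 1 :=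
  ContinuousLinearMap.ext fun v => Amp.ext' fun i k => by
    rw [leftOp_apply, Finset.sum_eq_single i] <;> simp +contextual [Matrix.one_apply, eq_comm]

omit [CompleteSpace H] in
lemma leftOp_add (X Y : Mat H d) : leftOp (X + Y) = leftOp X + leftOp Y :=
  ContinuousLinearMap.ext fun v => Amp.ext' fun i k => by simp [Finset.sum_add_distrib]

omit [CompleteSpace H] in
lemma leftOp_sub (X Y : Mat H d) : leftOp (X - Y) = leftOp X - leftOp Y :=
  ContinuousLinearMap.ext fun v => Amp.ext' fun i k => by simp [Finset.sum_sub_distrib]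

omit [CompleteSpace H] in
lemma leftOp_smul (c : ℂ) (X : Mat H d) : leftOp (c • X) = c • leftOp X :=
  ContinuousLinearMap.ext fun v => Amp.ext' fun i k => by simp [Finset.smul_sum]

omit [CompleteSpace H] in
lemma leftOp_mul (X Y : Mat H d) : leftOp (X * Y) = leftOp X * leftOp Y :=
  ContinuousLinearMap.ext fun v => Amp.ext' fun i k => by
    simp only [comp_mul_apply, leftOp_apply, Matrix.mul_apply, sum_apply, map_sum]
    rw [Finset.sum_comm]

omit [CompleteSpace H] in
lemma rightOp_one : rightOp (1 : Mat H d) = 1 :=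
  ContinuousLinearMap.ext fun v => Amp.ext' fun i k => by
    rw [rightOp_apply, Finset.sum_eq_single k] <;> simp +contextual [Matrix.one_apply]

omit [CompleteSpace H] in
lemma rightOp_add (X Y : Mat H d) : rightOp (X + Y) = rightOp X + rightOp Y :=
  ContinuousLinearMap.ext fun v => Amp.ext' fun i k => by simp [Finset.sum_add_distrib]

omit [CompleteSpace H] in
lemma rightOp_sub (X Y : Mat H d) : rightOp (X - Y) = rightOp X - rightOp Y :=
  ContinuousLinearMap.ext fun v => Amp.ext' fun i k => by simp [Finset.sum_sub_distrib]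

omit [CompleteSpace H] in
lemma rightOp_smul (c : ℂ) (X : Mat H d) : rightOp (c • X) = c • rightOp X :=
  ContinuousLinearMap.ext fun v => Amp.ext' fun i k => by simp [Finset.smul_sum]

omit [CompleteSpace H] in
lemma rightOp_mul (Y₁ Y₂ : Mat H d) : rightOp Y₁ * rightOp Y₂ = rightOp (rmul Y₁ Y₂) :=
  ContinuousLinearMap.ext fun v => Amp.ext' fun i k => by
    simp only [comp_mul_apply, rightOp_apply, rmul, sum_apply, map_sum]
    rw [Finset.sum_comm]

omit [CompleteSpace H] in
lemma commute_leftOp_rightOp {X Y : Mat H d} (h : ∀ i j l k, X i j * Y l k = Y l k * X i j) :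
    leftOp X * rightOp Y = rightOp Y * leftOp X :=
  ContinuousLinearMap.ext fun v => Amp.ext' fun i k => by
    simp only [comp_mul_apply, leftOp_apply, rightOp_apply, map_sum]
    rw [Finset.sum_comm]
    exact Finset.sum_congr rfl fun l _ => Finset.sum_congr rfl fun j _ =>
      DFunLike.congr_fun (h i j l k) (v (j, l))

lemma star_leftOp (X : Mat H d) : star (leftOp X) = leftOp (star X) := by
  rw [ContinuousLinearMap.star_eq_adjoint, eq_comm, ContinuousLinearMap.eq_adjoint_iff]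
  intro v w
  simp only [PiLp.inner_apply, Fintype.sum_prod_type, leftOp_apply, sum_inner, inner_sum,
    Matrix.star_apply, ContinuousLinearMap.star_eq_adjoint,
    ContinuousLinearMap.adjoint_inner_left]
  calc (∑ i, ∑ k, ∑ j, ⟪v (j, k), X j i (w (i, k))⟫_ℂ)
      = ∑ k, ∑ i, ∑ j, ⟪v (j, k), X j i (w (i, k))⟫_ℂ := Finset.sum_comm
    _ = ∑ k, ∑ j, ∑ i, ⟪v (j, k), X j i (w (i, k))⟫_ℂ :=
      Finset.sum_congr rfl fun k _ => Finset.sum_comm
    _ = _ := Finset.sum_comm

lemma star_rightOp (Y : Mat H d) : star (rightOp Y) = rightOp (star Y) := by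
  rw [ContinuousLinearMap.star_eq_adjoint, eq_comm, ContinuousLinearMap.eq_adjoint_iff]
  intro v w
  simp only [PiLp.inner_apply, Fintype.sum_prod_type, rightOp_apply, sum_inner, inner_sum,
    Matrix.star_apply, ContinuousLinearMap.star_eq_adjoint,
    ContinuousLinearMap.adjoint_inner_left]
  exact Finset.sum_congr rfl fun i _ => Finset.sum_comm

omit [CompleteSpace H] in
lemma leftOp_entry (X : Mat H d) (i j : Fin d) (h : H) :
    leftOp X (WithLp.toLp 2 (Pi.single (j, j) h)) (i, j) = X i j h := by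
  rw [leftOp_apply, Finset.sum_eq_single j] <;> simp +contextual [Pi.single_apply]

omit [CompleteSpace H] in
lemma norm_single (p : Fin d × Fin d) (h : H) :
    ‖(WithLp.toLp 2 (Pi.single p h) : Amp H d)‖ = ‖h‖ := by
  refine (pow_left_inj₀ (norm_nonneg _) (norm_nonneg _) two_ne_zero).1 ?_
  rw [PiLp.norm_sq_eq_of_L2, Finset.sum_eq_single p] <;> simp +contextual

omit [CompleteSpace H] in
lemma norm_entry_le (X : Mat H d) (i j : Fin d) : ‖X i j‖ ≤ ‖leftOp X‖ := by
  refine opNorm_le_bound _ (norm_nonneg (leftOp X)) fun h => ?_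
  calc ‖X i j h‖ = ‖leftOp X (WithLp.toLp 2 (Pi.single (j, j) h)) (i, j)‖ := by
        rw [leftOp_entry]
    _ ≤ ‖leftOp X (WithLp.toLp 2 (Pi.single (j, j) h))‖ := PiLp.norm_apply_le _ _
    _ ≤ ‖leftOp X‖ * ‖(WithLp.toLp 2 (Pi.single (j, j) h) : Amp H d)‖ := le_opNorm _ _
    _ = _ := by rw [norm_single]

omit [CompleteSpace H] in
lemma leftOp_injective {X Y : Mat H d} (h : leftOp X = leftOp Y) : X = Y := by
  ext i j v
  rw [← leftOp_entry X i j v, h, leftOp_entry]

omit [CompleteSpace H] in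
lemma rightOp_entry (Y : Mat H d) (l k : Fin d) (h : H) :
    rightOp Y (WithLp.toLp 2 (Pi.single (l, l) h)) (l, k) = Y l k h := by
  rw [rightOp_apply, Finset.sum_eq_single l] <;> simp +contextual [Pi.single_apply]

omit [CompleteSpace H] in
lemma rightOp_injective {X Y : Mat H d} (h : rightOp X = rightOp Y) : X = Y := by
  ext i j v
  rw [← rightOp_entry X i j v, h, rightOp_entry]

omit [CompleteSpace H] in
lemma norm_entry_le_right (Y : Mat H d) (l k : Fin d) : ‖Y l k‖ ≤ ‖rightOp Y‖ := by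
  refine opNorm_le_bound _ (norm_nonneg (rightOp Y)) fun h => ?_
  calc ‖Y l k h‖ = ‖rightOp Y (WithLp.toLp 2 (Pi.single (l, l) h)) (l, k)‖ := by
        rw [rightOp_entry]
    _ ≤ ‖rightOp Y (WithLp.toLp 2 (Pi.single (l, l) h))‖ := PiLp.norm_apply_le _ _
    _ ≤ ‖rightOp Y‖ * ‖(WithLp.toLp 2 (Pi.single (l, l) h) : Amp H d)‖ := le_opNorm _ _
    _ = _ := by rw [norm_single]

omit [CompleteSpace H] in
/-- A matrix bound in the sense of `MatBdd` is a bound on `leftOp`. -/
lemma norm_leftOp_le_of_matBdd {X : Mat H d} {c : ℝ} (hc : 0 ≤ c)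
    (h : MatBdd (fun i j => X i j) (c ^ 2)) : ‖leftOp X‖ ≤ c := by
  refine opNorm_le_bound _ hc fun v => ?_
  refine (pow_le_pow_iff_left₀ (norm_nonneg _) (mul_nonneg hc (norm_nonneg v)) two_ne_zero).1 ?_
  rw [mul_pow, PiLp.norm_sq_eq_of_L2, PiLp.norm_sq_eq_of_L2, Fintype.sum_prod_type,
    Fintype.sum_prod_type]
  simp only [leftOp_apply]
  rw [Finset.sum_comm, Finset.sum_comm (f := fun j k => ‖v (j, k)‖ ^ 2), Finset.mul_sum]
  exact Finset.sum_le_sum fun k _ => h fun j => v (j, k)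

omit [CompleteSpace H] in
lemma matBdd_of_leftOp {X : Mat H d} : MatBdd (fun i j => X i j) (‖leftOp X‖ ^ 2) := by
  intro η
  rcases Nat.eq_zero_or_pos d with rfl | hd
  · simp
  set k₀ : Fin d := ⟨0, hd⟩
  set v : Amp H d := WithLp.toLp 2 (fun p => if p.2 = k₀ then η p.1 else 0) with hv
  have h := pow_le_pow_left₀ (norm_nonneg _) ((leftOp X).le_opNorm v) 2
  rw [mul_pow, PiLp.norm_sq_eq_of_L2, PiLp.norm_sq_eq_of_L2, Fintype.sum_prod_type,
    Fintype.sum_prod_type] at h
  simpa [hv, apply_ite, Finset.sum_ite_eq'] using h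

/-! ### The conjugation -/

variable (P : Pair H)

@[simp] lemma Pair.conjOp_apply (T : H →L[ℂ] H) (h : H) : P.conjOp T h = P.J (T (P.J h)) := rfl

lemma Pair.conjOp_conjOp (T : H →L[ℂ] H) : P.conjOp (P.conjOp T) = T := by
  ext h; simp [P.J_J]

lemma Pair.conjOp_mul (S T : H →L[ℂ] H) : P.conjOp (S * T) = P.conjOp S * P.conjOp T := by
  ext h; simp [comp_mul_apply, P.J_J]

lemma Pair.conjOp_one : P.conjOp 1 = 1 := by
  ext h; simp [P.J_J]

lemma Pair.conjOp_add (S T : H →L[ℂ] H) : P.conjOp (S + T) = P.conjOp S + P.conjOp T := by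
  ext h; simp

lemma Pair.conjOp_sub (S T : H →L[ℂ] H) : P.conjOp (S - T) = P.conjOp S - P.conjOp T := by
  ext h; simp

lemma Pair.conjOp_smul (c : ℂ) (T : H →L[ℂ] H) : P.conjOp (c • T) = conj c • P.conjOp T := by
  ext h; simp [LinearIsometryEquiv.map_smulₛₗ]

lemma Pair.inner_J (x y : H) : ⟪P.J x, P.J y⟫_ℂ = conj ⟪x, y⟫_ℂ := by
  rw [inner_eq_sum_norm_sq_div_four, inner_eq_sum_norm_sq_div_four x y]
  have hI : (RCLike.I : ℂ) = Complex.I := rfl
  have e1 : P.J x - RCLike.I (K := ℂ) • P.J y = P.J (x + RCLike.I (K := ℂ) • y) := by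
    simp [hI, map_add, LinearIsometryEquiv.map_smulₛₗ, sub_eq_add_neg]
  have e2 : P.J x + RCLike.I (K := ℂ) • P.J y = P.J (x - RCLike.I (K := ℂ) • y) := by
    simp [hI, map_sub, LinearIsometryEquiv.map_smulₛₗ, sub_eq_add_neg]
  rw [← map_add P.J x y, ← map_sub P.J x y, e1, e2]
  simp only [LinearIsometryEquiv.norm_map]
  simp only [map_div₀, map_add, map_sub, map_mul, map_pow, map_ofNat, hI, Complex.conj_I,
    RCLike.ofReal_eq_complex_ofReal, Complex.coe_algebraMap, Complex.conj_ofReal]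
  ring

lemma Pair.inner_J_left (x y : H) : ⟪P.J x, y⟫_ℂ = conj ⟪x, P.J y⟫_ℂ := by
  rw [← P.inner_J, P.J_J]

lemma Pair.star_conjOp (T : H →L[ℂ] H) : star (P.conjOp T) = P.conjOp (star T) := by
  rw [ContinuousLinearMap.star_eq_adjoint, eq_comm, ContinuousLinearMap.eq_adjoint_iff]
  intro x y
  rw [P.conjOp_apply, P.conjOp_apply, P.inner_J_left, ContinuousLinearMap.star_eq_adjoint,
    ContinuousLinearMap.adjoint_inner_left, P.inner_J_left, Complex.conj_conj]

lemma Pair.norm_conjOp (T : H →L[ℂ] H) : ‖P.conjOp T‖ = ‖T‖ := by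
  have h : ∀ S : H →L[ℂ] H, ‖P.conjOp S‖ ≤ ‖S‖ := fun S =>
    opNorm_le_bound _ (norm_nonneg _) fun x => by
      simpa using S.le_opNorm (P.J x)
  exact le_antisymm (h T) (by simpa [P.conjOp_conjOp] using h (P.conjOp T))

lemma Pair.J_xi : P.J P.ξ = P.ξ := by
  simpa using P.J_N 1 (one_mem _)

lemma Pair.conjOp_apply_xi {x : H →L[ℂ] H} (hx : x ∈ P.N) :
    P.conjOp x P.ξ = star x P.ξ := by
  rw [P.conjOp_apply, P.J_xi, P.J_N x hx]

lemma Pair.conjOp_apply_xi_M {x : H →L[ℂ] H} (hx : x ∈ P.M) :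
    P.conjOp x P.ξ = star x P.ξ := by
  rw [P.conjOp_apply, P.J_xi, P.J_M x hx]

lemma Pair.mem_B {y : H →L[ℂ] H} : y ∈ P.B ↔ P.conjOp y ∈ P.N := by
  constructor
  · rintro ⟨n, hn, rfl⟩; rwa [P.conjOp_conjOp]
  · exact fun h => ⟨_, h, P.conjOp_conjOp y⟩

lemma Pair.comm_N_B {x y : H →L[ℂ] H} (hx : x ∈ P.N) (hy : y ∈ P.B) : x * y = y * x := by
  obtain ⟨n, hn, rfl⟩ := hy
  ext h
  exact P.comm_N x hx n hn h

lemma Pair.comm_M_conjOp {x y : H →L[ℂ] H} (hx : x ∈ P.M) (hy : y ∈ P.M) :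
    x * P.conjOp y = P.conjOp y * x := by
  ext h
  exact P.comm_M x hx y hy h

/-- The commutant side as a star algebra. -/
noncomputable def Pair.Bal : StarSubalgebra ℂ (H →L[ℂ] H) where
  carrier := P.B
  mul_mem' := by
    rintro _ _ ⟨a, ha, rfl⟩ ⟨b, hb, rfl⟩
    exact ⟨a * b, mul_mem ha hb, P.conjOp_mul a b⟩
  add_mem' := by
    rintro _ _ ⟨a, ha, rfl⟩ ⟨b, hb, rfl⟩
    exact ⟨a + b, add_mem ha hb, P.conjOp_add a b⟩
  algebraMap_mem' c := ⟨algebraMap ℂ _ (conj c), algebraMap_mem _ _, by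
    rw [Algebra.algebraMap_eq_smul_one, P.conjOp_smul, P.conjOp_one, Complex.conj_conj,
      ← Algebra.algebraMap_eq_smul_one]⟩
  star_mem' := by
    rintro _ ⟨a, ha, rfl⟩
    exact ⟨star a, star_mem ha, (P.star_conjOp a).symm⟩

@[simp] lemma Pair.coe_Bal : (P.Bal : Set (H →L[ℂ] H)) = P.B := rfl

@[simp] lemma Pair.mem_Bal {y : H →L[ℂ] H} : y ∈ P.Bal ↔ y ∈ P.B := Iff.rfl

lemma Pair.isClosed_B : IsClosed P.B := by
  have h : P.B = P.conjOp ⁻¹' (P.N : Set (H →L[ℂ] H)) := Set.ext fun y => P.mem_B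
  rw [h]
  refine P.closed_N.preimage (LipschitzWith.continuous (K := 1) ?_)
  exact LipschitzWith.mk_one fun S T => by
    rw [dist_eq_norm, dist_eq_norm, ← P.conjOp_sub, P.norm_conjOp]

/-! ### Matrix algebras -/

/-- The operators `leftOp X` with entries in `S`. -/
noncomputable def leftAlg (S : StarSubalgebra ℂ (H →L[ℂ] H)) (d : ℕ) :
    StarSubalgebra ℂ (Amp H d →L[ℂ] Amp H d) where
  carrier := {T | ∃ X : Mat H d, (∀ i j, X i j ∈ S) ∧ T = leftOp X}
  mul_mem' := by
    rintro _ _ ⟨X, hX, rfl⟩ ⟨Y, hY, rfl⟩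
    exact ⟨X * Y, fun i j => by
      rw [Matrix.mul_apply]; exact sum_mem fun k _ => mul_mem (hX i k) (hY k j),
      (leftOp_mul X Y).symm⟩
  add_mem' := by
    rintro _ _ ⟨X, hX, rfl⟩ ⟨Y, hY, rfl⟩
    exact ⟨X + Y, fun i j => add_mem (hX i j) (hY i j), (leftOp_add X Y).symm⟩
  algebraMap_mem' c := ⟨c • (1 : Mat H d), fun i j => by
    by_cases h : i = j
    · simpa [Matrix.one_apply, h] using SMulMemClass.smul_mem c (one_mem S)
    · simp [Matrix.one_apply, h],
    by rw [leftOp_smul, leftOp_one, Algebra.algebraMap_eq_smul_one]⟩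
  star_mem' := by
    rintro _ ⟨X, hX, rfl⟩
    exact ⟨star X, fun i j => star_mem (hX j i), star_leftOp X⟩

/-- The operators `rightOp Y` with entries in `S`. -/
noncomputable def rightAlg (S : StarSubalgebra ℂ (H →L[ℂ] H)) (d : ℕ) :
    StarSubalgebra ℂ (Amp H d →L[ℂ] Amp H d) where
  carrier := {T | ∃ Y : Mat H d, (∀ i j, Y i j ∈ S) ∧ T = rightOp Y}
  mul_mem' := by
    rintro _ _ ⟨X, hX, rfl⟩ ⟨Y, hY, rfl⟩
    exact ⟨rmul X Y, fun i j => sum_mem fun k _ => mul_mem (hX k j) (hY i k), rightOp_mul X Y⟩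
  add_mem' := by
    rintro _ _ ⟨X, hX, rfl⟩ ⟨Y, hY, rfl⟩
    exact ⟨X + Y, fun i j => add_mem (hX i j) (hY i j), (rightOp_add X Y).symm⟩
  algebraMap_mem' c := ⟨c • (1 : Mat H d), fun i j => by
    by_cases h : i = j
    · simpa [Matrix.one_apply, h] using SMulMemClass.smul_mem c (one_mem S)
    · simp [Matrix.one_apply, h],
    by rw [rightOp_smul, rightOp_one, Algebra.algebraMap_eq_smul_one]⟩
  star_mem' := by
    rintro _ ⟨X, hX, rfl⟩
    exact ⟨star X, fun i j => star_mem (hX j i), star_rightOp X⟩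

omit [CompleteSpace H] in
lemma isClosed_range_aux {f : Mat H d → (Amp H d →L[ℂ] Amp H d)}
    (g : (Amp H d →L[ℂ] Amp H d) → Mat H d) (hg : Continuous g) (hfc : Continuous f)
    (hgf : ∀ X, g (f X) = X) {S : Set (H →L[ℂ] H)} (hS : IsClosed S) :
    IsClosed {T | ∃ X : Mat H d, (∀ i j, X i j ∈ S) ∧ T = f X} := by
  have e : {T | ∃ X : Mat H d, (∀ i j, X i j ∈ S) ∧ T = f X} =
      {T | T = f (g T)} ∩ ⋂ i, ⋂ j, (fun T => g T i j) ⁻¹' S := by
    ext T
    simp only [Set.mem_setOf_eq, Set.mem_inter_iff, Set.mem_iInter, Set.mem_preimage]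
    constructor
    · rintro ⟨X, hX, rfl⟩; simp [hgf, hX]
    · rintro ⟨h1, h2⟩; exact ⟨g T, h2, h1⟩
  rw [e]
  exact (isClosed_eq continuous_id (hfc.comp hg)).inter
    (isClosed_iInter fun i => isClosed_iInter fun j => hS.preimage
      ((continuous_apply j).comp ((continuous_apply i).comp hg)))

/-- The entries of an operator on tuples, read along the diagonal columns. -/
noncomputable def leftEntries (T : Amp H d →L[ℂ] Amp H d) : Mat H d := fun i j =>
  (coord (i, j)).comp (T.comp (pack fun p => if p = (j, j) then ContinuousLinearMap.id ℂ H else 0))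

/-- The same for right multiplications. -/
noncomputable def rightEntries (T : Amp H d →L[ℂ] Amp H d) : Mat H d := fun l k =>
  (coord (l, k)).comp (T.comp (pack fun p => if p = (l, l) then ContinuousLinearMap.id ℂ H else 0))

omit [CompleteSpace H] in
lemma leftEntries_leftOp (X : Mat H d) : leftEntries (leftOp X) = X := by
  ext i j v
  rw [leftEntries, ContinuousLinearMap.comp_apply, ContinuousLinearMap.comp_apply, coord_apply,
    leftOp_apply, Finset.sum_eq_single j] <;> simp +contextual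

omit [CompleteSpace H] in
lemma rightEntries_rightOp (X : Mat H d) : rightEntries (rightOp X) = X := by
  ext l k v
  rw [rightEntries, ContinuousLinearMap.comp_apply, ContinuousLinearMap.comp_apply, coord_apply,
    rightOp_apply, Finset.sum_eq_single l] <;> simp +contextual

omit [CompleteSpace H] in
lemma continuous_leftOp : Continuous (leftOp : Mat H d → _) := by
  unfold leftOp pack
  refine Continuous.clm_comp continuous_const ?_
  refine (ContinuousLinearMap.piEquivL ℂ _ _).continuous.comp (continuous_pi fun q => ?_)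
  exact continuous_finsetSum _ fun j _ =>
    ((continuous_apply j).comp (continuous_apply q.1)).clm_comp continuous_const

omit [CompleteSpace H] in
lemma continuous_rightOp : Continuous (rightOp : Mat H d → _) := by
  unfold rightOp pack
  refine Continuous.clm_comp continuous_const ?_
  refine (ContinuousLinearMap.piEquivL ℂ _ _).continuous.comp (continuous_pi fun q => ?_)
  exact continuous_finsetSum _ fun l _ =>
    ((continuous_apply q.2).comp (continuous_apply l)).clm_comp continuous_const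

omit [CompleteSpace H] in
lemma continuous_leftEntries : Continuous (leftEntries : _ → Mat H d) :=
  continuous_pi fun i => continuous_pi fun j =>
    continuous_const.clm_comp (continuous_id.clm_comp continuous_const)

omit [CompleteSpace H] in
lemma continuous_rightEntries : Continuous (rightEntries : _ → Mat H d) :=
  continuous_pi fun i => continuous_pi fun j =>
    continuous_const.clm_comp (continuous_id.clm_comp continuous_const)

lemma isClosed_leftAlg {S : StarSubalgebra ℂ (H →L[ℂ] H)} (hS : IsClosed (S : Set (H →L[ℂ] H))) :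
    IsClosed (leftAlg S d : Set (Amp H d →L[ℂ] Amp H d)) :=
  isClosed_range_aux leftEntries continuous_leftEntries continuous_leftOp leftEntries_leftOp hS

lemma isClosed_rightAlg {S : StarSubalgebra ℂ (H →L[ℂ] H)}
    (hS : IsClosed (S : Set (H →L[ℂ] H))) :
    IsClosed (rightAlg S d : Set (Amp H d →L[ℂ] Amp H d)) :=
  isClosed_range_aux rightEntries continuous_rightEntries continuous_rightOp
    rightEntries_rightOp hS

/-! ### The amplified conjugation and vector -/

/-- The amplified conjugation: apply `J` and exchange the indices. -/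
noncomputable def Pair.Jd (d : ℕ) : Amp H d ≃ₗᵢ⋆[ℂ] Amp H d where
  toFun v := WithLp.toLp 2 fun p => P.J (v (p.2, p.1))
  map_add' v w := Amp.ext' fun i k => by simp
  map_smul' c v := Amp.ext' fun i k => by simp [LinearIsometryEquiv.map_smulₛₗ]
  invFun v := WithLp.toLp 2 fun p => P.J (v (p.2, p.1))
  left_inv v := Amp.ext' fun i k => by simp [P.J_J]
  right_inv v := Amp.ext' fun i k => by simp [P.J_J]
  norm_map' v := by
    refine (pow_left_inj₀ (norm_nonneg _) (norm_nonneg _) two_ne_zero).1 ?_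
    rw [PiLp.norm_sq_eq_of_L2, PiLp.norm_sq_eq_of_L2, Fintype.sum_prod_type,
      Fintype.sum_prod_type, Finset.sum_comm]
    simp

@[simp] lemma Pair.Jd_apply (v : Amp H d) (i k : Fin d) :
    P.Jd d v (i, k) = P.J (v (k, i)) := rfl

lemma Pair.Jd_Jd (v : Amp H d) : P.Jd d (P.Jd d v) = v :=
  Amp.ext' fun i k => by simp [P.J_J]

lemma Pair.Jd_leftOp (n : Mat H d) (v : Amp H d) :
    P.Jd d (leftOp n (P.Jd d v)) = rightOp (P.mirror n) v :=
  Amp.ext' fun i k => by simp [Pair.mirror, map_sum]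

lemma Pair.mirror_mem {n : Mat H d} (h : ∀ i j, n i j ∈ P.N) (i j : Fin d) :
    P.mirror n i j ∈ P.B := ⟨n j i, h j i, rfl⟩

lemma Pair.mirror_mul (m n : Mat H d) :
    P.mirror (m * n) = rmul (P.mirror m) (P.mirror n) := by
  apply rightOp_injective
  rw [← rightOp_mul]
  ext v : 1
  rw [comp_mul_apply, ← P.Jd_leftOp, ← P.Jd_leftOp, ← P.Jd_leftOp, P.Jd_Jd, leftOp_mul, comp_mul_apply]

lemma Pair.norm_rightOp_mirror (n : Mat H d) : ‖rightOp (P.mirror n)‖ = ‖leftOp n‖ := by
  refine le_antisymm (opNorm_le_bound _ (norm_nonneg _) fun v => ?_)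
    (opNorm_le_bound _ (norm_nonneg _) fun v => ?_)
  · rw [← P.Jd_leftOp, LinearIsometryEquiv.norm_map]
    simpa using (leftOp n).le_opNorm (P.Jd d v)
  · have h := (rightOp (P.mirror n)).le_opNorm (P.Jd d v)
    rw [← P.Jd_leftOp, P.Jd_Jd, LinearIsometryEquiv.norm_map] at h
    simpa using h

lemma Pair.commute_leftOp_mirror {n m : Mat H d} (hn : ∀ i j, n i j ∈ P.N)
    (hm : ∀ i j, m i j ∈ P.N) :
    leftOp n * rightOp (P.mirror m) = rightOp (P.mirror m) * leftOp n :=
  commute_leftOp_rightOp fun i j l k => P.comm_N_B (hn i j) (P.mirror_mem hm l k)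

@[simp] lemma Pair.xi_apply (i k : Fin d) :
    P.xi d (i, k) = (((Real.sqrt d)⁻¹ : ℝ) : ℂ) • (if i = k then P.ξ else 0) := rfl

lemma Pair.norm_xi (hd : 0 < d) : ‖P.xi d‖ = 1 := by
  refine (pow_left_inj₀ (norm_nonneg _) zero_le_one two_ne_zero).1 ?_
  rw [Pair.xi, norm_sq_vecOf, one_pow, Finset.sum_congr rfl (fun i _ =>
    show (∑ k, ‖if i = k then P.ξ else 0‖ ^ 2) = 1 by
      rw [Finset.sum_eq_single i] <;> simp +contextual [P.norm_ξ, eq_comm])]
  simp [hd.ne']

lemma Pair.Jd_xi : P.Jd d (P.xi d) = P.xi d :=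
  Amp.ext' fun i k => by
    by_cases h : i = k
    · simp [h, P.J_xi, LinearIsometryEquiv.map_smulₛₗ]
    · simp [h, Ne.symm h]

lemma Pair.leftOp_xi (X : Mat H d) :
    leftOp X (P.xi d) = vecOf fun i k => X i k P.ξ :=
  Amp.ext' fun i k => by
    rw [leftOp_apply, Finset.sum_eq_single k] <;> simp +contextual

lemma Pair.Jd_leftOp_xi {X : Mat H d} (hX : (∀ i j, X i j ∈ P.M) ∨ ∀ i j, X i j ∈ P.N) :
    P.Jd d (leftOp X (P.xi d)) = leftOp (star X) (P.xi d) := by
  have h : ∀ i j, P.J (X i j P.ξ) = star (X i j) P.ξ := by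
    rcases hX with h | h
    exacts [fun i j => P.J_M _ (h i j), fun i j => P.J_N _ (h i j)]
  rw [P.leftOp_xi, P.leftOp_xi]
  exact Amp.ext' fun i k => by simp [h, LinearIsometryEquiv.map_smulₛₗ, Matrix.star_apply]

lemma Pair.rightOp_mirror_xi {n : Mat H d} (hn : ∀ i j, n i j ∈ P.N) :
    rightOp (P.mirror n) (P.xi d) = leftOp (star n) (P.xi d) := by
  rw [← P.Jd_leftOp, P.Jd_xi, P.Jd_leftOp_xi (Or.inr hn)]

end Vale.Agent.P096.Full
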