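import Vale.Agent.P096.Full.Defs

/-!
P096: the modules of the standard-form argument.
-/

namespace Vale.Agent.P096.Full

universe u

/-- UNIFORM from TEST and KEY. -/
def UniformModule : Prop := TestSpec.{u} → KeySpec.{u} → UniformSpec.{u}

/-- The local form of UNIFORM. -/
def LocaliseModule : Prop := UniformSpec.{u} → UniformLocSpec.{u}

/-- LINEAR from UNIFORM. -/
def LinearModule : Prop := MirrorSpec.{u} → UniformLocSpec.{u} → LinearSpec.{u}

/-- ITERATE from LINEAR. -/
def StandardModule : Prop := LinearSpec.{u} → StandardSpec.{u}

end Vale.Agent.P096.Full
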