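import Vale.Agent.P096.Full.Amp

/-!
P096: the central partitions of a standard pair, local bounds and reweightings of the vector.
-/

open scoped InnerProductSpace ComplexConjugate
open Filter Topology

namespace Vale.Agent.P096.Full

universe u

variable {H : Type u} [NormedAddCommGroup H] [InnerProductSpace ℂ H] [CompleteSpace H] {d : ℕ}
variable (P : Pair H)

/-! ### One part -/

lemma Pair.cen_eq {k : ℕ} {q : H →L[ℂ] H} (_hq : q ∈ P.cen k) :
    q = (1 / 2 : ℂ) • ((1 : H →L[ℂ] H) - (1 - (2 : ℂ) • q)) := by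
  module

lemma Pair.cen_memM {k : ℕ} {q : H →L[ℂ] H} (hq : q ∈ P.cen k) : q ∈ P.M := by
  rw [P.cen_eq hq]
  exact SMulMemClass.smul_mem _ (sub_mem (one_mem _) (P.G_mem k _ (P.cen_sym k q hq)).1)

lemma Pair.cen_memN {k : ℕ} {q : H →L[ℂ] H} (hq : q ∈ P.cen k) : q ∈ P.N := by
  rw [P.cen_eq hq]
  exact SMulMemClass.smul_mem _ (sub_mem (one_mem _) (P.G_mem k _ (P.cen_sym k q hq)).2.1)

lemma Pair.conjOp_cen {k : ℕ} {q : H →L[ℂ] H} (hq : q ∈ P.cen k) : P.conjOp q = q := by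
  refine ContinuousLinearMap.ext fun v => congrFun (Continuous.ext_on P.dense_M
    (P.conjOp q).continuous q.continuous ?_) v
  rintro _ ⟨x, hx, rfl⟩
  rw [P.conjOp_apply, P.J_M x hx, ← comp_mul_apply, P.J_M _ (mul_mem (P.cen_memM hq) (star_mem hx)),
    star_mul, star_star, (P.cen_proj k q hq).1, ← P.cen_comm k q hq x hx, comp_mul_apply]

lemma Pair.cen_mem_B {k : ℕ} {q : H →L[ℂ] H} (hq : q ∈ P.cen k) : q ∈ P.B :=
  ⟨q, P.cen_memN hq, P.conjOp_cen hq⟩

lemma Pair.cen_comm_N {k : ℕ} {q : H →L[ℂ] H} (hq : q ∈ P.cen k) {y : H →L[ℂ] H}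
    (hy : y ∈ P.N) : q * y = y * q :=
  (P.comm_N_B hy (P.cen_mem_B hq)).symm

lemma Pair.cen_comm_B {k : ℕ} {q : H →L[ℂ] H} (hq : q ∈ P.cen k) {y : H →L[ℂ] H}
    (hy : y ∈ P.B) : q * y = y * q :=
  P.comm_N_B (P.cen_memN hq) hy

lemma Pair.cen_commute_of {T : H →L[ℂ] H} (hT : ∀ k, ∀ g ∈ P.G k, T * g = g * T) {k : ℕ}
    {q : H →L[ℂ] H} (hq : q ∈ P.cen k) : T * q = q * T := by
  have h := hT k _ (P.cen_sym k q hq)
  rw [mul_sub, sub_mul, mul_one, one_mul, mul_smul_comm, smul_mul_assoc, sub_right_inj] at h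
  exact smul_right_injective _ two_ne_zero h

lemma Pair.cen_xi_ne {k : ℕ} {q : H →L[ℂ] H} (hq : q ∈ P.cen k) : q P.ξ ≠ 0 := fun h =>
  (P.cen_proj k q hq).2.2 <| ContinuousLinearMap.ext fun v => congrFun (Continuous.ext_on
    P.dense_M q.continuous continuous_const (by
      rintro _ ⟨x, hx, rfl⟩
      show q (x P.ξ) = (0 : H →L[ℂ] H) v
      rw [← comp_mul_apply, P.cen_comm k q hq x hx, comp_mul_apply, h, map_zero, zero_apply])) v

lemma Pair.norm_cen_le {k : ℕ} {q : H →L[ℂ] H} (hq : q ∈ P.cen k) : ‖q‖ ≤ 1 :=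
  (show IsStarProjection q from ⟨(P.cen_proj k q hq).2.1, (P.cen_proj k q hq).1⟩).norm_le

/-! ### Levels -/

lemma Pair.cen_le {k l : ℕ} (hkl : k ≤ l) : ∀ r ∈ P.cen l, ∃ q ∈ P.cen k, r * q = r := by
  induction hkl with
  | refl => exact fun r hr => ⟨r, hr, (P.cen_proj k r hr).2.1⟩
  | step _ ih =>
    intro r hr
    obtain ⟨s, hs, hrs⟩ := P.cen_refine _ r hr
    obtain ⟨q, hq, hsq⟩ := ih s hs
    exact ⟨q, hq, by rw [← hrs, mul_assoc, hsq]⟩

open Classical in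
/-- The parts of level `l` under `q`. -/
noncomputable def Pair.under (q : H →L[ℂ] H) (l : ℕ) : Finset (H →L[ℂ] H) :=
  (P.cen l).filter fun r => r * q = r

lemma Pair.mem_under {q r : H →L[ℂ] H} {l : ℕ} :
    r ∈ P.under q l ↔ r ∈ P.cen l ∧ r * q = r := by
  simp [Pair.under]

lemma Pair.cen_mul {k l : ℕ} (hkl : k ≤ l) {q r : H →L[ℂ] H} (hq : q ∈ P.cen k)
    (hr : r ∈ P.cen l) (h : r * q ≠ r) : r * q = 0 := by
  obtain ⟨q', hq', hrq⟩ := P.cen_le hkl r hr
  have hne : q' ≠ q := by rintro rfl; exact h hrq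
  rw [← hrq, mul_assoc, P.cen_orth k q' hq' q hq hne, mul_zero]

lemma Pair.cen_split {k l : ℕ} (hkl : k ≤ l) {q : H →L[ℂ] H} (hq : q ∈ P.cen k) :
    ∑ r ∈ P.under q l, r = q := by
  classical
  calc ∑ r ∈ P.under q l, r = ∑ r ∈ P.cen l, if r * q = r then r else 0 := by
        rw [Pair.under, Finset.sum_filter]
    _ = ∑ r ∈ P.cen l, r * q := Finset.sum_congr rfl fun r hr => by
        split_ifs with h
        · exact h.symm
        · exact (P.cen_mul hkl hq hr h).symm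
    _ = q := by rw [← Finset.sum_mul, P.cen_sum, one_mul]

/-- Pythagoras over one partition. -/
lemma Pair.sum_norm_sq {l : ℕ} (s : Finset (H →L[ℂ] H)) (hs : s ⊆ P.cen l) (v : H) :
    ‖(∑ r ∈ s, r) v‖ ^ 2 = ∑ r ∈ s, ‖r v‖ ^ 2 := by
  have key : ∀ r ∈ s, ∀ r' ∈ s, r ≠ r' → ⟪r v, r' v⟫_ℂ = 0 := fun r hr r' hr' hne => by
    rw [← ContinuousLinearMap.adjoint_inner_right, ← ContinuousLinearMap.star_eq_adjoint,
      (P.cen_proj l r (hs hr)).1, ← comp_mul_apply, P.cen_orth l r (hs hr) r' (hs hr') hne,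
      zero_apply, inner_zero_right]
  have h : ⟪(∑ r ∈ s, r) v, (∑ r ∈ s, r) v⟫_ℂ = ∑ r ∈ s, ⟪r v, r v⟫_ℂ := by
    rw [sum_apply, sum_inner]
    refine Finset.sum_congr rfl fun r hr => ?_
    rw [inner_sum, Finset.sum_eq_single r (fun r' hr' hne => key r hr r' hr' (Ne.symm hne))
      (fun h => absurd hr h)]
  have h' := congrArg RCLike.re h
  simpa only [map_sum, inner_self_eq_norm_sq] using h'

omit [CompleteSpace H] in
lemma norm_sq_ampOp (T : H →L[ℂ] H) (v : Amp H d) :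
    ‖ampOp d T v‖ ^ 2 = ∑ p, ‖T (v p)‖ ^ 2 := by
  rw [PiLp.norm_sq_eq_of_L2]
  refine Finset.sum_congr rfl fun p _ => ?_
  rw [show p = (p.1, p.2) from rfl, ampOp_apply]

lemma Pair.sum_norm_sq_amp {l : ℕ} (s : Finset (H →L[ℂ] H)) (hs : s ⊆ P.cen l) (v : Amp H d) :
    ‖ampOp d (∑ r ∈ s, r) v‖ ^ 2 = ∑ r ∈ s, ‖ampOp d r v‖ ^ 2 := by
  simp only [norm_sq_ampOp, fun w => P.sum_norm_sq s hs w]
  exact Finset.sum_comm

/-! ### Amplifications of one operator -/

omit [CompleteSpace H] in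
lemma ampOp_mul_apply (S T : H →L[ℂ] H) (v : Amp H d) :
    ampOp d (S * T) v = ampOp d S (ampOp d T v) :=
  Amp.ext' fun i k => by simp

omit [CompleteSpace H] in
lemma ampOp_real_smul_apply (c : ℂ) (T : H →L[ℂ] H) (v : Amp H d) :
    ampOp d (c • T) v = c • ampOp d T v :=
  Amp.ext' fun i k => by simp

omit [CompleteSpace H] in
lemma commute_ampOp_leftOp {T : H →L[ℂ] H} {X : Mat H d} (h : ∀ i j, T * X i j = X i j * T) :
    ampOp d T * leftOp X = leftOp X * ampOp d T :=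
  ContinuousLinearMap.ext fun v => Amp.ext' fun i k => by
    simp only [comp_mul_apply, ampOp_apply, leftOp_apply, map_sum]
    exact Finset.sum_congr rfl fun j _ => DFunLike.congr_fun (h i j) _

omit [CompleteSpace H] in
lemma commute_ampOp_rightOp {T : H →L[ℂ] H} {Y : Mat H d} (h : ∀ i j, T * Y i j = Y i j * T) :
    ampOp d T * rightOp Y = rightOp Y * ampOp d T :=
  ContinuousLinearMap.ext fun v => Amp.ext' fun i k => by
    simp only [comp_mul_apply, ampOp_apply, rightOp_apply, map_sum]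
    exact Finset.sum_congr rfl fun l _ => DFunLike.congr_fun (h l k) _

omit [CompleteSpace H] in
lemma commute_ampOp {S T : H →L[ℂ] H} (h : S * T = T * S) :
    ampOp d S * ampOp d T = ampOp d T * ampOp d S :=
  ContinuousLinearMap.ext fun v => by
    rw [comp_mul_apply, comp_mul_apply, ← ampOp_mul_apply, ← ampOp_mul_apply, h]

/-! ### Simple operators -/

/-- An operator constant on the parts of one level. -/
def Pair.Simple (e : H →L[ℂ] H) : Prop :=
  ∃ l, ∀ r ∈ P.cen l, ∃ c : ℝ, e * r = (c : ℂ) • r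

variable {P}

lemma Pair.Simple.lift {e : H →L[ℂ] H} {l : ℕ}
    (h : ∀ r ∈ P.cen l, ∃ c : ℝ, e * r = (c : ℂ) • r) {m : ℕ} (hlm : l ≤ m) :
    ∀ r ∈ P.cen m, ∃ c : ℝ, e * r = (c : ℂ) • r := fun r hr => by
  obtain ⟨q, hq, hrq⟩ := P.cen_le hlm r hr
  obtain ⟨c, hc⟩ := h q hq
  have hqr : q * r = r := by rw [P.cen_comm l q hq r (P.cen_memM hr), hrq]
  exact ⟨c, by rw [← hqr, ← mul_assoc, hc, smul_mul_assoc, hqr]⟩

lemma Pair.IsWeight.simple {a : H →L[ℂ] H} (h : P.IsWeight a) : P.Simple a := by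
  obtain ⟨k, hk⟩ := h
  exact ⟨k, fun q hq => let ⟨c, _, hc⟩ := hk q hq; ⟨c, hc⟩⟩

lemma Pair.simple_cen {k : ℕ} {q : H →L[ℂ] H} (hq : q ∈ P.cen k) : P.Simple q := by
  classical
  refine ⟨k, fun r hr => ?_⟩
  rcases eq_or_ne q r with rfl | h
  · exact ⟨1, by simp [(P.cen_proj k q hq).2.1]⟩
  · exact ⟨0, by simp [P.cen_orth k q hq r hr h]⟩

lemma Pair.simple_one : P.Simple 1 := ⟨0, fun r _ => ⟨1, by simp⟩⟩

lemma Pair.Simple.mul {e f : H →L[ℂ] H} (he : P.Simple e) (hf : P.Simple f) :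
    P.Simple (e * f) := by
  obtain ⟨k, hk⟩ := he
  obtain ⟨l, hl⟩ := hf
  refine ⟨max k l, fun r hr => ?_⟩
  obtain ⟨a, ha⟩ := Pair.Simple.lift hk (le_max_left k l) r hr
  obtain ⟨b, hb⟩ := Pair.Simple.lift hl (le_max_right k l) r hr
  exact ⟨b * a, by rw [mul_assoc, hb, mul_smul_comm, ha, smul_smul, Complex.ofReal_mul]⟩

lemma Pair.Simple.commute {e : H →L[ℂ] H} (he : P.Simple e) {x : H →L[ℂ] H}
    (hx : ∀ k, ∀ q ∈ P.cen k, q * x = x * q) : e * x = x * e := by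
  obtain ⟨l, hl⟩ := he
  choose c hc using hl
  have e1 : e = ∑ r ∈ (P.cen l).attach, ((c r r.2 : ℝ) : ℂ) • (r : H →L[ℂ] H) := by
    rw [← Finset.sum_congr rfl fun r _ => hc r.1 r.2, Finset.sum_attach (P.cen l) fun r => e * r,
      ← Finset.mul_sum, P.cen_sum, mul_one]
  rw [e1, Finset.sum_mul, Finset.mul_sum]
  exact Finset.sum_congr rfl fun r _ => by rw [smul_mul_assoc, mul_smul_comm, hx l r.1 r.2]

lemma Pair.Simple.comm_M {e : H →L[ℂ] H} (he : P.Simple e) {x : H →L[ℂ] H} (hx : x ∈ P.M) :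
    e * x = x * e :=
  he.commute fun k q hq => P.cen_comm k q hq x hx

lemma Pair.Simple.comm_N {e : H →L[ℂ] H} (he : P.Simple e) {x : H →L[ℂ] H} (hx : x ∈ P.N) :
    e * x = x * e :=
  he.commute fun _ _ hq => P.cen_comm_N hq hx

lemma Pair.Simple.comm_B {e : H →L[ℂ] H} (he : P.Simple e) {x : H →L[ℂ] H} (hx : x ∈ P.B) :
    e * x = x * e :=
  he.commute fun _ _ hq => P.cen_comm_B hq hx

lemma Pair.Simple.comm_G {e T : H →L[ℂ] H} (he : P.Simple e)
    (hT : ∀ k, ∀ g ∈ P.G k, T * g = g * T) : e * T = T * e :=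
  he.commute fun _ _ hq => (P.cen_commute_of hT hq).symm

lemma Pair.Simple.spec {e : H →L[ℂ] H} (he : P.Simple e) :
    e ∈ P.M ∧ star e = e ∧ P.conjOp e = e := by
  obtain ⟨l, hl⟩ := he
  choose c hc using hl
  have e1 : e = ∑ r ∈ (P.cen l).attach, ((c r r.2 : ℝ) : ℂ) • (r : H →L[ℂ] H) := by
    rw [← Finset.sum_congr rfl fun r _ => hc r.1 r.2, Finset.sum_attach (P.cen l) fun r => e * r,
      ← Finset.mul_sum, P.cen_sum, mul_one]
  have hj : ∀ s : Finset {x // x ∈ P.cen l}, ∀ f : {x // x ∈ P.cen l} → (H →L[ℂ] H),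
      P.conjOp (∑ r ∈ s, f r) = ∑ r ∈ s, P.conjOp (f r) := fun s f =>
    map_sum (AddMonoidHom.mk' P.conjOp P.conjOp_add) _ _
  refine ⟨?_, ?_, ?_⟩ <;> rw [e1]
  · exact sum_mem fun r _ => SMulMemClass.smul_mem _ (P.cen_memM r.2)
  · rw [star_sum]
    exact Finset.sum_congr rfl fun r _ => by
      rw [star_smul, (P.cen_proj l r.1 r.2).1, Complex.star_def, Complex.conj_ofReal]
  · rw [hj]
    exact Finset.sum_congr rfl fun r _ => by
      rw [P.conjOp_smul, P.conjOp_cen r.2, Complex.conj_ofReal]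

/-! ### Local bounds -/

lemma Pair.Loc.simple {r : ℝ} {v : Amp H d} (h : P.Loc r v) {e : H →L[ℂ] H} (he : P.Simple e) :
    ‖ampOp d e v‖ ≤ |r| * ‖e P.ξ‖ := by
  obtain ⟨l, hl⟩ := he
  choose! c hc using hl
  refine (pow_le_pow_iff_left₀ (norm_nonneg _) (by positivity) two_ne_zero).1 ?_
  rw [mul_pow, sq_abs]
  have h1 : ∀ w : H, ‖e w‖ ^ 2 = ∑ q ∈ P.cen l, c q ^ 2 * ‖q w‖ ^ 2 := fun w => by
    have e0 := P.sum_norm_sq (P.cen l) subset_rfl (e w)
    rw [P.cen_sum, one_apply_eq_self] at e0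
    rw [e0]
    refine Finset.sum_congr rfl fun q hq => ?_
    have : q * e = ((c q : ℝ) : ℂ) • q := by
      rw [← Pair.Simple.comm_M (e := e) ⟨l, fun r hr => ⟨c r, hc r hr⟩⟩ (P.cen_memM hq), hc q hq]
    rw [← comp_mul_apply, this, smul_apply, norm_smul, mul_pow, Complex.norm_real,
      Real.norm_eq_abs, sq_abs]
  rw [norm_sq_ampOp, h1]
  simp only [h1]
  rw [Finset.sum_comm, Finset.mul_sum]
  refine Finset.sum_le_sum fun q hq => ?_
  rw [← Finset.mul_sum, ← norm_sq_ampOp]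
  have := pow_le_pow_left₀ (norm_nonneg _) (h l q hq) 2
  rw [mul_pow] at this
  calc c q ^ 2 * ‖ampOp d q v‖ ^ 2 ≤ c q ^ 2 * (r ^ 2 * ‖q P.ξ‖ ^ 2) :=
        mul_le_mul_of_nonneg_left this (sq_nonneg _)
    _ = _ := by ring

lemma Pair.Loc.nonneg {r : ℝ} {v : Amp H d} (h : P.Loc r v) : 0 ≤ r := by
  obtain ⟨q, hq⟩ : (P.cen 0).Nonempty := by
    refine Finset.nonempty_of_sum_ne_zero (f := fun q => q) ?_
    rw [P.cen_sum]
    intro h1
    have := P.norm_ξ
    rw [show P.ξ = (1 : H →L[ℂ] H) P.ξ from rfl, h1, zero_apply, norm_zero] at this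
    exact zero_ne_one this
  by_contra hr
  have h1 := h 0 q hq
  nlinarith [norm_pos_iff.2 (P.cen_xi_ne hq), norm_nonneg (ampOp d q v)]

lemma Pair.Loc.norm_le {r : ℝ} {v : Amp H d} (h : P.Loc r v) : ‖v‖ ≤ r := by
  have h1 := h.simple (P := P) Pair.simple_one
  rw [abs_of_nonneg h.nonneg, one_apply_eq_self, P.norm_ξ, mul_one] at h1
  convert h1 using 2
  exact Amp.ext' fun i k => by simp

/-- A bound on a finer level gives the bound on a coarser one. -/
lemma Pair.loc_coarse {r : ℝ} {v : Amp H d} {k l : ℕ} (hkl : k ≤ l)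
    (h : ∀ q ∈ P.cen l, ‖ampOp d q v‖ ≤ r * ‖q P.ξ‖) (hr : 0 ≤ r) {q : H →L[ℂ] H}
    (hq : q ∈ P.cen k) : ‖ampOp d q v‖ ≤ r * ‖q P.ξ‖ := by
  refine (pow_le_pow_iff_left₀ (norm_nonneg _) (by positivity) two_ne_zero).1 ?_
  have hs : P.under q l ⊆ P.cen l := fun s hs => (P.mem_under.1 hs).1
  rw [mul_pow, ← P.cen_split hkl hq, P.sum_norm_sq_amp _ hs, P.sum_norm_sq _ hs, Finset.mul_sum]
  refine Finset.sum_le_sum fun s hs' => ?_
  rw [← mul_pow]
  exact pow_le_pow_left₀ (norm_nonneg _) (h s (hs hs')) 2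

/-! ### Reweighting -/

lemma Pair.IsWeight.exists_inv {a : H →L[ℂ] H} (h : P.IsWeight a) :
    ∃ b, P.Simple b ∧ a * b = 1 ∧ b * a = 1 := by
  obtain ⟨k, hk⟩ := h
  choose! c hc0 hc using hk
  set b : H →L[ℂ] H := ∑ q ∈ P.cen k, (((c q)⁻¹ : ℝ) : ℂ) • q with hb
  have hbq : ∀ q ∈ P.cen k, b * q = (((c q)⁻¹ : ℝ) : ℂ) • q := fun q hq => by
    rw [hb, Finset.sum_mul, Finset.sum_eq_single q (fun r hr hne => by
      rw [smul_mul_assoc, P.cen_orth k r hr q hq hne, smul_zero]) (fun h => absurd hq h),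
      smul_mul_assoc, (P.cen_proj k q hq).2.1]
  have key : ∀ e f : H →L[ℂ] H, (∀ q ∈ P.cen k, e * (f * q) = q) → e * f = 1 := fun e f hef => by
    calc e * f = ∑ q ∈ P.cen k, e * (f * q) := by
          rw [← Finset.mul_sum, ← Finset.mul_sum, P.cen_sum, mul_one]
      _ = 1 := by rw [Finset.sum_congr rfl hef, P.cen_sum]
  refine ⟨b, ⟨k, fun q hq => ⟨_, hbq q hq⟩⟩, key a b fun q hq => ?_, key b a fun q hq => ?_⟩
  · rw [hbq q hq, mul_smul_comm, hc q hq, smul_smul, ← Complex.ofReal_mul,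
      inv_mul_cancel₀ (hc0 q hq).ne', Complex.ofReal_one, one_smul]
  · rw [hc q hq, mul_smul_comm, hbq q hq, smul_smul, ← Complex.ofReal_mul,
      mul_inv_cancel₀ (hc0 q hq).ne', Complex.ofReal_one, one_smul]

lemma Pair.IsWeight.norm_pos {a : H →L[ℂ] H} (h : P.IsWeight a) : 0 < ‖a P.ξ‖ := by
  obtain ⟨b, -, -, hba⟩ := h.exists_inv
  refine norm_pos_iff.2 fun h0 => ?_
  have := P.norm_ξ
  rw [show P.ξ = (1 : H →L[ℂ] H) P.ξ from rfl, ← hba, comp_mul_apply, h0, map_zero,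
    norm_zero] at this
  exact zero_ne_one this

lemma Pair.IsWeight.isWeight_one : P.IsWeight 1 := ⟨0, fun q _ => ⟨1, one_pos, by simp⟩⟩

lemma Pair.IsWeight.mul {a b : H →L[ℂ] H} (ha : P.IsWeight a) (hb : P.IsWeight b) :
    P.IsWeight (a * b) := by
  obtain ⟨k, hk⟩ := ha
  obtain ⟨l, hl⟩ := hb
  refine ⟨max k l, fun r hr => ?_⟩
  have lift : ∀ {e : H →L[ℂ] H} {j : ℕ}, j ≤ max k l →
      (∀ q ∈ P.cen j, ∃ c : ℝ, 0 < c ∧ e * q = (c : ℂ) • q) →
      ∃ c : ℝ, 0 < c ∧ e * r = (c : ℂ) • r := fun {e j} hj hq => by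
    obtain ⟨q, hqc, hrq⟩ := P.cen_le hj r hr
    obtain ⟨c, hc0, hc⟩ := hq q hqc
    have hqr : q * r = r := by rw [P.cen_comm j q hqc r (P.cen_memM hr), hrq]
    exact ⟨c, hc0, by rw [← hqr, ← mul_assoc, hc, smul_mul_assoc, hqr]⟩
  obtain ⟨x, hx0, hx⟩ := lift (le_max_left k l) hk
  obtain ⟨y, hy0, hy⟩ := lift (le_max_right k l) hl
  exact ⟨y * x, mul_pos hy0 hx0, by
    rw [mul_assoc, hy, mul_smul_comm, hx, smul_smul, Complex.ofReal_mul]⟩

/-- The weight that is one on `q` and `ε` elsewhere. -/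
lemma Pair.isWeight_part {k : ℕ} {q : H →L[ℂ] H} (hq : q ∈ P.cen k) {ε : ℝ} (hε : 0 < ε) :
    P.IsWeight (q + (ε : ℂ) • (1 - q)) := by
  refine ⟨k, fun r hr => ?_⟩
  rcases eq_or_ne q r with rfl | h
  · exact ⟨1, one_pos, by simp [add_mul, sub_mul, (P.cen_proj k q hq).2.1]⟩
  · exact ⟨ε, hε, by simp [add_mul, sub_mul, P.cen_orth k q hq r hr h]⟩

variable (P)

/-- The scalar normalising a reweighted vector. -/
noncomputable def Pair.wscale (a : H →L[ℂ] H) : ℂ := ((‖a P.ξ‖⁻¹ : ℝ) : ℂ)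

/-- The pair with the vector `a ξ`, normalised. -/
noncomputable def Pair.reweigh (a : H →L[ℂ] H) (ha : P.IsWeight a) : Pair H :=
  { P with
    ξ := P.wscale a • a P.ξ
    norm_ξ := by
      rw [Pair.wscale, norm_smul, Complex.norm_real, norm_inv, norm_norm,
        inv_mul_cancel₀ ha.norm_pos.ne']
    J_M := fun x hx => by
      obtain ⟨haM, has, -⟩ := ha.simple.spec
      rw [map_smul, LinearIsometryEquiv.map_smulₛₗ, Pair.wscale, Complex.conj_ofReal,
        ← comp_mul_apply, P.J_M _ (mul_mem hx haM), star_mul, has,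
        ha.simple.comm_M (star_mem hx), comp_mul_apply, ← map_smul]
    J_N := fun x hx => by
      have haN : a ∈ P.N := by
        obtain ⟨k, hk⟩ := ha
        choose! c _ hc using hk
        rw [← mul_one a, ← P.cen_sum k, Finset.mul_sum]
        exact sum_mem fun q hq => by rw [hc q hq]; exact SMulMemClass.smul_mem _ (P.cen_memN hq)
      obtain ⟨-, has, -⟩ := ha.simple.spec
      rw [map_smul, LinearIsometryEquiv.map_smulₛₗ, Pair.wscale, Complex.conj_ofReal,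
        ← comp_mul_apply, P.J_N _ (mul_mem hx haN), star_mul, has,
        ha.simple.comm_N (star_mem hx), comp_mul_apply, ← map_smul]
    dense_M := by
      obtain ⟨b, hb, hab, -⟩ := ha.exists_inv
      refine P.dense_M.mono ?_
      rintro _ ⟨y, hy, rfl⟩
      refine ⟨((‖a P.ξ‖ : ℝ) : ℂ) • (b * y), SMulMemClass.smul_mem _ (mul_mem hb.spec.1 hy), ?_⟩
      show (((‖a P.ξ‖ : ℝ) : ℂ) • (b * y)) (P.wscale a • a P.ξ) = y P.ξ
      rw [map_smul, smul_apply, smul_smul, Pair.wscale, ← Complex.ofReal_mul,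
        inv_mul_cancel₀ ha.norm_pos.ne', Complex.ofReal_one, one_smul, hb.comm_M hy,
        ← comp_mul_apply, mul_assoc, ← ha.simple.comm_M hb.spec.1, hab, mul_one]
    dense_N := by
      obtain ⟨b, hb, hab, -⟩ := ha.exists_inv
      have hbN : b ∈ P.N := by
        obtain ⟨l, hl⟩ := hb
        choose! c hc using hl
        rw [← mul_one b, ← P.cen_sum l, Finset.mul_sum]
        exact sum_mem fun q hq => by rw [hc q hq]; exact SMulMemClass.smul_mem _ (P.cen_memN hq)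
      refine P.dense_N.mono ?_
      rintro _ ⟨y, hy, rfl⟩
      refine ⟨((‖a P.ξ‖ : ℝ) : ℂ) • (b * y), SMulMemClass.smul_mem _ (mul_mem hbN hy), ?_⟩
      show (((‖a P.ξ‖ : ℝ) : ℂ) • (b * y)) (P.wscale a • a P.ξ) = y P.ξ
      rw [map_smul, smul_apply, smul_smul, Pair.wscale, ← Complex.ofReal_mul,
        inv_mul_cancel₀ ha.norm_pos.ne', Complex.ofReal_one, one_smul, hb.comm_N hy,
        ← comp_mul_apply, mul_assoc, ← ha.simple.comm_M hb.spec.1, hab, mul_one]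
    G_fix := fun η hη => by
      refine Submodule.topologicalClosure_mono ?_ (P.G_fix η hη)
      refine Submodule.span_le.2 ?_
      rintro _ ⟨k, q, hq, rfl⟩
      obtain ⟨m, hm⟩ := ha
      rw [← P.cen_split (le_max_left k m) hq, sum_apply]
      refine sum_mem fun r hr => ?_
      obtain ⟨hr, -⟩ := P.mem_under.1 hr
      obtain ⟨s, hs, hrs⟩ := P.cen_le (le_max_right k m) r hr
      obtain ⟨c, hc0, hc⟩ := hm s hs
      have e : r (P.wscale a • a P.ξ) = (P.wscale a * c) • r P.ξ := by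
        have : r * a = (c : ℂ) • r := by
          have hw : P.IsWeight a := ⟨m, hm⟩
          rw [← hw.simple.comm_M (P.cen_memM hr)]
          have hsr : s * r = r := by rw [P.cen_comm m s hs r (P.cen_memM hr), hrs]
          rw [← hsr, ← mul_assoc, hc, smul_mul_assoc, hsr]
        rw [map_smul, ← comp_mul_apply, this, smul_apply, smul_smul]
      have hne : P.wscale a * c ≠ 0 := mul_ne_zero
        (Complex.ofReal_ne_zero.2 (inv_ne_zero (Pair.IsWeight.norm_pos ⟨m, hm⟩).ne'))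
        (Complex.ofReal_ne_zero.2 hc0.ne')
      rw [show r P.ξ = (P.wscale a * c)⁻¹ • r (P.wscale a • a P.ξ) by
        rw [e, smul_smul, inv_mul_cancel₀ hne, one_smul]]
      exact Submodule.smul_mem _ _ (Submodule.subset_span ⟨_, r, hr, rfl⟩) }

lemma Pair.reweigh_ξ (a : H →L[ℂ] H) (ha : P.IsWeight a) :
    (P.reweigh a ha).ξ = P.wscale a • a P.ξ := rfl

lemma Pair.reweigh_xi (a : H →L[ℂ] H) (ha : P.IsWeight a) :
    (P.reweigh a ha).xi d = P.wscale a • ampOp d a (P.xi d) := by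
  refine Amp.ext' fun i k => ?_
  rw [Pair.xi_apply, PiLp.smul_apply, ampOp_apply, Pair.xi_apply, map_smul, P.reweigh_ξ a ha]
  by_cases h : i = k <;> simp [h, smul_comm (P.wscale a)]

lemma Pair.norm_wscale (a : H →L[ℂ] H) : ‖P.wscale a‖ = ‖a P.ξ‖⁻¹ := by
  rw [Pair.wscale, Complex.norm_real, norm_inv, norm_norm]

variable {P}

lemma Pair.OpLe.reweigh {γ : ℝ} (h : P.OpLe γ) {a : H →L[ℂ] H} (ha : P.IsWeight a) :
    (P.reweigh a ha).OpLe γ :=
  ⟨h.nonneg, h.inclM, h.inclN, h.comm, h.nearM, h.nearN⟩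

/-- The commutator of the two sides commutes with simple operators. -/
lemma Pair.Simple.comm_commutator {e : H →L[ℂ] H} (he : P.Simple e) {X Y : Mat H d}
    (hX : ∀ i j, X i j ∈ P.M) (hY : ∀ i j, Y i j ∈ P.B) (v : Amp H d) :
    (leftOp X * rightOp Y - rightOp Y * leftOp X) (ampOp d e v) =
      ampOp d e ((leftOp X * rightOp Y - rightOp Y * leftOp X) v) := by
  have h1 := DFunLike.congr_fun (commute_ampOp_leftOp (T := e) fun i j => he.comm_M (hX i j))
  have h2 := DFunLike.congr_fun (commute_ampOp_rightOp (T := e) fun i j => he.comm_B (hY i j))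
  simp only [comp_mul_apply] at h1 h2
  simp only [sub_apply, comp_mul_apply, map_sub, h1, h2]

lemma Pair.NuLoc.nuLe {ν : ℝ} (h : P.NuLoc ν) : P.NuLe ν :=
  ⟨h.pos, fun d X Y hX hY => (h.bound d X Y hX hY).norm_le⟩

lemma Pair.NuLoc.reweigh {ν : ℝ} (h : P.NuLoc ν) {a : H →L[ℂ] H} (ha : P.IsWeight a) :
    (P.reweigh a ha).NuLoc ν := by
  refine ⟨h.pos, fun d X Y hX hY k q hq => ?_⟩
  have hs : P.Simple (q * a) := (Pair.simple_cen (P := P) hq).mul ha.simple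
  have hb := (h.bound d X Y hX hY).simple hs
  rw [abs_of_nonneg (h.bound d X Y hX hY).nonneg] at hb
  rw [P.reweigh_xi a ha, map_smul, ha.simple.comm_commutator hX hY, map_smul,
    ← ampOp_mul_apply, norm_smul, P.norm_wscale, P.reweigh_ξ a ha, map_smul, norm_smul,
    P.norm_wscale, ← comp_mul_apply, mul_left_comm]
  exact mul_le_mul_of_nonneg_left hb (by positivity)

/-- Local bounds from the bounds at all reweightings of one level. -/
lemma Pair.loc_of_parts {r : ℝ} {v : Amp H d}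
    (h : ∀ k, ∀ q ∈ P.cen k, ∀ ε : ℝ, 0 < ε →
      ‖ampOp d (q + (ε : ℂ) • (1 - q)) v‖ ≤ r * ‖(q + (ε : ℂ) • (1 - q)) P.ξ‖) :
    P.Loc r v := by
  intro k q hq
  have ht : Tendsto (fun ε : ℝ => (ε : ℂ)) (𝓝[>] (0 : ℝ)) (𝓝 0) := by
    have := (Complex.continuous_ofReal.tendsto (0 : ℝ)).mono_left
      (nhdsWithin_le_nhds (s := Set.Ioi (0 : ℝ)))
    simpa using this
  have e : ∀ w : Amp H d, ∀ ε : ℂ, ampOp d (q + ε • (1 - q)) w =
      ampOp d q w + ε • (w - ampOp d q w) := fun w ε => Amp.ext' fun i j => by simp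
  have h1 : Tendsto (fun ε : ℝ => ‖ampOp d (q + (ε : ℂ) • (1 - q)) v‖) (𝓝[>] (0 : ℝ))
      (𝓝 ‖ampOp d q v‖) := by
    simp only [e]
    simpa using ((ht.smul_const (v - ampOp d q v)).const_add (ampOp d q v)).norm
  have h2 : Tendsto (fun ε : ℝ => r * ‖(q + (ε : ℂ) • (1 - q)) P.ξ‖) (𝓝[>] (0 : ℝ))
      (𝓝 (r * ‖q P.ξ‖)) := by
    simp only [add_apply, smul_apply, sub_apply, one_apply_eq_self]
    simpa using (((ht.smul_const (P.ξ - q P.ξ)).const_add (q P.ξ)).norm).const_mul r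
  exact le_of_tendsto_of_tendsto h1 h2
    (eventually_nhdsWithin_of_forall fun ε hε => h k q hq ε hε)

end Vale.Agent.P096.Full
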