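import Vale.Agent.P096.Lit.Statement

/-!
P096, II_1 factors: interfaces of the modules. See notes/helper13/P096/PROOF.md.
-/

open scoped InnerProductSpace ComplexConjugate
open Filter Topology

namespace Vale.Agent.P096.Full

universe u

/-- A standard pair: two close algebras on a common standard Hilbert space, with one conjugation,
an increasing sequence of finite unitary groups in both and finite central partitions. -/
structure Pair (H : Type u) [NormedAddCommGroup H] [InnerProductSpace ℂ H] [CompleteSpace H] where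
  /-- The first algebra. -/
  M : StarSubalgebra ℂ (H →L[ℂ] H)
  /-- The second algebra. -/
  N : StarSubalgebra ℂ (H →L[ℂ] H)
  closed_M : IsClosed (M : Set (H →L[ℂ] H))
  closed_N : IsClosed (N : Set (H →L[ℂ] H))
  ξ : H
  norm_ξ : ‖ξ‖ = 1
  J : H ≃ₗᵢ⋆[ℂ] H
  J_J : ∀ h, J (J h) = h
  J_M : ∀ x ∈ M, J (x ξ) = star x ξ
  J_N : ∀ x ∈ N, J (x ξ) = star x ξ
  dense_M : Dense ((fun x : H →L[ℂ] H => x ξ) '' (M : Set (H →L[ℂ] H)))
  dense_N : Dense ((fun x : H →L[ℂ] H => x ξ) '' (N : Set (H →L[ℂ] H)))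
  comm_M : ∀ x ∈ M, ∀ y ∈ M, ∀ h, x (J (y (J h))) = J (y (J (x h)))
  comm_N : ∀ x ∈ N, ∀ y ∈ N, ∀ h, x (J (y (J h))) = J (y (J (x h)))
  /-- The finite groups. -/
  G : ℕ → Finset (H →L[ℂ] H)
  G_mono : ∀ k, G k ⊆ G (k + 1)
  G_mem : ∀ k, ∀ g ∈ G k, g ∈ M ∧ g ∈ N ∧ star g * g = 1 ∧ g * star g = 1
  G_one : ∀ k, (1 : H →L[ℂ] H) ∈ G k
  G_mul : ∀ k, ∀ g ∈ G k, ∀ h ∈ G k, g * h ∈ G k
  G_star : ∀ k, ∀ g ∈ G k, star g ∈ G k
  /-- The central partitions. -/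
  cen : ℕ → Finset (H →L[ℂ] H)
  cen_proj : ∀ k, ∀ q ∈ cen k, star q = q ∧ q * q = q ∧ q ≠ 0
  cen_orth : ∀ k, ∀ p ∈ cen k, ∀ q ∈ cen k, p ≠ q → p * q = 0
  cen_sum : ∀ k, ∑ q ∈ cen k, q = 1
  cen_sym : ∀ k, ∀ q ∈ cen k, 1 - (2 : ℂ) • q ∈ G k
  cen_refine : ∀ k, ∀ q ∈ cen (k + 1), ∃ p ∈ cen k, q * p = q
  cen_comm : ∀ k, ∀ q ∈ cen k, ∀ x ∈ M, q * x = x * q
  G_fix : ∀ η : H, (∀ k, ∀ g ∈ G k, g (J (g (J η))) = η) →
    η ∈ (Submodule.span ℂ {v | ∃ k, ∃ q ∈ cen k, v = q ξ}).topologicalClosure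

variable {H : Type u} [NormedAddCommGroup H] [InnerProductSpace ℂ H] [CompleteSpace H]

/-- `J T J` as a linear operator. -/
noncomputable def Pair.conjOp (P : Pair H) (T : H →L[ℂ] H) : H →L[ℂ] H :=
  (P.J.toContinuousLinearEquiv.toContinuousLinearMap).comp
    (T.comp P.J.toContinuousLinearEquiv.toContinuousLinearMap)

/-- The commutant side of `N`: the operators `J n J`. -/
def Pair.B (P : Pair H) : Set (H →L[ℂ] H) := P.conjOp '' (P.N : Set (H →L[ℂ] H))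

/-- Tuples of vectors indexed by matrix positions. -/
abbrev Amp (H : Type u) [NormedAddCommGroup H] [InnerProductSpace ℂ H] (d : ℕ) : Type u :=
  PiLp 2 (fun _ : Fin d × Fin d => H)

/-- Square matrices of operators. -/
abbrev Mat (H : Type u) [NormedAddCommGroup H] [InnerProductSpace ℂ H] (d : ℕ) : Type u :=
  Matrix (Fin d) (Fin d) (H →L[ℂ] H)

/-- The position `p` of a tuple. -/
noncomputable def coord {d : ℕ} (p : Fin d × Fin d) : Amp H d →L[ℂ] H :=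
  PiLp.proj 2 (fun _ : Fin d × Fin d => H) p

/-- A tuple from its positions. -/
noncomputable def pack {d : ℕ} {K : Type u} [NormedAddCommGroup K] [InnerProductSpace ℂ K]
    (f : Fin d × Fin d → (K →L[ℂ] H)) : K →L[ℂ] Amp H d :=
  ((PiLp.continuousLinearEquiv 2 ℂ (fun _ : Fin d × Fin d => H)).symm.toContinuousLinearMap).comp
    (ContinuousLinearMap.pi f)

/-- A matrix acting on the first index. -/
noncomputable def leftOp {d : ℕ} (X : Mat H d) : Amp H d →L[ℂ] Amp H d :=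
  pack fun p => ∑ j, (X p.1 j).comp (coord (j, p.2))

/-- A matrix acting on the second index. -/
noncomputable def rightOp {d : ℕ} (Y : Mat H d) : Amp H d →L[ℂ] Amp H d :=
  pack fun p => ∑ l, (Y l p.2).comp (coord (p.1, l))

/-- The product seen by `rightOp`. -/
noncomputable def rmul {d : ℕ} (Y₁ Y₂ : Mat H d) : Mat H d :=
  fun m k => ∑ l, Y₁ l k * Y₂ m l

/-- The normalised tuple of a matrix of vectors. -/
noncomputable def vecOf {d : ℕ} (v : Fin d → Fin d → H) : Amp H d :=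
  WithLp.toLp 2 fun p => (((Real.sqrt d)⁻¹ : ℝ) : ℂ) • v p.1 p.2

/-- The amplified trace vector. -/
noncomputable def Pair.xi (P : Pair H) (d : ℕ) : Amp H d :=
  vecOf fun i k => if i = k then P.ξ else 0

/-- The mirror of a matrix over `N`. -/
noncomputable def Pair.mirror (P : Pair H) {d : ℕ} (n : Mat H d) : Mat H d :=
  fun j k => P.conjOp (n k j)

/-- The operator defect of the pair. -/
structure Pair.OpLe (P : Pair H) (γ : ℝ) : Prop where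
  nonneg : 0 ≤ γ
  inclM : NearIncl (P.M : Set (H →L[ℂ] H)) P.N γ
  inclN : NearIncl (P.N : Set (H →L[ℂ] H)) P.M γ
  comm : ∀ (d : ℕ) (X Y : Mat H d), (∀ i j, X i j ∈ P.M) → (∀ i j, Y i j ∈ P.B) →
    ‖leftOp X * rightOp Y - rightOp Y * leftOp X‖ ≤ γ * (‖leftOp X‖ * ‖rightOp Y‖)
  nearM : ∀ (d : ℕ) (X : Mat H d), (∀ i j, X i j ∈ P.M) → ∃ Y : Mat H d, (∀ i j, Y i j ∈ P.N) ∧
    ‖leftOp X - leftOp Y‖ ≤ γ * ‖leftOp X‖
  nearN : ∀ (d : ℕ) (X : Mat H d), (∀ i j, X i j ∈ P.N) → ∃ Y : Mat H d, (∀ i j, Y i j ∈ P.M) ∧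
    ‖leftOp X - leftOp Y‖ ≤ γ * ‖leftOp X‖

/-- The vector defect of the pair. -/
structure Pair.NuLe (P : Pair H) (ν : ℝ) : Prop where
  pos : 0 < ν
  bound : ∀ (d : ℕ) (X Y : Mat H d), (∀ i j, X i j ∈ P.M) → (∀ i j, Y i j ∈ P.B) →
    ‖(leftOp X * rightOp Y - rightOp Y * leftOp X) (P.xi d)‖ ≤
      ν * (‖leftOp X‖ * ‖rightOp Y‖)

/-- A symmetry. -/
def IsSymm {A : Type*} [Mul A] [One A] [Star A] (a : A) : Prop := star a = a ∧ a * a = 1

/-- Symmetries of `M` and of `N` that mirror each other. -/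
structure Pair.Mirrored (P : Pair H) (C γ ν : ℝ) {d : ℕ} (X n : Mat H d) : Prop where
  memX : ∀ i j, X i j ∈ P.M
  memn : ∀ i j, n i j ∈ P.N
  symmX : IsSymm X
  symmn : IsSymm n
  opNear : ‖leftOp n - leftOp X‖ ≤ C * γ
  vecNear : ‖(leftOp n - leftOp X) (P.xi d)‖ ≤ C * ν

/-- Symmetries of `M` and of `N` that mirror each other on the trace vector only. -/
structure Pair.VecMirrored (P : Pair H) (C ν : ℝ) {d : ℕ} (X n : Mat H d) : Prop where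
  memX : ∀ i j, X i j ∈ P.M
  memn : ∀ i j, n i j ∈ P.N
  symmX : IsSymm X
  symmn : IsSymm n
  vecNear : ‖(leftOp n - leftOp X) (P.xi d)‖ ≤ C * ν

theorem Pair.Mirrored.vec {P : Pair H} {C γ ν : ℝ} {d : ℕ} {X n : Mat H d}
    (h : P.Mirrored C γ ν X n) : P.VecMirrored C ν X n :=
  ⟨h.memX, h.memn, h.symmX, h.symmn, h.vecNear⟩

/-- MIRROR: symmetries of either algebra have mirrors in the other. -/
def MirrorSpec : Prop :=
  ∃ C γ₀ : ℝ, 0 < γ₀ ∧ 0 ≤ C ∧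
  ∀ (H : Type u) [NormedAddCommGroup H] [InnerProductSpace ℂ H] [CompleteSpace H]
    (P : Pair H) (γ ν : ℝ), γ ≤ γ₀ → P.OpLe γ → P.NuLe ν → ∀ d : ℕ, 0 < d →
      (∀ X : Mat H d, (∀ i j, X i j ∈ P.M) → IsSymm X → ∃ n, P.Mirrored C γ ν X n) ∧
      (∀ n : Mat H d, (∀ i j, n i j ∈ P.N) → IsSymm n → ∃ X, P.Mirrored C γ ν X n)

/-- The data of one test: two mirrored symmetries and a finite group, inside one pair of algebras
acting on one Hilbert space with a vector. -/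
structure Letters (K : Type u) [NormedAddCommGroup K] [InnerProductSpace ℂ K] [CompleteSpace K]
    where
  /-- The left algebra. -/
  A : StarSubalgebra ℂ (K →L[ℂ] K)
  /-- The right algebra. -/
  B : StarSubalgebra ℂ (K →L[ℂ] K)
  v : K
  X : K →L[ℂ] K
  X' : K →L[ℂ] K
  Y : K →L[ℂ] K
  Y' : K →L[ℂ] K
  ι : Type u
  fin : Fintype ι
  grp : Group ι
  /-- The group on the left. -/
  a : ι →* (K →L[ℂ] K)
  /-- The group on the right, in reversed order. -/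
  b : ι → (K →L[ℂ] K)
  b_one : b 1 = 1
  b_mul : ∀ i j, b (i * j) = b j * b i
  norm_v : ‖v‖ ≤ 1
  memA : X ∈ A ∧ Y ∈ A ∧ ∀ i, a i ∈ A
  memB : X' ∈ B ∧ Y' ∈ B ∧ ∀ i, b i ∈ B
  symm : IsSymm X ∧ IsSymm X' ∧ IsSymm Y ∧ IsSymm Y'
  a_star : ∀ i, star (a i) = a i⁻¹
  b_star : ∀ i, star (b i) = b i⁻¹
  a_comm : ∀ i, ∀ y ∈ B, a i * y = y * a i
  b_comm : ∀ i, ∀ x ∈ A, b i * x = x * b i
  a_v : ∀ i, a i v = b i v

/-- Words of length at most `L`. -/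
abbrev Word (ι : Type u) (L : ℕ) : Type u := Σ n : Fin (L + 1), Fin n → ι

/-- Truncated full Fock space with coefficients in `K`. -/
abbrev Fock (K : Type u) [NormedAddCommGroup K] [InnerProductSpace ℂ K] (ι : Type u) [Fintype ι]
    (L : ℕ) : Type u :=
  PiLp 2 (fun _ : Word ι L => K)

variable {K : Type u} [NormedAddCommGroup K] [InnerProductSpace ℂ K] [CompleteSpace K]
  {ι : Type u} [Fintype ι] {L : ℕ}

/-- The first letter is created, weighted by `a`. -/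
noncomputable def createL (a : ι → (K →L[ℂ] K)) : Fock K ι L →L[ℂ] Fock K ι L :=
  ((PiLp.continuousLinearEquiv 2 ℂ (fun _ : Word ι L => K)).symm.toContinuousLinearMap).comp
    (ContinuousLinearMap.pi fun s : Word ι L =>
      if hs : 0 < s.1.val then
        (((Real.sqrt (Fintype.card ι))⁻¹ : ℝ) : ℂ) • (a (s.2 ⟨0, hs⟩)).comp
          (PiLp.proj 2 (fun _ : Word ι L => K)
            ⟨⟨s.1.val - 1, lt_of_le_of_lt (Nat.sub_le _ _) s.1.2⟩,
              fun i => s.2 ⟨i.val + 1, Nat.add_lt_of_lt_sub i.2⟩⟩)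
      else 0)

/-- The last letter is created, weighted by `b`. -/
noncomputable def createR (b : ι → (K →L[ℂ] K)) : Fock K ι L →L[ℂ] Fock K ι L :=
  ((PiLp.continuousLinearEquiv 2 ℂ (fun _ : Word ι L => K)).symm.toContinuousLinearMap).comp
    (ContinuousLinearMap.pi fun s : Word ι L =>
      if hs : 0 < s.1.val then
        (((Real.sqrt (Fintype.card ι))⁻¹ : ℝ) : ℂ) •
          (b (s.2 ⟨s.1.val - 1, Nat.sub_lt hs Nat.one_pos⟩)).comp
          (PiLp.proj 2 (fun _ : Word ι L => K)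
            ⟨⟨s.1.val - 1, lt_of_le_of_lt (Nat.sub_le _ _) s.1.2⟩,
              fun i => s.2 ⟨i.val, lt_of_lt_of_le i.2 (Nat.sub_le _ _)⟩⟩)
      else 0)

/-- `S` of the left family. -/
noncomputable def semiL (a : ι → (K →L[ℂ] K)) : Fock K ι L →L[ℂ] Fock K ι L :=
  createL a + star (createL a)

/-- `D` of the right family. -/
noncomputable def semiR (b : ι → (K →L[ℂ] K)) : Fock K ι L →L[ℂ] Fock K ι L :=
  createR b + star (createR b)

/-- The vacuum with coefficient `v`. -/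
noncomputable def vac (ι : Type u) [Fintype ι] (L : ℕ) (v : K) : Fock K ι L :=
  WithLp.toLp 2 fun s => if s.1.val = 0 then v else 0

/-- The bound on commutators of functions of the free amplifications of two families. -/
def TestLe {K : Type u} [NormedAddCommGroup K] [InnerProductSpace ℂ K] [CompleteSpace K]
    (A B : StarSubalgebra ℂ (K →L[ℂ] K)) (v : K) (ν : ℝ) : Prop :=
  ∀ (ι : Type u) [Fintype ι] (bar : ι → ι) (a b : ι → (K →L[ℂ] K)) (L : ℕ)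
    (p r : Polynomial ℝ) (cp cr : ℝ),
    (∀ i, bar (bar i) = i ∧ bar i ≠ i) →
    (∀ i, a i ∈ A ∧ star (a i) * a i = 1 ∧ a i * star (a i) = 1 ∧ a (bar i) = star (a i)) →
    (∀ i, b i ∈ B ∧ star (b i) * b i = 1 ∧ b i * star (b i) = 1 ∧ b (bar i) = star (b i)) →
    (∀ t ∈ Set.Icc (-2 : ℝ) 2, |p.eval t| ≤ cp) → (∀ t ∈ Set.Icc (-2 : ℝ) 2, |r.eval t| ≤ cr) →
    p.natDegree + r.natDegree < L →
    ‖(Polynomial.aeval (semiL (L := L) a) (p.map (algebraMap ℝ ℂ)) *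
          Polynomial.aeval (semiR (L := L) b) (r.map (algebraMap ℝ ℂ)) -
        Polynomial.aeval (semiR (L := L) b) (r.map (algebraMap ℝ ℂ)) *
          Polynomial.aeval (semiL (L := L) a) (p.map (algebraMap ℝ ℂ))) (vac ι L v)‖ ≤
      ν * (cp * cr)

/-- TEST: the two defects bound the free test on every amplification. -/
def TestSpec : Prop :=
  ∀ (H : Type u) [NormedAddCommGroup H] [InnerProductSpace ℂ H] [CompleteSpace H]
    (P : Pair H) (ν : ℝ), P.NuLe ν → ∀ (d : ℕ), 0 < d →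
    ∀ (A B : StarSubalgebra ℂ (Amp H d →L[ℂ] Amp H d)),
      (∀ T ∈ A, ∃ X : Mat H d, (∀ i j, X i j ∈ P.M) ∧ T = leftOp X) →
      (∀ T ∈ B, ∃ Y : Mat H d, (∀ i j, Y i j ∈ P.B) ∧ T = rightOp Y) →
      TestLe A B (P.xi d) ν

/-- The residual of a pair of maps at one test. -/
noncomputable def Letters.residual {K : Type u} [NormedAddCommGroup K] [InnerProductSpace ℂ K]
    [CompleteSpace K] (E : Letters K) (L Λ : (K →L[ℂ] K) → K) : K :=
  (E.X * E.Y' - E.Y' * E.X) E.v + L (E.X * E.Y) + Λ (E.Y' * E.X') -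
    E.X (L E.Y + Λ E.Y') - E.Y' (L E.X + Λ E.X') + (E.X * E.Y') (L 1 + Λ 1)

/-- KEY: one test gives two bounded equivariant maps with small residual. -/
def KeySpec : Prop :=
  ∃ C : ℝ, 0 ≤ C ∧
  ∀ (K : Type u) [NormedAddCommGroup K] [InnerProductSpace ℂ K] [CompleteSpace K]
    (E : Letters K) (γ ν : ℝ) (N : ℕ),
    0 ≤ γ → 0 < ν → 64 ≤ N →
    (∀ x ∈ E.A, ∀ y ∈ E.B, ‖x * y - y * x‖ ≤ γ * (‖x‖ * ‖y‖)) →
    (∀ x ∈ E.A, ∀ y ∈ E.B, ‖(x * y - y * x) E.v‖ ≤ ν * (‖x‖ * ‖y‖)) →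
    ‖E.X E.v - E.X' E.v‖ ≤ ν → ‖E.Y E.v - E.Y' E.v‖ ≤ ν → TestLe E.A E.B E.v ν →
    ∃ L Λ : (K →L[ℂ] K) → K,
      (∀ x ∈ E.A, ∀ y ∈ E.A, ∀ c : ℂ, L (c • x + y) = c • L x + L y) ∧
      (∀ x ∈ E.B, ∀ y ∈ E.B, ∀ c : ℂ, Λ (c • x + y) = c • Λ x + Λ y) ∧
      (∀ x ∈ E.A, ‖L x‖ ≤ C * ν * ‖x‖) ∧ (∀ y ∈ E.B, ‖Λ y‖ ≤ C * ν * ‖y‖) ∧
      (∀ x ∈ E.A, ∀ i j, L (E.a i * x * E.a j) = E.a i (E.b j (L x))) ∧
      (∀ y ∈ E.B, ∀ i j, Λ (E.b j * y * E.b i) = E.a i (E.b j (Λ y))) ∧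
      ‖E.residual L Λ‖ ≤ C * ν * (1 / Real.sqrt (Real.log N) + N * γ)

/-- The normalised tuple of the images of the entries of a matrix. -/
noncomputable def mapVec {d : ℕ} (L : (H →L[ℂ] H) → H) (X : Mat H d) : Amp H d :=
  vecOf fun i k => L (X i k)

/-- UNIFORM: one pair of maps for all tests. -/
def UniformSpec : Prop :=
  ∀ C₀ : ℝ, 0 ≤ C₀ → ∃ C : ℝ, 0 ≤ C ∧
  ∀ (H : Type u) [NormedAddCommGroup H] [InnerProductSpace ℂ H] [CompleteSpace H]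
    (P : Pair H) (γ ν : ℝ) (N : ℕ), 64 ≤ N → P.OpLe γ → P.NuLe ν →
    ∃ L Λ : (H →L[ℂ] H) → H,
      (∀ x ∈ P.M, ∀ y ∈ P.M, ∀ c : ℂ, L (c • x + y) = c • L x + L y) ∧
      (∀ x ∈ P.B, ∀ y ∈ P.B, ∀ c : ℂ, Λ (c • x + y) = c • Λ x + Λ y) ∧
      (∀ (d : ℕ) (X : Mat H d), 0 < d → (∀ i j, X i j ∈ P.M) →
        ‖mapVec L X‖ ≤ C * ν * ‖leftOp X‖) ∧
      (∀ (d : ℕ) (Y : Mat H d), 0 < d → (∀ i j, Y i j ∈ P.B) →
        ‖mapVec Λ Y‖ ≤ C * ν * ‖rightOp Y‖) ∧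
      (∀ k, ∀ g ∈ P.G k, ∀ h ∈ P.G k, ∀ x ∈ P.M,
        L (g * x * h) = g (P.conjOp (star h) (L x))) ∧
      (∀ k, ∀ g ∈ P.G k, ∀ h ∈ P.G k, ∀ y ∈ P.B,
        Λ (P.conjOp (star h) * y * P.conjOp (star g)) = g (P.conjOp (star h) (Λ y))) ∧
      ∀ (d : ℕ) (X Y nX nY : Mat H d), 0 < d →
        P.VecMirrored C₀ ν X nX → P.VecMirrored C₀ ν Y nY →
        ‖(leftOp X * rightOp (P.mirror nY) - rightOp (P.mirror nY) * leftOp X) (P.xi d)
          + mapVec L (X * Y) + mapVec Λ (rmul (P.mirror nY) (P.mirror nX))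
          - leftOp X (mapVec L Y + mapVec Λ (P.mirror nY))
          - rightOp (P.mirror nY) (mapVec L X + mapVec Λ (P.mirror nX))
          + leftOp X (rightOp (P.mirror nY) (mapVec L 1 + mapVec Λ 1))‖ ≤
          C * ν * (1 / Real.sqrt (Real.log N) + N * γ)

/-- An operator acting in every position. -/
noncomputable def ampOp (d : ℕ) (T : H →L[ℂ] H) : Amp H d →L[ℂ] Amp H d :=
  pack fun p => T.comp (coord p)

/-- The bound `r`, local over the central partitions. -/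
def Pair.Loc (P : Pair H) {d : ℕ} (r : ℝ) (v : Amp H d) : Prop :=
  ∀ k, ∀ q ∈ P.cen k, ‖ampOp d q v‖ ≤ r * ‖q P.ξ‖

/-- The vector defect of the pair, local over the central partitions. -/
structure Pair.NuLoc (P : Pair H) (ν : ℝ) : Prop where
  pos : 0 < ν
  bound : ∀ (d : ℕ) (X Y : Mat H d), (∀ i j, X i j ∈ P.M) → (∀ i j, Y i j ∈ P.B) →
    P.Loc (ν * (‖leftOp X‖ * ‖rightOp Y‖))
      ((leftOp X * rightOp Y - rightOp Y * leftOp X) (P.xi d))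

/-- A positive invertible operator constant on the parts of one central partition. -/
def Pair.IsWeight (P : Pair H) (a : H →L[ℂ] H) : Prop :=
  ∃ k, ∀ q ∈ P.cen k, ∃ c : ℝ, 0 < c ∧ a * q = (c : ℂ) • q

/-- `T` removes the first order defect up to `ε`, locally, on all symmetries. -/
def Pair.SolvesLoc (P : Pair H) (ε : ℝ) (T : H →L[ℂ] H) : Prop :=
  ∀ (d : ℕ) (X n : Mat H d), 0 < d → (∀ i j, X i j ∈ P.M) → (∀ i j, n i j ∈ P.N) →
    IsSymm X → IsSymm n →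
    P.Loc ε ((leftOp X * rightOp (P.mirror n) - rightOp (P.mirror n) * leftOp X) (P.xi d) +
      ((ampOp d T * leftOp X - leftOp X * ampOp d T) * rightOp (P.mirror n) -
        rightOp (P.mirror n) * (ampOp d T * leftOp X - leftOp X * ampOp d T)) (P.xi d))

/-- UNIFORM, local: one pair of maps, bounded over every central part, for all tests. -/
def UniformLocSpec : Prop :=
  ∃ C : ℝ, 0 ≤ C ∧
  ∀ (H : Type u) [NormedAddCommGroup H] [InnerProductSpace ℂ H] [CompleteSpace H]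
    (P : Pair H) (γ ν : ℝ) (N : ℕ), 64 ≤ N → P.OpLe γ → P.NuLoc ν →
    ∃ L Λ : (H →L[ℂ] H) → H,
      (∀ x ∈ P.M, ∀ y ∈ P.M, ∀ c : ℂ, L (c • x + y) = c • L x + L y) ∧
      (∀ x ∈ P.B, ∀ y ∈ P.B, ∀ c : ℂ, Λ (c • x + y) = c • Λ x + Λ y) ∧
      (∀ x ∈ P.M, ∀ k, ∀ q ∈ P.cen k, ‖q (L x)‖ ≤ C * ν * ‖x‖ * ‖q P.ξ‖) ∧
      (∀ y ∈ P.B, ∀ k, ∀ q ∈ P.cen k, ‖q (Λ y)‖ ≤ C * ν * ‖y‖ * ‖q P.ξ‖) ∧
      (∀ k, ∀ g ∈ P.G k, ∀ h ∈ P.G k, ∀ x ∈ P.M,
        L (g * x * h) = g (P.conjOp (star h) (L x))) ∧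
      (∀ k, ∀ g ∈ P.G k, ∀ h ∈ P.G k, ∀ y ∈ P.B,
        Λ (P.conjOp (star h) * y * P.conjOp (star g)) = g (P.conjOp (star h) (Λ y))) ∧
      ∀ (d : ℕ) (X Y nX nY : Mat H d) (C' : ℝ), 0 < d → 0 ≤ C' →
        P.VecMirrored C' ν X nX → P.VecMirrored C' ν Y nY →
        ‖(leftOp X * rightOp (P.mirror nY) - rightOp (P.mirror nY) * leftOp X) (P.xi d)
          + mapVec L (X * Y) + mapVec Λ (rmul (P.mirror nY) (P.mirror nX))
          - leftOp X (mapVec L Y + mapVec Λ (P.mirror nY))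
          - rightOp (P.mirror nY) (mapVec L X + mapVec Λ (P.mirror nX))
          + leftOp X (rightOp (P.mirror nY) (mapVec L 1 + mapVec Λ 1))‖ ≤
          C * (1 + C') * ν * (1 / Real.sqrt (Real.log N) + N * γ)

/-- LINEAR: a skew operator removes the first order defect on every central part. -/
def LinearSpec : Prop :=
  ∃ C γ₀ : ℝ, 0 < γ₀ ∧ 0 ≤ C ∧
  ∀ (H : Type u) [NormedAddCommGroup H] [InnerProductSpace ℂ H] [CompleteSpace H]
    (P : Pair H) (γ ν : ℝ) (N : ℕ), 64 ≤ N → γ ≤ γ₀ → ν ≤ 2 * γ → P.OpLe γ → P.NuLoc ν →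
    ∃ T : H →L[ℂ] H, ‖T‖ ≤ C * ν ∧ star T = -T ∧ P.conjOp T = T ∧
      (∀ k, ∀ g ∈ P.G k, T * g = g * T) ∧
      P.SolvesLoc (C * ν * (1 / Real.sqrt (Real.log N) + N * γ)) T

/-- ITERATE: close standard pairs are conjugate by a unitary near the identity. -/
def StandardSpec : Prop :=
  ∃ C γ₀ : ℝ, 0 < γ₀ ∧ 0 ≤ C ∧
  ∀ (H : Type u) [NormedAddCommGroup H] [InnerProductSpace ℂ H] [CompleteSpace H]
    (P : Pair H) (γ : ℝ), γ ≤ γ₀ → P.OpLe γ →
    (∀ x : H →L[ℂ] H, (∀ y ∈ P.B, x * y = y * x) → x ∈ P.N) →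
    ∃ u : H →L[ℂ] H, star u * u = 1 ∧ u * star u = 1 ∧ ‖u - 1‖ ≤ C * γ ∧
      (∀ x ∈ P.M, u * x * star u ∈ P.N) ∧ ∀ y ∈ P.N, star u * y * u ∈ P.M

end Vale.Agent.P096.Full
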