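import Vale.Agent.P096.Full.Key.Main
import Vale.Agent.P096.Full.Key.Fock
import Vale.Agent.P096.Full.Key.Scalar

/-!
P096, KEY: one test gives two bounded equivariant maps with small residual.
-/

namespace Vale.Agent.P096.Full

universe u

/-- KEY holds. -/
theorem keySpec : KeySpec.{u} := Key.key_of Key.scalarSpec Key.fockSpec

end Vale.Agent.P096.Full
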