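import Mathlib

/-!
P096, MIRROR: the abstract step. An algebra with a conjugation fixing a vector, a symmetry near
the algebra, and the mirrored symmetry inside the algebra.
-/

open scoped InnerProductSpace ComplexConjugate

namespace Vale.Agent.P096.Full.MirrorCore

universe u

variable {K : Type u} [NormedAddCommGroup K] [InnerProductSpace ℂ K] [CompleteSpace K]

/-- A pointwise bound on the spectrum is a bound on every vector. -/
lemma norm_cfc_apply_le {b : K →L[ℂ] K} (_hb : IsSelfAdjoint b) {F G : ℝ → ℝ}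
    (hF : Continuous F) (hG : Continuous G) (h : ∀ t ∈ spectrum ℝ b, |F t| ≤ |G t|) (v : K) :
    ‖cfc F b v‖ ≤ ‖cfc G b v‖ := by
  have key : ∀ {Φ : ℝ → ℝ}, Continuous Φ →
      RCLike.re ⟪cfc (fun t => Φ t * Φ t) b v, v⟫_ℂ = ‖cfc Φ b v‖ ^ 2 := by
    intro Φ hΦ
    have hs : IsSelfAdjoint (cfc Φ b) := cfc_predicate Φ b
    rw [cfc_mul Φ Φ b hΦ.continuousOn hΦ.continuousOn]
    change RCLike.re ⟪cfc Φ b (cfc Φ b v), v⟫_ℂ = _
    rw [← ContinuousLinearMap.adjoint_inner_right, ← ContinuousLinearMap.star_eq_adjoint, hs,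
      inner_self_eq_norm_sq]
  have hle : cfc (fun t => F t * F t) b ≤ cfc (fun t => G t * G t) b :=
    cfc_mono (fun t ht => by rw [← abs_mul_abs_self (F t), ← abs_mul_abs_self (G t)]
                             exact mul_self_le_mul_self (abs_nonneg _) (h t ht))
      (hF.mul hF).continuousOn (hG.mul hG).continuousOn
  have hp := ((ContinuousLinearMap.nonneg_iff_isPositive _).1
    (sub_nonneg.2 hle)).re_inner_nonneg_left v
  rw [sub_apply, inner_sub_left, map_sub, key hF, key hG, sub_nonneg] at hp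
  exact (pow_le_pow_iff_left₀ (norm_nonneg _) (norm_nonneg _) two_ne_zero).1 hp

/-- Cut at height `c`. -/
def cut (c t : ℝ) : ℝ := max (-c) (min c t)

/-- The weight of the part above `c`. -/
noncomputable def wgt (c t : ℝ) : ℝ := max 0 (1 - c / max |t| c)

lemma continuous_cut (c : ℝ) : Continuous (cut c) := by
  unfold cut; fun_prop

lemma abs_cut_le {c : ℝ} (hc : 0 ≤ c) (t : ℝ) : |cut c t| ≤ c :=
  abs_le.2 ⟨le_max_left _ _, max_le (by linarith) (min_le_left _ _)⟩

lemma continuous_wgt {c : ℝ} (hc : 0 < c) : Continuous (wgt c) := by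
  unfold wgt
  exact continuous_const.max (continuous_const.sub (continuous_const.div
    (continuous_abs.max continuous_const) fun t => (lt_max_of_lt_right hc).ne'))

lemma wgt_nonneg (c t : ℝ) : 0 ≤ wgt c t := le_max_left _ _

lemma wgt_mem {c : ℝ} (hc : 0 < c) (t : ℝ) : |wgt c t| ≤ 1 := by
  rw [abs_of_nonneg (wgt_nonneg _ _)]
  exact max_le zero_le_one (sub_le_self _ (by positivity))

lemma mul_wgt {c : ℝ} (hc : 0 < c) (t : ℝ) :
    t * wgt c t = t - cut c t ∧ c * wgt c t ≤ |t * wgt c t| := by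
  rcases le_or_gt |t| c with h | h
  · have h' := abs_le.1 h
    simp [wgt, cut, max_eq_right h, hc.ne', min_eq_right h'.2, max_eq_right h'.1]
  · have hw : wgt c t = 1 - c / |t| := by
      rw [wgt, max_eq_left h.le, max_eq_right]
      exact sub_nonneg.2 ((div_le_one (hc.trans h)).2 h.le)
    have ht : t ≠ 0 := by rintro rfl; rw [abs_zero] at h; linarith
    refine ⟨?_, ?_⟩
    · rw [hw, cut]
      rcases lt_or_gt_of_ne ht with h0 | h0
      · rw [abs_of_neg h0] at h ⊢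
        rw [min_eq_right (by linarith), max_eq_left (by linarith)]
        field_simp
      · rw [abs_of_pos h0] at h ⊢
        rw [min_eq_left h.le, max_eq_right (by linarith)]
        field_simp
    · rw [abs_mul, abs_of_nonneg (wgt_nonneg c t)]
      exact mul_le_mul_of_nonneg_right h.le (wgt_nonneg c t)

/-- The sign, made continuous near zero. -/
def sgn (t : ℝ) : ℝ := max (-1) (min 1 (2 * t))

lemma continuous_sgn : Continuous sgn := by
  unfold sgn; fun_prop

lemma sgn_spec {t : ℝ} (h : 1 / 2 ≤ |t|) :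
    sgn t * sgn t = 1 ∧ |sgn t - t| ≤ |t * t - 1| := by
  rcases le_or_gt 0 t with h0 | h0
  · rw [abs_of_nonneg h0] at h
    have e : sgn t = 1 := by
      rw [sgn, min_eq_left (by linarith), max_eq_right (by norm_num)]
    refine ⟨by rw [e, one_mul], ?_⟩
    rw [e, abs_sub_comm, show t * t - 1 = (t - 1) * (t + 1) by ring, abs_mul,
      abs_of_nonneg (show 0 ≤ t + 1 by linarith)]
    exact le_mul_of_one_le_right (abs_nonneg _) (by linarith)
  · rw [abs_of_neg h0] at h
    have e : sgn t = -1 := by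
      rw [sgn, min_eq_right (by linarith), max_eq_left (by linarith)]
    refine ⟨by rw [e]; norm_num, ?_⟩
    rw [e, show t * t - 1 = (-1 - t) * (1 - t) by ring, abs_mul,
      abs_of_nonneg (show 0 ≤ 1 - t by linarith)]
    exact le_mul_of_one_le_right (abs_nonneg _) (by linarith)

/-- MIRROR on one algebra. -/
theorem exists_mirror (A : StarSubalgebra ℂ (K →L[ℂ] K))
    (hA : IsClosed (A : Set (K →L[ℂ] K))) (v : K)
    (J : K ≃ₗᵢ⋆[ℂ] K) (hJv : J v = v)
    (hJA : ∀ x ∈ A, J (x v) = star x v)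
    (hdense : Dense ((fun x : K →L[ℂ] K => x v) '' (A : Set (K →L[ℂ] K))))
    (hcomm : ∀ x ∈ A, ∀ y ∈ A, ∀ h, x (J (y (J h))) = J (y (J (x h))))
    {γ ν : ℝ} (hγ : 0 ≤ γ) (hγ₀ : γ ≤ 1 / 40) (hν : 0 < ν)
    {a : K →L[ℂ] K} (has : star a = a) (haa : a * a = 1) (hJa : J (a v) = a v)
    (hnear : ∃ y ∈ A, ‖a - y‖ ≤ γ)
    (hvec : ∀ y ∈ A, ‖a (J (y v)) - J (y (J (a v)))‖ ≤ ν * ‖y‖) :
    ∃ n ∈ A, star n = n ∧ n * n = 1 ∧ ‖n - a‖ ≤ 20 * γ ∧ ‖(n - a) v‖ ≤ 60 * ν := by
  have ha1 : ‖a‖ ≤ 1 := by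
    have h := CStarRing.norm_star_mul_self (x := a)
    rw [has, haa] at h
    have h1 : ‖(1 : K →L[ℂ] K)‖ ≤ 1 := ContinuousLinearMap.norm_id_le
    nlinarith [norm_nonneg a]
  -- a self-adjoint approximant in norm
  obtain ⟨m, hmA, hms, hma⟩ : ∃ m ∈ A, IsSelfAdjoint m ∧ ‖a - m‖ ≤ γ := by
    obtain ⟨y, hy, hya⟩ := hnear
    refine ⟨(2⁻¹ : ℂ) • (y + star y), SMulMemClass.smul_mem _ (add_mem hy (star_mem hy)),
      by simp [IsSelfAdjoint, star_smul, add_comm], ?_⟩
    have e : a - (2⁻¹ : ℂ) • (y + star y) = (2⁻¹ : ℂ) • ((a - y) + star (a - y)) := by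
      rw [star_sub, has]; module
    calc ‖a - (2⁻¹ : ℂ) • (y + star y)‖ ≤ 2⁻¹ * (‖a - y‖ + ‖star (a - y)‖) := by
          rw [e, norm_smul]; norm_num; exact norm_add_le _ _
      _ ≤ γ := by rw [norm_star]; linarith
  rcases hγ.eq_or_lt with rfl | hγpos
  · have e : a = m := sub_eq_zero.1 (norm_le_zero_iff.1 hma)
    refine ⟨a, e ▸ hmA, has, haa, by simp, ?_⟩
    simp only [sub_self, zero_apply, norm_zero]
    positivity
  -- a self-adjoint approximant on the vector
  set ζ : K := (a - m) v with hζ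
  have hJζ : J ζ = ζ := by
    rw [hζ, sub_apply, map_sub, hJa, hJA m hmA, hms.star_eq]
  obtain ⟨b, hbA, hbs, hbζ⟩ : ∃ b ∈ A, IsSelfAdjoint b ∧ ‖b v - ζ‖ ≤ ν := by
    obtain ⟨_, ⟨y, hy, rfl⟩, hyζ⟩ := Metric.mem_closure_iff.1 (hdense ζ) ν hν
    rw [dist_eq_norm, norm_sub_rev] at hyζ
    refine ⟨(2⁻¹ : ℂ) • (y + star y), SMulMemClass.smul_mem _ (add_mem hy (star_mem hy)),
      by simp [IsSelfAdjoint, star_smul, add_comm], ?_⟩
    have e : ((2⁻¹ : ℂ) • (y + star y)) v - ζ = (2⁻¹ : ℂ) • ((y v - ζ) + J (y v - ζ)) := by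
      rw [map_sub, hJA y hy, hJζ, smul_apply, add_apply]; module
    rw [e, norm_smul]
    calc ‖(2⁻¹ : ℂ)‖ * ‖(y v - ζ) + J (y v - ζ)‖
        ≤ ‖(2⁻¹ : ℂ)‖ * (‖y v - ζ‖ + ‖J (y v - ζ)‖) :=
          mul_le_mul_of_nonneg_left (norm_add_le _ _) (norm_nonneg _)
      _ ≤ ν := by rw [LinearIsometryEquiv.norm_map]; norm_num; linarith
  -- the inequality for the cut
  have hc : 0 < 2 * γ := by linarith
  have hJv' : ∀ y ∈ A, ∀ x ∈ A, J (y (J (x v))) = x (J (y v)) := fun y hy x hx => by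
    rw [← hcomm x hx y hy v, hJv]
  have hcut : ∀ y ∈ A, IsSelfAdjoint y → ‖b (y v)‖ ≤ γ * ‖y v‖ + 2 * ν * ‖y‖ := by
    intro y hy hys
    have hyv : J (y v) = y v := by rw [hJA y hy, hys.star_eq]
    have e : J (y (J ζ)) = (a - m) (y v) - (a (J (y v)) - J (y (J (a v)))) := by
      rw [hζ, sub_apply, map_sub, map_sub, map_sub, hJv' y hy m hmA, hyv, sub_apply]
      abel
    have e2 : b (y v) = J (y (J (b v))) := by rw [hJv' y hy b hbA, hyv]
    calc ‖b (y v)‖ = ‖J (y (J (b v - ζ))) + J (y (J ζ))‖ := by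
          rw [e2, ← map_add, ← map_add, ← map_add, sub_add_cancel]
      _ ≤ ‖y (J (b v - ζ))‖ + (‖(a - m) (y v)‖ + ‖a (J (y v)) - J (y (J (a v)))‖) := by
          refine (norm_add_le _ _).trans (add_le_add (LinearIsometryEquiv.norm_map _ _).le ?_)
          rw [e]; exact norm_sub_le _ _
      _ ≤ ‖y‖ * ν + (γ * ‖y v‖ + ν * ‖y‖) := by
          refine add_le_add ((y.le_opNorm _).trans ?_) (add_le_add ((a - m).le_opNorm _ |>.trans
            (mul_le_mul_of_nonneg_right hma (norm_nonneg _))) (hvec y hy))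
          rw [LinearIsometryEquiv.norm_map]
          exact mul_le_mul_of_nonneg_left hbζ (norm_nonneg _)
      _ = _ := by ring
  set c := 2 * γ
  set w := cfc (wgt c) b
  set f := cfc (cut c) b
  have hwA : w ∈ A := cfc_mem (𝕜' := ℂ) (hs := hA) _ hbA
  have hfA : f ∈ A := cfc_mem (𝕜' := ℂ) (hs := hA) _ hbA
  have hbw : b * w = cfc (fun t => t * wgt c t) b := by
    rw [cfc_mul (fun t => t) (wgt c) b continuousOn_id (continuous_wgt hc).continuousOn,
      cfc_id' ℝ b]
  have hg : ‖b (w v)‖ ≤ 4 * ν := by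
    have h1 : c * ‖w v‖ ≤ ‖b (w v)‖ := by
      have h := norm_cfc_apply_le hbs (F := fun t => c * wgt c t)
        (G := fun t => t * wgt c t) ((continuous_wgt hc).const_smul c)
        (continuous_id.mul (continuous_wgt hc))
        (fun t _ => by rw [abs_of_nonneg (mul_nonneg hc.le (wgt_nonneg c t))]
                       exact (mul_wgt hc t).2) v
      rw [← hbw, cfc_const_mul c (wgt c) b (continuous_wgt hc).continuousOn, smul_apply,
        norm_smul, Real.norm_of_nonneg hc.le] at h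
      exact h
    have hw1 : ‖w‖ ≤ 1 := norm_cfc_le zero_le_one fun t _ => wgt_mem hc t
    have h2 := hcut w hwA (cfc_predicate _ _)
    nlinarith [norm_nonneg (w v), mul_le_mul_of_nonneg_left hw1 hν.le]
  have hf : ‖f v - ζ‖ ≤ 5 * ν := by
    have e : f v - ζ = (b v - ζ) - b (w v) := by
      have : b * w = b - f := by
        rw [hbw, cfc_congr (g := fun t => t - cut c t) (fun t _ => (mul_wgt hc t).1),
          cfc_sub (fun t => t) (cut c) b continuousOn_id (continuous_cut c).continuousOn,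
          cfc_id' ℝ b]
      change _ = _ - (b * w) v
      rw [this, sub_apply]; abel
    rw [e]
    exact (norm_sub_le _ _).trans (by linarith)
  -- the corrected element
  set n₁ := m + f
  have hn₁A : n₁ ∈ A := add_mem hmA hfA
  have hn₁s : IsSelfAdjoint n₁ := hms.add (cfc_predicate _ _)
  have hn₁a : ‖n₁ - a‖ ≤ 3 * γ := by
    rw [show n₁ - a = f - (a - m) from by simp only [n₁]; abel]
    refine (norm_sub_le _ _).trans ?_
    have := norm_cfc_le (a := b) (c := c) hc.le fun t _ => abs_cut_le hc.le t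
    linarith
  have hn₁v : ‖n₁ v - a v‖ ≤ 5 * ν := by
    rw [show n₁ v - a v = f v - ζ by simp only [n₁, hζ, sub_apply, add_apply]; abel]
    exact hf
  have hn₁n : ‖n₁‖ ≤ 2 := by
    calc ‖n₁‖ ≤ ‖a‖ + ‖n₁ - a‖ := norm_le_norm_add_norm_sub' _ _
      _ ≤ 2 := by linarith
  have hsq : ‖(n₁ * n₁ - 1) v‖ ≤ 17 * ν := by
    set r := n₁ v - a v with hr
    have hn₁J : J (n₁ v) = n₁ v := by rw [hJA n₁ hn₁A, hn₁s.star_eq]
    have hone : a (a v) = v := by
      change (a * a) v = v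
      rw [haa]; rfl
    have e : (n₁ * n₁ - 1) v =
        a r - (a (J (n₁ v)) - J (n₁ (J (a v)))) + J (n₁ (J r)) := by
      have h1 : (n₁ * n₁) v = J (n₁ (J (n₁ v))) := by rw [hJv' n₁ hn₁A n₁ hn₁A, hn₁J]; rfl
      rw [sub_apply, h1, one_apply_eq_self, hr, map_sub, map_sub, map_sub, map_sub, hn₁J, hone]
      abel
    rw [e]
    calc ‖a r - (a (J (n₁ v)) - J (n₁ (J (a v)))) + J (n₁ (J r))‖
        ≤ ‖a r‖ + ‖a (J (n₁ v)) - J (n₁ (J (a v)))‖ + ‖J (n₁ (J r))‖ :=
          (norm_add_le _ _).trans (add_le_add (norm_sub_le _ _) le_rfl)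
      _ ≤ 1 * (5 * ν) + ν * 2 + 2 * (5 * ν) := by
          refine add_le_add (add_le_add ((a.le_opNorm r).trans ?_) ((hvec n₁ hn₁A).trans ?_)) ?_
          · exact mul_le_mul ha1 hn₁v (norm_nonneg _) zero_le_one
          · exact mul_le_mul_of_nonneg_left hn₁n hν.le
          · rw [LinearIsometryEquiv.norm_map]
            refine (n₁.le_opNorm _).trans ?_
            rw [LinearIsometryEquiv.norm_map]
            exact mul_le_mul hn₁n hn₁v (norm_nonneg _) zero_le_two
      _ = _ := by ring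
  -- the sign
  have hsqn : ‖n₁ * n₁ - 1‖ ≤ 9 * γ := by
    rw [show n₁ * n₁ - 1 = n₁ * (n₁ - a) + (n₁ - a) * a by rw [← haa]; noncomm_ring]
    refine (norm_add_le _ _).trans ((add_le_add (norm_mul_le _ _) (norm_mul_le _ _)).trans ?_)
    nlinarith [mul_le_mul hn₁n hn₁a (norm_nonneg _) zero_le_two,
      mul_le_mul hn₁a ha1 (norm_nonneg a) (by linarith)]
  have hq : cfc (fun t : ℝ => t * t - 1) n₁ = n₁ * n₁ - 1 := by
    rw [cfc_sub (fun t : ℝ => t * t) (fun _ => 1) n₁, cfc_mul (fun t : ℝ => t) (fun t => t) n₁,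
      cfc_id' ℝ n₁, cfc_const_one ℝ n₁]
  have hspec : ∀ t ∈ spectrum ℝ n₁, 1 / 2 ≤ |t| := by
    intro t ht
    have h := (norm_cfc_le_iff (fun t : ℝ => t * t - 1) n₁ (c := 9 * γ) (by linarith)).1
      (hq ▸ hsqn) t ht
    rw [Real.norm_eq_abs, abs_le, ← abs_mul_abs_self t] at h
    nlinarith [abs_nonneg t]
  set n := cfc sgn n₁
  have hnn : n * n = 1 := by
    rw [← cfc_mul sgn sgn n₁ continuous_sgn.continuousOn continuous_sgn.continuousOn,
      cfc_congr (g := fun _ => (1 : ℝ)) (fun t ht => (sgn_spec (hspec t ht)).1),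
      cfc_const_one ℝ n₁]
  have hdiff : n - n₁ = cfc (fun t => sgn t - t) n₁ := by
    rw [cfc_sub sgn (fun t => t) n₁ continuous_sgn.continuousOn, cfc_id' ℝ n₁]
  have hop : ‖n - n₁‖ ≤ 9 * γ := by
    rw [hdiff]
    refine norm_cfc_le (by linarith) fun t ht => (sgn_spec (hspec t ht)).2.trans ?_
    exact (norm_cfc_le_iff (fun t : ℝ => t * t - 1) n₁ (by linarith)).1 (hq ▸ hsqn) t ht
  have hvecn : ‖(n - n₁) v‖ ≤ 17 * ν := by
    rw [hdiff]
    refine (norm_cfc_apply_le hn₁s (continuous_sgn.sub continuous_id)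
      ((continuous_id.mul continuous_id).sub continuous_const)
      (fun t ht => (sgn_spec (hspec t ht)).2) v).trans ?_
    rw [show (id * id - fun _ => (1:ℝ)) = fun t : ℝ => t * t - 1 from rfl, hq]; exact hsq
  refine ⟨n, cfc_mem (𝕜' := ℂ) (hs := hA) _ hn₁A, (cfc_predicate _ _ : IsSelfAdjoint n).star_eq,
    hnn, ?_, ?_⟩
  · calc ‖n - a‖ ≤ ‖n - n₁‖ + ‖n₁ - a‖ := norm_sub_le_norm_sub_add_norm_sub _ _ _
      _ ≤ _ := by linarith
  · calc ‖(n - a) v‖ = ‖(n - n₁) v + (n₁ v - a v)‖ := by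
          congr 1; simp only [sub_apply]; abel
      _ ≤ _ := (norm_add_le _ _).trans (by linarith)

end Vale.Agent.P096.Full.MirrorCore
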