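import Vale.Agent.P096.Full.Amp
import Vale.Agent.P096.Full.MirrorCore

/-!
P096, II_1 factors, MIRROR: symmetries of either algebra have mirrors in the other, with the
vector defect on the trace vector.
-/

open scoped InnerProductSpace ComplexConjugate

namespace Vale.Agent.P096.Full

universe u

variable {H : Type u} [NormedAddCommGroup H] [InnerProductSpace ℂ H] [CompleteSpace H] {d : ℕ}

omit [CompleteSpace H] in
lemma continuous_vecOf :
    Continuous (fun f : Fin d → Fin d → H => (vecOf f : Amp H d)) := by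
  unfold vecOf
  exact (PiLp.continuous_toLp 2 _).comp (continuous_pi fun p =>
    Continuous.const_smul (g := fun f : Fin d → Fin d → H => f p.1 p.2)
      ((continuous_apply p.2).comp (continuous_apply p.1)) _)

lemma Pair.dense_leftAlg (P : Pair H) {S : StarSubalgebra ℂ (H →L[ℂ] H)} (hd : 0 < d)
    (hS : Dense ((fun x : H →L[ℂ] H => x P.ξ) '' (S : Set (H →L[ℂ] H)))) :
    Dense ((fun T : Amp H d →L[ℂ] Amp H d => T (P.xi d)) ''
      (leftAlg S d : Set (Amp H d →L[ℂ] Amp H d))) := by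
  set V := (fun x : H →L[ℂ] H => x P.ξ) '' (S : Set (H →L[ℂ] H))
  have hsurj : Function.Surjective (fun f : Fin d → Fin d → H => (vecOf f : Amp H d)) := by
    intro w
    refine ⟨fun i k => ((Real.sqrt d : ℝ) : ℂ) • w (i, k), Amp.ext' fun i k => ?_⟩
    have h0 : Real.sqrt (d : ℝ) ≠ 0 :=
      (Real.sqrt_pos.2 (by exact_mod_cast hd)).ne'
    rw [vecOf_apply, smul_smul, ← Complex.ofReal_mul, inv_mul_cancel₀ h0, Complex.ofReal_one,
      one_smul]
  have hdense : Dense (Set.pi Set.univ fun _ : Fin d => Set.pi Set.univ fun _ : Fin d => V) :=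
    dense_pi _ fun _ _ => dense_pi _ fun _ _ => hS
  refine (hsurj.denseRange.dense_image continuous_vecOf hdense).mono ?_
  rintro _ ⟨f, hf, rfl⟩
  choose x hxS hx using fun i k => hf i (Set.mem_univ _) k (Set.mem_univ _)
  obtain ⟨y, hy⟩ : ∃ y : Mat H d, ∀ i k, y i k = x i k := ⟨x, fun _ _ => rfl⟩
  refine ⟨leftOp y, ⟨y, fun i k => (hy i k).symm ▸ hxS i k, rfl⟩, ?_⟩
  change leftOp y (P.xi d) = _
  rw [P.leftOp_xi]
  simp only [hy]
  exact congrArg vecOf (funext fun i => funext fun k => hx i k)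

lemma norm_le_one_of_isSymm {X : Mat H d} (h : IsSymm X) : ‖leftOp X‖ ≤ 1 := by
  have h' := CStarRing.norm_star_mul_self (x := leftOp X)
  rw [star_leftOp, h.1, ← leftOp_mul, h.2, leftOp_one] at h'
  have h1 : ‖(1 : Amp H d →L[ℂ] Amp H d)‖ ≤ 1 := ContinuousLinearMap.norm_id_le
  nlinarith [norm_nonneg (leftOp X)]

/-- One direction of MIRROR: from a symmetry `X` near the amplification of `S`. -/
lemma Pair.exists_mirror_in (P : Pair H) {S : StarSubalgebra ℂ (H →L[ℂ] H)}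
    (hS : IsClosed (S : Set (H →L[ℂ] H))) (hSJ : ∀ x ∈ S, P.J (x P.ξ) = star x P.ξ)
    (hSd : Dense ((fun x : H →L[ℂ] H => x P.ξ) '' (S : Set (H →L[ℂ] H))))
    (hSc : ∀ x ∈ S, ∀ y ∈ S, x * P.conjOp y = P.conjOp y * x)
    {γ ν : ℝ} (hγ : 0 ≤ γ) (hγ₀ : γ ≤ 1 / 40) (hν : 0 < ν) (hd : 0 < d)
    {X : Mat H d} (hX : IsSymm X) (hJX : P.Jd d (leftOp X (P.xi d)) = leftOp X (P.xi d))
    (hnear : ∃ Y : Mat H d, (∀ i j, Y i j ∈ S) ∧ ‖leftOp X - leftOp Y‖ ≤ γ)
    (hvec : ∀ Y : Mat H d, (∀ i j, Y i j ∈ S) →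
      ‖(leftOp X * rightOp (P.mirror Y) - rightOp (P.mirror Y) * leftOp X) (P.xi d)‖ ≤
        ν * ‖leftOp Y‖) :
    ∃ n : Mat H d, (∀ i j, n i j ∈ S) ∧ IsSymm n ∧
      ‖leftOp n - leftOp X‖ ≤ 20 * γ ∧ ‖(leftOp n - leftOp X) (P.xi d)‖ ≤ 60 * ν := by
  obtain ⟨_, ⟨n, hnS, rfl⟩, hns, hnn, hop, hv⟩ :=
    MirrorCore.exists_mirror (leftAlg S d) (isClosed_leftAlg hS) (P.xi d) (P.Jd d) P.Jd_xi
      (by
        rintro _ ⟨x, hx, rfl⟩
        rw [star_leftOp, P.leftOp_xi, P.leftOp_xi]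
        exact Amp.ext' fun i k => by
          simp [hSJ _ (hx k i), LinearIsometryEquiv.map_smulₛₗ, Matrix.star_apply])
      (P.dense_leftAlg hd hSd)
      (by
        rintro _ ⟨x, hx, rfl⟩ _ ⟨y, hy, rfl⟩ h
        rw [P.Jd_leftOp, P.Jd_leftOp, ← comp_mul_apply, ← comp_mul_apply,
          commute_leftOp_rightOp (Y := P.mirror y) fun i j l k => hSc _ (hx i j) _ (hy k l)])
      hγ hγ₀ hν (a := leftOp X) (by rw [star_leftOp, hX.1])
      (by rw [← leftOp_mul, hX.2, leftOp_one]) hJX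
      (by
        obtain ⟨Y, hY, h⟩ := hnear
        exact ⟨leftOp Y, ⟨Y, hY, rfl⟩, h⟩)
      (by
        rintro _ ⟨Y, hY, rfl⟩
        have h := hvec Y hY
        rw [sub_apply, comp_mul_apply, comp_mul_apply, ← P.Jd_leftOp, ← P.Jd_leftOp,
          P.Jd_xi] at h
        exact h)
  exact ⟨n, hnS, ⟨leftOp_injective (by rw [← star_leftOp, hns]),
    leftOp_injective (by rw [leftOp_mul, hnn, leftOp_one])⟩, hop, hv⟩

/-- MIRROR. -/
theorem mirrorSpec : MirrorSpec.{u} := by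
  refine ⟨60, 1 / 40, by norm_num, by norm_num, ?_⟩
  intro H _ _ _ P γ ν hγ₀ hop hnu d hd
  have hγ := hop.nonneg
  refine ⟨fun X hXM hXs => ?_, fun n hnN hns => ?_⟩
  · have h1 := norm_le_one_of_isSymm hXs
    obtain ⟨n, hn, hns, ho, hv⟩ := P.exists_mirror_in P.closed_N P.J_N P.dense_N
      (fun x hx y hy => P.comm_N_B hx ⟨y, hy, rfl⟩) hγ hγ₀ hnu.pos hd hXs
      (by rw [P.Jd_leftOp_xi (Or.inl hXM), hXs.1])
      (by
        obtain ⟨Y, hY, h⟩ := hop.nearM d X hXM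
        exact ⟨Y, hY, h.trans (mul_le_of_le_one_right hγ h1)⟩)
      (fun Y hY => (hnu.bound d X _ hXM (P.mirror_mem hY)).trans
        (mul_le_mul_of_nonneg_left (by
          rw [P.norm_rightOp_mirror]
          exact mul_le_of_le_one_left (norm_nonneg _) h1) hnu.pos.le))
    exact ⟨n, hXM, hn, hXs, hns, ho.trans (by linarith), hv⟩
  · have h1 := norm_le_one_of_isSymm hns
    obtain ⟨X, hX, hXs, ho, hv⟩ := P.exists_mirror_in P.closed_M P.J_M P.dense_M
      (fun x hx y hy => P.comm_M_conjOp hx hy) hγ hγ₀ hnu.pos hd hns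
      (by rw [P.Jd_leftOp_xi (Or.inr hnN), hns.1])
      (by
        obtain ⟨Y, hY, h⟩ := hop.nearN d n hnN
        exact ⟨Y, hY, h.trans (mul_le_of_le_one_right hγ h1)⟩)
      (fun Y hY => by
        have e : P.Jd d ((leftOp n * rightOp (P.mirror Y) - rightOp (P.mirror Y) * leftOp n)
            (P.xi d)) =
            -((leftOp Y * rightOp (P.mirror n) - rightOp (P.mirror n) * leftOp Y) (P.xi d)) := by
          simp only [sub_apply, comp_mul_apply, map_sub, neg_sub, ← P.Jd_leftOp, P.Jd_Jd,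
            P.Jd_xi]
        have hb := hnu.bound d Y _ hY (P.mirror_mem hnN)
        rw [P.norm_rightOp_mirror, ← norm_neg, ← e, LinearIsometryEquiv.norm_map] at hb
        exact hb.trans (mul_le_mul_of_nonneg_left
          (mul_le_of_le_one_right (norm_nonneg _) h1) hnu.pos.le))
    refine ⟨X, hX, hnN, hXs, hns, ?_, ?_⟩
    · rw [norm_sub_rev]; exact ho.trans (by linarith)
    · rw [← neg_sub (leftOp X), neg_apply, norm_neg]; exact hv

end Vale.Agent.P096.Full
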