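import Vale.Agent.P096.Full.Assembly
import Vale.Agent.P096.Full.Linear.Dilate
import Vale.Agent.P096.Full.Linear.Glue
import Vale.Agent.P096.Full.Linear.Symm
import Vale.Agent.P096.Full.Mirror

/-!
P096, LINEAR: mirrors and the uniform maps give a skew operator solving the first order defect.
-/

open scoped InnerProductSpace ComplexConjugate

namespace Vale.Agent.P096.Full.Linear

universe u

variable {H : Type u} [NormedAddCommGroup H] [InnerProductSpace ℂ H] [CompleteSpace H] {d : ℕ}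
variable {P : Pair H}

lemma Mirrored.mono {C C' γ ν : ℝ} (hC : C ≤ C') (hγ : 0 ≤ γ) (hν : 0 ≤ ν) {X n : Mat H d}
    (h : P.Mirrored C γ ν X n) : P.Mirrored C' γ ν X n :=
  ⟨h.memX, h.memn, h.symmX, h.symmn,
    h.opNear.trans (mul_le_mul_of_nonneg_right hC hγ),
    h.vecNear.trans (mul_le_mul_of_nonneg_right hC hν)⟩

lemma adm_of_mirrored {C γ ν : ℝ} (hC : 0 ≤ C * ν) {X n : Mat H d}
    (h : P.Mirrored C γ ν X n) : Adm P C ν ((1 / 4 : ℂ) • X) ((1 / 4 : ℂ) • n) := by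
  have nX : ∀ Z : Mat H d, IsSymm Z → ‖leftOp ((1 / 4 : ℂ) • Z)‖ ≤ 1 / 4 := fun Z hZ => by
    rw [leftOp_smul, norm_smul, norm_div, norm_one, Complex.norm_ofNat]
    exact mul_le_of_le_one_right (by norm_num) (norm_le_one_of_isSymm hZ)
  refine ⟨fun i j => SMulMemClass.smul_mem _ (h.memX i j),
    fun i j => SMulMemClass.smul_mem _ (h.memn i j), nX X h.symmX, nX n h.symmn, ?_⟩
  have hv := h.vecNear
  rw [sub_apply] at hv
  rw [leftOp_smul, leftOp_smul, sub_apply, smul_apply, smul_apply, ← smul_sub, norm_smul,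
    norm_div, norm_one, Complex.norm_ofNat]
  linarith [norm_nonneg (leftOp n (P.xi d) - leftOp X (P.xi d))]

/-- A bound on every central part is a bound. -/
lemma bdd_of_loc {w : H} {r : ℝ} (h : ∀ q ∈ P.cen 0, ‖q w‖ ≤ r * ‖q P.ξ‖) (hr : 0 ≤ r) :
    ‖w‖ ≤ r := by
  have e : ∀ v : H, ‖v‖ ^ 2 = ∑ q ∈ P.cen 0, ‖q v‖ ^ 2 := fun v => by
    rw [← P.sum_norm_sq (P.cen 0) subset_rfl v, P.cen_sum, one_apply_eq_self]
  refine (pow_le_pow_iff_left₀ (norm_nonneg _) hr two_ne_zero).1 ?_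
  rw [e, ← mul_one (r ^ 2), ← one_pow 2, ← P.norm_ξ, e, Finset.mul_sum]
  refine Finset.sum_le_sum fun q hq => ?_
  rw [← mul_pow]
  exact pow_le_pow_left₀ (norm_nonneg _) (h q hq) 2

end Vale.Agent.P096.Full.Linear

namespace Vale.Agent.P096.Full

universe u

open Linear in
/-- LINEAR. -/
theorem linearModule : LinearModule.{u} := by
  intro hM hU
  obtain ⟨CM, γ₀, hγ₀, hCM, hM⟩ := hM
  obtain ⟨Cu, hCu, hU⟩ := hU
  set C := CM with hCdef
  have hC : 0 ≤ C := hCM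
  set Cd := 2 * (C + 1) + 2 with hCd
  set K₀ := 2 * (16 * (64 * Cu * (1 + Cd) + 64 * (C + 1) * Cu)) with hK₀
  set K := 17 * (K₀ + 2 * C * C + (8 * C + 2) * (6 * Cu)) + 384 * Cu * C with hK
  have hCd0 : 0 ≤ Cd := by positivity
  have hK₀0 : 0 ≤ K₀ := by positivity
  have hK0 : 0 ≤ K := by positivity
  refine ⟨12 * Cu + K, γ₀, hγ₀, by positivity, ?_⟩
  intro H _ _ _ P γ ν N hN hγle hνγ hop hnu
  have hγ := hop.nonneg
  have hν := hnu.pos.le
  set a := Cu * ν with ha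
  have ha0 : 0 ≤ a := mul_nonneg hCu hν
  set η := 1 / Real.sqrt (Real.log N) + N * γ with hη
  have hN' : (64 : ℝ) ≤ N := by exact_mod_cast hN
  have hηγ : 3 * γ ≤ η := by
    have : 0 ≤ 1 / Real.sqrt (Real.log N) := by positivity
    nlinarith [mul_le_mul_of_nonneg_right hN' hγ]
  have hη0 : 0 ≤ η := le_trans (by positivity) hηγ
  have hQn : ∀ b (hb : P.IsWeight b), (P.reweigh b hb).NuLe ν :=
    fun b hb => (hnu.reweigh hb).nuLe
  set εb := Cu * (1 + Cd) * ν * η with hεb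
  set D := 16 * (64 * εb + 64 * (C + 1) * a * (ν + γ)) with hD
  have hD0 : 0 ≤ D := by positivity
  have hparts : ∀ b (hb : P.IsWeight b), ∃ A : H →L[ℂ] H, ‖A‖ ≤ 6 * a ∧ Equiv' P A ∧
      ∀ (d : ℕ) (X n : Mat H d), 0 < d → (∀ i j, X i j ∈ P.M) → (∀ i j, n i j ∈ P.N) →
        IsSymm X → IsSymm n → ‖defect (P.reweigh b hb) A X n‖ ≤ D := fun b hb => by
    set Q := P.reweigh b hb
    obtain ⟨L, Λ, linL, linΛ, bL, bΛ, lawL, lawΛ, hres⟩ :=
      hU H Q γ ν N hN (hop.reweigh hb) (hnu.reweigh hb)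
    have hmaps : Maps Q a L Λ :=
      ⟨linL, linΛ, fun x hx => bdd_of_loc (fun q hq => bL x hx 0 q hq) (by positivity),
        fun y hy => bdd_of_loc (fun q hq => bΛ y hy 0 q hq) (by positivity), lawL, lawΛ,
        fun x hx k q hq => bL x hx k q hq, fun y hy k q hq => bΛ y hy k q hq⟩
    have hres' : ResBd Q Cd ν εb L Λ := fun d X Y n m hd hX hY =>
      (hres d X Y n m Cd hd hCd0 hX hY).trans_eq (by rw [hεb, hη])
    obtain ⟨A, nA, gA, hA⟩ :=
      exists_defect hmaps hC (hQn b hb) (hop.reweigh hb) hres'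
        (canDilate Q (C := C + 1) (hQn b hb))
    refine ⟨A, nA, gA, fun d X n hd hX hn sX sn => ?_⟩
    obtain ⟨nX, hXm⟩ := (hM H Q γ ν hγle (hop.reweigh hb) (hQn b hb) d hd).1 X hX sX
    obtain ⟨Y, hYm⟩ := (hM H Q γ ν hγle (hop.reweigh hb) (hQn b hb) d hd).2 n hn sn
    have h := hA d _ _ _ _ hd (adm_of_mirrored (mul_nonneg hC hν) hXm)
      (adm_of_mirrored (mul_nonneg hC hν) hYm)
    rw [defect_smul, norm_smul, norm_mul, norm_div, norm_one, Complex.norm_ofNat] at h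
    rw [hD]
    linarith
  obtain ⟨A, nA, gA, hA⟩ := exists_glued (by positivity) hD0 hparts
  have hsol : ∀ b (hb : P.IsWeight b), SolvesBd (P.reweigh b hb) C γ ν (2 * D) A :=
    fun b hb d X nX Y nY hd hX hY => hA b hb d X nY hd hX.memX hY.memn hX.symmX hY.symmn
  obtain ⟨T, nT, sT, jT, gT, hT⟩ := skew_loc hC hν hop
    (fun b hb X hX hs => (hM H _ γ ν hγle (hop.reweigh hb) (hQn b hb) 2 two_pos).1 X hX hs)
    gA nA hsol
  refine ⟨T, ?_, sT, jT, fun k g hg => (gT k g hg).1, fun d X n hd hX hn sX sn => ?_⟩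
  · refine nT.trans ?_
    rw [ha]
    nlinarith [mul_nonneg hK0 hν]
  · refine Pair.loc_of_parts fun k q hq ε hε => ?_
    set b := q + (ε : ℂ) • (1 - q)
    have hb : P.IsWeight b := Pair.isWeight_part hq hε
    obtain ⟨nX, hXm⟩ :=
      (hM H _ γ ν hγle (hop.reweigh hb) (hQn b hb) d hd).1 X hX sX
    obtain ⟨Y, hYm⟩ :=
      (hM H _ γ ν hγle (hop.reweigh hb) (hQn b hb) d hd).2 n hn sn
    have h := hT b hb d X nX Y n hd hXm hYm
    rw [defect_reweigh hb (fun k g hg => (gT k g hg).1) hX hn, norm_smul, P.norm_wscale,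
      inv_mul_le_iff₀ hb.norm_pos, defect, barOp_of_star sn.1] at h
    refine h.trans ((mul_comm _ _).trans_le (mul_le_mul_of_nonneg_right ?_ (norm_nonneg _)))
    have hνη : 0 ≤ ν * η := mul_nonneg hν hη0
    have h1 : a * (ν + γ) ≤ Cu * (ν * η) := by
      rw [ha, mul_assoc]
      exact mul_le_mul_of_nonneg_left (mul_le_mul_of_nonneg_left (by linarith) hν) hCu
    have h2 : γ * ν ≤ ν * η := by
      rw [mul_comm γ]; exact mul_le_mul_of_nonneg_left (by linarith) hν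
    have h3 : a * ν ≤ Cu * (ν * η) := by
      rw [ha, mul_assoc]
      exact mul_le_mul_of_nonneg_left (mul_le_mul_of_nonneg_left (by linarith) hν) hCu
    have h4 : γ * a ≤ Cu * (ν * η) := by
      rw [ha, mul_left_comm]
      exact mul_le_mul_of_nonneg_left h2 hCu
    rw [hD, hεb]
    nlinarith [mul_le_mul_of_nonneg_left h1 (show 0 ≤ 17 * 2 * 1024 * (C + 1) by positivity),
      mul_le_mul_of_nonneg_left h2 (show 0 ≤ 17 * 2 * C * C by positivity),
      mul_le_mul_of_nonneg_left h3 (show 0 ≤ 384 * C by positivity),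
      mul_le_mul_of_nonneg_left h4 (show 0 ≤ 17 * 6 * (8 * C + 2) by positivity),
      mul_nonneg hCu hνη]

end Vale.Agent.P096.Full
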