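import Vale.Agent.P096.Full.Centre
import Vale.Agent.P096.Full.Assembly
import Vale.Agent.P096.Full.Uniform.Finite

/-!
P096, LOCALISE: maps bounded over every central part, from UNIFORM at reweighted vectors.
-/

open scoped InnerProductSpace ComplexConjugate Matrix
open Filter Topology

namespace Vale.Agent.P096.Full

universe u

open Vale.Agent.P096.Full.Uniform

variable {H : Type u} [NormedAddCommGroup H] [InnerProductSpace ℂ H] [CompleteSpace H] {P : Pair H}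

namespace Localise

/-- The bound on the residual grows linearly with the constant of the mirrors: pad the tests with
identity blocks. -/
theorem res_scaled {L Λ : (H →L[ℂ] H) → H} {ν E : ℝ} (hν : 0 < ν) (hL : L 0 = 0) (hΛ : Λ 0 = 0)
    (h : ∀ (d : ℕ) (X Y nX nY : Mat H d), 0 < d → P.VecMirrored 1 ν X nX →
      P.VecMirrored 1 ν Y nY → ‖res P X Y nX nY L Λ‖ ≤ E)
    {d : ℕ} (hd : 0 < d) {X Y nX nY : Mat H d} {c : ℝ} (hc : 0 ≤ c)
    (hX : P.VecMirrored c ν X nX) (hY : P.VecMirrored c ν Y nY) :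
    ‖res P X Y nX nY L Λ‖ ≤ 2 * (1 + c) * E := by
  classical
  set m : ℕ := ⌈c ^ 2⌉₊ + 1
  have hm : 0 < m := Nat.succ_pos _
  have hcm : c ^ 2 ≤ (m : ℝ) := (Nat.le_ceil _).trans (by simp [m])
  have hmc : (m : ℝ) ≤ (2 * (1 + c)) ^ 2 := by
    have := (Nat.ceil_lt_add_one (sq_nonneg c)).le
    simp only [m, Nat.cast_add, Nat.cast_one]
    nlinarith
  set o : Fin m := ⟨0, hm⟩
  let e : (Σ _ : Fin m, Fin d) ≃ Fin (m * d) :=
    (Equiv.sigmaEquivProd (Fin m) (Fin d)).trans finProdFinEquiv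
  let put : Mat H d → ∀ _ : Fin m, Mat H d := fun Z i => if i = o then Z else 1
  have hmd : ((d : ℝ) / ((m * d : ℕ) : ℝ)) = (m : ℝ)⁻¹ := by
    have : (d : ℝ) ≠ 0 := by exact_mod_cast hd.ne'
    push_cast
    field_simp
  have hone : ∀ (S : StarSubalgebra ℂ (H →L[ℂ] H)) (a b : Fin d), (1 : Mat H d) a b ∈ S :=
    fun S a b => by
      by_cases h : a = b
      · simp [Matrix.one_apply, h]
      · simp [Matrix.one_apply, h]
  have hput : ∀ Z n : Mat H d, P.VecMirrored c ν Z n →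
      P.VecMirrored 1 ν (blk e (put Z)) (blk e (put n)) := fun Z n hZ => by
    refine ⟨blk_mem e (zero_mem P.M) fun i a b => ?_, blk_mem e (zero_mem P.N) fun i a b => ?_,
      blk_isSymm e fun i => ?_, blk_isSymm e fun i => ?_, ?_⟩
    · simp only [put]; split_ifs
      · exact hZ.memX a b
      · exact hone P.M a b
    · simp only [put]; split_ifs
      · exact hZ.memn a b
      · exact hone P.N a b
    · simp only [put]; split_ifs
      · exact hZ.symmX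
      · exact ⟨star_one _, one_mul _⟩
    · simp only [put]; split_ifs
      · exact hZ.symmn
      · exact ⟨star_one _, one_mul _⟩
    refine (pow_le_pow_iff_left₀ (norm_nonneg _) (by positivity) two_ne_zero).1 ?_
    rw [xi_blk P e fun _ => hd, ContinuousLinearMap.sub_apply, leftOp_bvec, leftOp_bvec,
      ← bvec_sub, norm_sq_bvec, Finset.sum_eq_single o (fun i _ hi => by simp [put, hi])
        (by simp), hmd, one_mul]
    simp only [put, if_pos rfl, ← ContinuousLinearMap.sub_apply]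
    calc (m : ℝ)⁻¹ * ‖(leftOp n - leftOp Z) (P.xi d)‖ ^ 2 ≤ (m : ℝ)⁻¹ * (c * ν) ^ 2 :=
          mul_le_mul_of_nonneg_left (pow_le_pow_left₀ (norm_nonneg _) hZ.vecNear 2) (by positivity)
      _ ≤ (m : ℝ)⁻¹ * ((m : ℝ) * ν ^ 2) := by rw [mul_pow]; gcongr
      _ = ν ^ 2 := by field_simp
  have hb := h _ _ _ _ _ (Nat.mul_pos hm hd) (hput X nX hX) (hput Y nY hY)
  have hE : 0 ≤ E := (norm_nonneg _).trans hb
  rw [res_blk e (fun _ => hd) _ _ _ _ L Λ hL hΛ] at hb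
  refine (pow_le_pow_iff_left₀ (norm_nonneg _) (by positivity) two_ne_zero).1 ?_
  have h2 := pow_le_pow_left₀ (norm_nonneg _) hb 2
  rw [norm_sq_bvec, hmd] at h2
  have h3 : (m : ℝ)⁻¹ * ‖res P X Y nX nY L Λ‖ ^ 2 ≤ E ^ 2 := by
    refine le_trans ?_ h2
    refine le_trans (le_of_eq ?_)
      (Finset.single_le_sum (fun i _ => by positivity) (Finset.mem_univ o))
    simp [put]
  rw [inv_mul_le_iff₀ (by exact_mod_cast hm)] at h3
  calc ‖res P X Y nX nY L Λ‖ ^ 2 ≤ (m : ℝ) * E ^ 2 := h3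
    _ ≤ (2 * (1 + c)) ^ 2 * E ^ 2 := mul_le_mul_of_nonneg_right hmc (sq_nonneg E)
    _ = _ := by ring

omit [CompleteSpace H] in
lemma norm_single_one (z : H →L[ℂ] H) :
    ‖leftOp (fun _ _ : Fin 1 => z)‖ ≤ ‖z‖ ∧ ‖rightOp (fun _ _ : Fin 1 => z)‖ ≤ ‖z‖ := by
  refine ⟨ContinuousLinearMap.opNorm_le_bound _ (norm_nonneg z) fun v => ?_,
    ContinuousLinearMap.opNorm_le_bound _ (norm_nonneg z) fun v => ?_⟩ <;>
  · refine (pow_le_pow_iff_left₀ (norm_nonneg _) (by positivity) two_ne_zero).1 ?_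
    rw [PiLp.norm_sq_eq_of_L2, mul_pow, PiLp.norm_sq_eq_of_L2, Finset.mul_sum]
    refine Finset.sum_le_sum fun p _ => ?_
    obtain ⟨a, b⟩ := p
    rw [Subsingleton.elim a 0, Subsingleton.elim b 0]
    first
    | rw [(leftOp_apply (fun _ _ : Fin 1 => z) v 0 0 : _), Fin.sum_univ_one]
    | rw [(rightOp_apply (fun _ _ : Fin 1 => z) v 0 0 : _), Fin.sum_univ_one]
    rw [← mul_pow]
    exact pow_le_pow_left₀ (norm_nonneg _) (z.le_opNorm (v (0, 0))) 2

omit [CompleteSpace H] in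
lemma norm_mapVec_one (f : (H →L[ℂ] H) → H) (z : H →L[ℂ] H) :
    ‖mapVec f (fun _ _ : Fin 1 => z)‖ = ‖f z‖ :=
  (pow_left_inj₀ (norm_nonneg _) (norm_nonneg _) two_ne_zero).1 (by
    show ‖vecOf fun _ _ : Fin 1 => f z‖ ^ 2 = _
    rw [norm_sq_vecOf]; simp)

omit [CompleteSpace H] in
lemma ampOp_mapVec {d : ℕ} {q : H →L[ℂ] H} {f g : (H →L[ℂ] H) → H} {c : ℂ} {Z : Mat H d}
    (h : ∀ i j, q (f (Z i j)) = c • q (g (Z i j))) :
    ampOp d q (mapVec f Z) = c • ampOp d q (mapVec g Z) :=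
  Amp.ext' fun i k => by
    rw [PiLp.smul_apply, ampOp_apply, ampOp_apply, mapVec, mapVec, vecOf_apply, vecOf_apply,
      map_smul, map_smul, h, smul_comm]

lemma map_zero_of {S : StarSubalgebra ℂ (H →L[ℂ] H)} {L : (H →L[ℂ] H) → H}
    (h : ∀ x ∈ S, ∀ y ∈ S, ∀ c : ℂ, L (c • x + y) = c • L x + L y) : L 0 = 0 := by
  simpa using h 0 (zero_mem _) 0 (zero_mem _) 1

/-- One part `q` of a level in the residual. -/
lemma ampOp_res {k : ℕ} {q a : H →L[ℂ] H} (hq : q ∈ P.cen k) (ha : P.IsWeight a)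
    (hqa : q * a = q) {L Λ f g : (H →L[ℂ] H) → H}
    (hL : ∀ x ∈ P.M, q (L x) = ((‖a P.ξ‖ : ℝ) : ℂ) • q (f x))
    (hΛ : ∀ y ∈ P.B, q (Λ y) = ((‖a P.ξ‖ : ℝ) : ℂ) • q (g y))
    {d : ℕ} {X Y nX nY : Mat H d} (hX : ∀ i j, X i j ∈ P.M) (hY : ∀ i j, Y i j ∈ P.M)
    (hnX : ∀ i j, nX i j ∈ P.N) (hnY : ∀ i j, nY i j ∈ P.N) :
    ampOp d q (res P X Y nX nY L Λ) =
      ((‖a P.ξ‖ : ℝ) : ℂ) • ampOp d q (res (P.reweigh a ha) X Y nX nY f g) := by
  classical
  have hs : P.Simple q := Pair.simple_cen hq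
  have hmY : ∀ i j, P.mirror nY i j ∈ P.B := P.mirror_mem hnY
  have cL : ∀ v, ampOp d q (leftOp X v) = leftOp X (ampOp d q v) := fun v => by
    rw [← comp_mul_apply, commute_ampOp_leftOp fun i j => hs.comm_M (hX i j), comp_mul_apply]
  have cR : ∀ v, ampOp d q (rightOp (P.mirror nY) v) =
      rightOp (P.mirror nY) (ampOp d q v) := fun v => by
    rw [← comp_mul_apply, commute_ampOp_rightOp fun i j => hs.comm_B (hmY i j), comp_mul_apply]
  have hone : ∀ i j, (1 : Mat H d) i j ∈ P.M ∧ (1 : Mat H d) i j ∈ P.Bal := fun i j => by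
    by_cases h : i = j <;> simp [Matrix.one_apply, h, zero_mem, one_mem]
  have e1 := ampOp_mapVec (d := d) (Z := X * Y) (f := L) (g := f) fun i j => hL _ (by
    rw [Matrix.mul_apply]; exact sum_mem fun l _ => mul_mem (hX i l) (hY l j))
  have e2 := ampOp_mapVec (d := d) (Z := rmul (P.mirror nY) (P.mirror nX)) (f := Λ) (g := g)
    fun i j => hΛ _ (show _ ∈ P.Bal from
      sum_mem fun l _ => mul_mem (hmY l j) (P.mirror_mem hnX i l))
  have e3 := ampOp_mapVec (d := d) (Z := Y) (f := L) (g := f) fun i j => hL _ (hY i j)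
  have e4 := ampOp_mapVec (d := d) (Z := P.mirror nY) (f := Λ) (g := g) fun i j => hΛ _ (hmY i j)
  have e5 := ampOp_mapVec (d := d) (Z := X) (f := L) (g := f) fun i j => hL _ (hX i j)
  have e6 := ampOp_mapVec (d := d) (Z := P.mirror nX) (f := Λ) (g := g)
    fun i j => hΛ _ (P.mirror_mem hnX i j)
  have e7 := ampOp_mapVec (d := d) (Z := 1) (f := L) (g := f) fun i j => hL _ (hone i j).1
  have e8 := ampOp_mapVec (d := d) (Z := 1) (f := Λ) (g := g) fun i j => hΛ _ (hone i j).2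
  have e0 : ampOp d q (P.xi d) =
      ((‖a P.ξ‖ : ℝ) : ℂ) • ampOp d q ((P.reweigh a ha).xi d) := by
    rw [P.reweigh_xi a ha, map_smul, smul_smul, ← ampOp_mul_apply, hqa, Pair.wscale,
      ← Complex.ofReal_mul, mul_inv_cancel₀ ha.norm_pos.ne', Complex.ofReal_one, one_smul]
  have hmir : ∀ n : Mat H d, (P.reweigh a ha).mirror n = P.mirror n := fun _ => rfl
  simp only [res, hmir, ContinuousLinearMap.sub_apply, comp_mul_apply, map_add, map_sub, cL, cR,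
    e0, e1, e2, e3, e4, e5, e6, e7, e8, map_smul]
  module

/-- Maps with the properties of the local UNIFORM at one level. -/
structure Stage (C γ ν : ℝ) (N k : ℕ) (L Λ : (H →L[ℂ] H) → H) : Prop where
  linL : ∀ x ∈ P.M, ∀ y ∈ P.M, ∀ c : ℂ, L (c • x + y) = c • L x + L y
  linR : ∀ x ∈ P.B, ∀ y ∈ P.B, ∀ c : ℂ, Λ (c • x + y) = c • Λ x + Λ y
  bdL : ∀ z, ‖L z‖ ≤ C * ν * ‖z‖
  bdR : ∀ z, ‖Λ z‖ ≤ C * ν * ‖z‖
  locL : ∀ z, ∀ j, j ≤ k → ∀ q ∈ P.cen j, ‖q (L z)‖ ≤ C * ν * ‖z‖ * ‖q P.ξ‖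
  locR : ∀ z, ∀ j, j ≤ k → ∀ q ∈ P.cen j, ‖q (Λ z)‖ ≤ C * ν * ‖z‖ * ‖q P.ξ‖
  eqL : ∀ j, ∀ g ∈ P.G j, ∀ h ∈ P.G j, ∀ x ∈ P.M,
    L (g * x * h) = g (P.conjOp (star h) (L x))
  eqR : ∀ j, ∀ g ∈ P.G j, ∀ h ∈ P.G j, ∀ y ∈ P.B,
    Λ (P.conjOp (star h) * y * P.conjOp (star g)) = g (P.conjOp (star h) (Λ y))
  resLe : ∀ (d : ℕ) (X Y nX nY : Mat H d) (C' : ℝ), 0 < d → 0 ≤ C' →
    P.VecMirrored C' ν X nX → P.VecMirrored C' ν Y nY →
    ‖res P X Y nX nY L Λ‖ ≤ C * (1 + C') * ν * (1 / Real.sqrt (Real.log N) + N * γ)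

/-- Pythagoras for bounds given part by part. -/
lemma norm_le_of_parts {j : ℕ} {s : Finset (H →L[ℂ] H)} (hs : s ⊆ P.cen j) {w v : H} {r : ℝ}
    (hr : 0 ≤ r) (h : ∀ q ∈ s, ‖q w‖ ≤ r * ‖q v‖) :
    ‖(∑ q ∈ s, q) w‖ ≤ r * ‖(∑ q ∈ s, q) v‖ := by
  refine (pow_le_pow_iff_left₀ (norm_nonneg _) (by positivity) two_ne_zero).1 ?_
  rw [mul_pow, P.sum_norm_sq s hs, P.sum_norm_sq s hs, Finset.mul_sum]
  refine Finset.sum_le_sum fun q hq => ?_
  rw [← mul_pow]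
  exact pow_le_pow_left₀ (norm_nonneg _) (h q hq) 2

theorem exists_stage {C₁ : ℝ} (hC₁ : 0 ≤ C₁)
    (hU : ∀ (H : Type u) [NormedAddCommGroup H] [InnerProductSpace ℂ H] [CompleteSpace H]
      (P : Pair H) (γ ν : ℝ) (N : ℕ), 64 ≤ N → P.OpLe γ → P.NuLe ν →
      ∃ L Λ : (H →L[ℂ] H) → H,
        (∀ x ∈ P.M, ∀ y ∈ P.M, ∀ c : ℂ, L (c • x + y) = c • L x + L y) ∧
        (∀ x ∈ P.B, ∀ y ∈ P.B, ∀ c : ℂ, Λ (c • x + y) = c • Λ x + Λ y) ∧
        (∀ (d : ℕ) (X : Mat H d), 0 < d → (∀ i j, X i j ∈ P.M) →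
          ‖mapVec L X‖ ≤ C₁ * ν * ‖leftOp X‖) ∧
        (∀ (d : ℕ) (Y : Mat H d), 0 < d → (∀ i j, Y i j ∈ P.B) →
          ‖mapVec Λ Y‖ ≤ C₁ * ν * ‖rightOp Y‖) ∧
        (∀ k, ∀ g ∈ P.G k, ∀ h ∈ P.G k, ∀ x ∈ P.M,
          L (g * x * h) = g (P.conjOp (star h) (L x))) ∧
        (∀ k, ∀ g ∈ P.G k, ∀ h ∈ P.G k, ∀ y ∈ P.B,
          Λ (P.conjOp (star h) * y * P.conjOp (star g)) = g (P.conjOp (star h) (Λ y))) ∧
        ∀ (d : ℕ) (X Y nX nY : Mat H d), 0 < d →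
          P.VecMirrored 1 ν X nX → P.VecMirrored 1 ν Y nY →
          ‖res P X Y nX nY L Λ‖ ≤ C₁ * ν * (1 / Real.sqrt (Real.log N) + N * γ))
    {γ ν : ℝ} {N : ℕ} (hN : 64 ≤ N) (hop : P.OpLe γ) (hnu : P.NuLoc ν) (k : ℕ) :
    ∃ L Λ, Stage (P := P) (12 * C₁) γ ν N k L Λ := by
  classical
  obtain ⟨ε, hε0, hε1, hε2⟩ : ∃ ε : ℝ, 0 < ε ∧ (∀ q ∈ P.cen k, ε ≤ ‖q P.ξ‖) ∧
      ((P.cen k).card : ℝ) * ε ^ 2 ≤ 1 := by
    have h1 : ∀ᶠ ε : ℝ in 𝓝 0, ∀ q ∈ P.cen k, ε ≤ ‖q P.ξ‖ :=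
      (P.cen k).eventually_all.2 fun q hq =>
        eventually_le_nhds (norm_pos_iff.2 (P.cen_xi_ne hq))
    have h2 : ∀ᶠ ε : ℝ in 𝓝 0, ((P.cen k).card : ℝ) * ε ^ 2 ≤ 1 := by
      have : Tendsto (fun ε : ℝ => ((P.cen k).card : ℝ) * ε ^ 2) (𝓝 0) (𝓝 0) := by
        simpa using ((continuous_id.pow 2).const_mul ((P.cen k).card : ℝ)).tendsto (0 : ℝ)
      exact this.eventually (eventually_le_nhds zero_lt_one)
    obtain ⟨ε, ⟨ha, hb⟩, hc⟩ := (((h1.and h2).filter_mono nhdsWithin_le_nhds).and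
      (self_mem_nhdsWithin (s := Set.Ioi (0 : ℝ)))).exists
    exact ⟨ε, hc, ha, hb⟩
  let s := (P.cen k).attach
  let a : {x // x ∈ P.cen k} → (H →L[ℂ] H) := fun q => q.1 + (ε : ℂ) • (1 - q.1)
  have ha : ∀ q, P.IsWeight (a q) := fun q => Pair.isWeight_part q.2 hε0
  choose f g hlf hlg hbf hbg hef heg hrf using fun q =>
    hU H (P.reweigh (a q) (ha q)) γ ν N hN (hop.reweigh (ha q)) (hnu.reweigh (ha q)).nuLe
  let t : {x // x ∈ P.cen k} → ℂ := fun q => ((‖a q P.ξ‖ : ℝ) : ℂ)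
  let L : (H →L[ℂ] H) → H := fun z => if z ∈ P.M then ∑ q ∈ s, t q • q.1 (f q z) else 0
  let Λ : (H →L[ℂ] H) → H := fun z => if z ∈ P.B then ∑ q ∈ s, t q • q.1 (g q z) else 0
  have hfb : ∀ q, ∀ z ∈ P.M, ‖f q z‖ ≤ C₁ * ν * ‖z‖ := fun q z hz => by
    rw [← norm_mapVec_one]
    exact (hbf q 1 (fun _ _ => z) one_pos fun _ _ => hz).trans
      (mul_le_mul_of_nonneg_left (norm_single_one z).1 (mul_nonneg hC₁ hnu.pos.le))
  have hgb : ∀ q, ∀ z ∈ P.B, ‖g q z‖ ≤ C₁ * ν * ‖z‖ := fun q z hz => by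
    rw [← norm_mapVec_one]
    exact (hbg q 1 (fun _ _ => z) one_pos fun _ _ => hz).trans
      (mul_le_mul_of_nonneg_left (norm_single_one z).2 (mul_nonneg hC₁ hnu.pos.le))
  have hqa : ∀ q, q.1 * a q = q.1 := fun q => by
    simp [a, mul_add, mul_sub, (P.cen_proj k q.1 q.2).2.1]
  have hta : ∀ q, ‖a q P.ξ‖ ≤ 2 * ‖q.1 P.ξ‖ ∧
      ‖a q P.ξ‖ ^ 2 ≤ 2 * ‖q.1 P.ξ‖ ^ 2 + 2 * ε ^ 2 := fun q => by
    have h1 : ‖a q P.ξ‖ ≤ ‖q.1 P.ξ‖ + ε := by
      refine (norm_add_le _ _).trans (add_le_add le_rfl ?_)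
      show ‖(ε : ℂ) • (1 - q.1) P.ξ‖ ≤ ε
      rw [norm_smul, Complex.norm_real, Real.norm_of_nonneg hε0.le]
      have h1q : IsStarProjection (1 - q.1) :=
        (show IsStarProjection q.1 from
          ⟨(P.cen_proj k _ q.2).2.1, (P.cen_proj k _ q.2).1⟩).one_sub
      refine mul_le_of_le_one_right hε0.le ?_
      refine ((1 - q.1).le_opNorm P.ξ).trans ?_
      rw [P.norm_ξ, mul_one]
      exact h1q.norm_le
    refine ⟨h1.trans (by linarith [hε1 q.1 q.2]), ?_⟩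
    nlinarith [pow_le_pow_left₀ (norm_nonneg _) h1 2, sq_nonneg (‖q.1 P.ξ‖ - ε)]
  have hsel : ∀ (F : {x // x ∈ P.cen k} → H) (p : {x // x ∈ P.cen k}),
      p.1 (∑ q ∈ s, t q • q.1 (F q)) = t p • p.1 (F p) := fun F p => by
    rw [map_sum, Finset.sum_eq_single p]
    · rw [map_smul, ← comp_mul_apply, (P.cen_proj k p.1 p.2).2.1]
    · intro q _ hne
      rw [map_smul, ← comp_mul_apply, P.cen_orth k p.1 p.2 q.1 q.2
        (fun h => hne (Subtype.ext h.symm)), zero_apply, smul_zero]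
    · exact fun h => absurd (Finset.mem_attach _ p) h
  have loc : ∀ (F : {x // x ∈ P.cen k} → H) (c : ℝ), 0 ≤ c → (∀ q, ‖F q‖ ≤ c) →
      ∀ j, j ≤ k → ∀ r ∈ P.cen j,
        ‖r (∑ q ∈ s, t q • q.1 (F q))‖ ≤ 2 * c * ‖r P.ξ‖ := fun F c hc hF j hj r hr => by
    rw [← P.cen_split hj hr]
    refine norm_le_of_parts (j := k) (fun p hp => (P.mem_under.1 hp).1) (by positivity)
      fun p hp => ?_
    obtain ⟨hp, -⟩ := P.mem_under.1 hp
    rw [show p = (⟨p, hp⟩ : {x // x ∈ P.cen k}).1 from rfl, hsel, norm_smul, Complex.norm_real,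
      norm_norm]
    calc ‖a ⟨p, hp⟩ P.ξ‖ * ‖p (F ⟨p, hp⟩)‖ ≤ (2 * ‖p P.ξ‖) * c :=
          mul_le_mul (hta ⟨p, hp⟩).1 (((p.le_opNorm _).trans (mul_le_of_le_one_left (norm_nonneg _)
            (P.norm_cen_le hp))).trans (hF _)) (norm_nonneg _) (by positivity)
      _ = _ := by ring
  have tot : ∀ (F : {x // x ∈ P.cen k} → H) (c : ℝ), 0 ≤ c → (∀ q, ‖F q‖ ≤ c) →
      ‖∑ q ∈ s, t q • q.1 (F q)‖ ≤ 2 * c := fun F c hc hF => by
    have := norm_le_of_parts (s := P.cen k) subset_rfl (w := ∑ q ∈ s, t q • q.1 (F q)) (v := P.ξ)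
      (r := 2 * c) (by positivity) fun r hr => loc F c hc hF k le_rfl r hr
    rwa [P.cen_sum, one_apply_eq_self, one_apply_eq_self, P.norm_ξ, mul_one] at this
  have hcν : ∀ z : H →L[ℂ] H, 0 ≤ C₁ * ν * ‖z‖ := fun z =>
    mul_nonneg (mul_nonneg hC₁ hnu.pos.le) (norm_nonneg z)
  have h8 : ∀ z : H →L[ℂ] H, 2 * (C₁ * ν * ‖z‖) ≤ 12 * C₁ * ν * ‖z‖ := fun z => by
    nlinarith [hcν z]
  have hz8 : ∀ z : H →L[ℂ] H, 0 ≤ 12 * C₁ * ν * ‖z‖ := fun z => by nlinarith [hcν z]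
  refine ⟨L, Λ, ⟨fun x hx y hy c => ?_, fun x hx y hy c => ?_, fun z => ?_, fun z => ?_,
    fun z j hj r hr => ?_, fun z j hj r hr => ?_, fun j g₀ hg h hh x hx => ?_,
    fun j g₀ hg h hh y hy => ?_, fun d X Y nX nY C' hd hC' hX hY => ?_⟩⟩
  · have hxy : c • x + y ∈ P.M := add_mem (SMulMemClass.smul_mem c hx) hy
    simp only [L, if_pos hx, if_pos hy, if_pos hxy, Finset.smul_sum, ← Finset.sum_add_distrib]
    refine Finset.sum_congr rfl fun q _ => ?_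
    rw [hlf q x hx y hy c, map_add, map_smul, smul_add, smul_comm c]
  · have hxy : c • x + y ∈ P.B := (show c • x + y ∈ P.Bal from
      add_mem (SMulMemClass.smul_mem c (P.mem_Bal.2 hx)) (P.mem_Bal.2 hy))
    simp only [Λ, if_pos hx, if_pos hy, if_pos hxy, Finset.smul_sum, ← Finset.sum_add_distrib]
    refine Finset.sum_congr rfl fun q _ => ?_
    rw [hlg q x hx y hy c, map_add, map_smul, smul_add, smul_comm c]
  · by_cases hz : z ∈ P.M
    · simp only [L, if_pos hz]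
      exact (tot _ _ (hcν z) fun q => hfb q z hz).trans (h8 z)
    · simp only [L, if_neg hz, norm_zero]; exact hz8 z
  · by_cases hz : z ∈ P.B
    · simp only [Λ, if_pos hz]
      exact (tot _ _ (hcν z) fun q => hgb q z hz).trans (h8 z)
    · simp only [Λ, if_neg hz, norm_zero]; exact hz8 z
  · by_cases hz : z ∈ P.M
    · simp only [L, if_pos hz]
      exact (loc _ _ (hcν z) (fun q => hfb q z hz) j hj r hr).trans
        (mul_le_mul_of_nonneg_right (h8 z) (norm_nonneg _))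
    · simp only [L, if_neg hz, map_zero, norm_zero]
      exact mul_nonneg (hz8 z) (norm_nonneg _)
  · by_cases hz : z ∈ P.B
    · simp only [Λ, if_pos hz]
      exact (loc _ _ (hcν z) (fun q => hgb q z hz) j hj r hr).trans
        (mul_le_mul_of_nonneg_right (h8 z) (norm_nonneg _))
    · simp only [Λ, if_neg hz, map_zero, norm_zero]
      exact mul_nonneg (hz8 z) (norm_nonneg _)
  · obtain ⟨hgM, -, -, -⟩ := P.G_mem j g₀ hg
    obtain ⟨hhM, hhN, -, -⟩ := P.G_mem j h hh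
    simp only [L, if_pos hx, if_pos (mul_mem (mul_mem hgM hx) hhM), map_sum]
    refine Finset.sum_congr rfl fun q _ => ?_
    have hsimp : P.Simple q.1 := Pair.simple_cen q.2
    rw [hef q j g₀ hg h hh x hx, map_smul, map_smul]
    congr 1
    show q.1 (g₀ (P.conjOp (star h) (f q x))) = g₀ (P.conjOp (star h) (q.1 (f q x)))
    rw [← comp_mul_apply, hsimp.comm_M hgM, comp_mul_apply,
      ← comp_mul_apply q.1, hsimp.comm_B ⟨star h, star_mem hhN, rfl⟩, comp_mul_apply]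
  · obtain ⟨hgM, hgN, -, -⟩ := P.G_mem j g₀ hg
    obtain ⟨-, hhN, -, -⟩ := P.G_mem j h hh
    have hmem : P.conjOp (star h) * y * P.conjOp (star g₀) ∈ P.B :=
      show _ ∈ P.Bal from mul_mem (mul_mem (P.mem_Bal.2 ⟨star h, star_mem hhN, rfl⟩)
        (P.mem_Bal.2 hy)) (P.mem_Bal.2 ⟨star g₀, star_mem hgN, rfl⟩)
    simp only [Λ, if_pos hy, if_pos hmem, map_sum]
    refine Finset.sum_congr rfl fun q _ => ?_
    have hsimp : P.Simple q.1 := Pair.simple_cen q.2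
    rw [map_smul, map_smul]
    congr 1
    rw [show g q (P.conjOp (star h) * y * P.conjOp (star g₀)) = _ from heg q j g₀ hg h hh y hy]
    show q.1 (g₀ (P.conjOp (star h) (g q y))) = g₀ (P.conjOp (star h) (q.1 (g q y)))
    rw [← comp_mul_apply, hsimp.comm_M hgM, comp_mul_apply,
      ← comp_mul_apply q.1, hsimp.comm_B ⟨star h, star_mem hhN, rfl⟩, comp_mul_apply]
  · set δ : ℝ := 1 / Real.sqrt (Real.log N) + N * γ
    have hδ : 0 ≤ δ := by have := hop.nonneg; positivity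
    set u := (leftOp nX - leftOp X) (P.xi d)
    set w := (leftOp nY - leftOp Y) (P.xi d)
    have hu : ‖u‖ ≤ C' * ν := hX.vecNear
    have hw : ‖w‖ ≤ C' * ν := hY.vecNear
    have move : ∀ q, ∀ {Z n : Mat H d}, (∀ i j, Z i j ∈ P.M) → (∀ i j, n i j ∈ P.N) →
        ‖(leftOp n - leftOp Z) ((P.reweigh (a q) (ha q)).xi d)‖ =
          ‖a q P.ξ‖⁻¹ * ‖ampOp d (a q) ((leftOp n - leftOp Z) (P.xi d))‖ := fun q Z n hZ hn => by
      rw [P.reweigh_xi (a q) (ha q), map_smul, norm_smul, P.norm_wscale]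
      congr 2
      have h1 := DFunLike.congr_fun (commute_ampOp_leftOp (T := a q) fun i j =>
        (ha q).simple.comm_M (hZ i j)) (P.xi d)
      have h2 := DFunLike.congr_fun (commute_ampOp_leftOp (T := a q) fun i j =>
        (ha q).simple.comm_N (hn i j)) (P.xi d)
      simp only [comp_mul_apply] at h1 h2
      simp only [sub_apply, map_sub, h1, h2]
    have part : ∀ q, ‖ampOp d q.1 (res P X Y nX nY L Λ)‖ ≤ 2 * (C₁ * δ) *
        (ν * ‖a q P.ξ‖ + ‖ampOp d (a q) u‖ + ‖ampOp d (a q) w‖) := fun q => by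
      have hL' : ∀ x ∈ P.M, q.1 (L x) = t q • q.1 (f q x) := fun x hx => by
        simp only [L, if_pos hx]; exact hsel _ q
      have hΛ' : ∀ y ∈ P.B, q.1 (Λ y) = t q • q.1 (g q y) := fun y hy => by
        simp only [Λ, if_pos hy]; exact hsel _ q
      rw [ampOp_res q.2 (ha q) (hqa q) hL' hΛ' hX.memX hY.memX hX.memn hY.memn, norm_smul,
        Complex.norm_real, norm_norm]
      have hpos := (ha q).norm_pos
      set c := (‖ampOp d (a q) u‖ + ‖ampOp d (a q) w‖) / (ν * ‖a q P.ξ‖) with hcdef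
      have hc : 0 ≤ c := div_nonneg (by positivity) (mul_nonneg hnu.pos.le hpos.le)
      have hcν : c * ν = ‖a q P.ξ‖⁻¹ * (‖ampOp d (a q) u‖ + ‖ampOp d (a q) w‖) := by
        rw [hcdef]; field_simp [hnu.pos.ne', hpos.ne']
      have hX' : (P.reweigh (a q) (ha q)).VecMirrored c ν X nX :=
        ⟨hX.memX, hX.memn, hX.symmX, hX.symmn, by
          rw [move q hX.memX hX.memn, hcν]
          exact mul_le_mul_of_nonneg_left (le_add_of_nonneg_right (norm_nonneg _))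
            (inv_nonneg.2 hpos.le)⟩
      have hY' : (P.reweigh (a q) (ha q)).VecMirrored c ν Y nY :=
        ⟨hY.memX, hY.memn, hY.symmX, hY.symmn, by
          rw [move q hY.memX hY.memn, hcν]
          exact mul_le_mul_of_nonneg_left (le_add_of_nonneg_left (norm_nonneg _))
            (inv_nonneg.2 hpos.le)⟩
      have hres := res_scaled hnu.pos (map_zero_of (hlf q))
        (map_zero_of (S := P.Bal) fun x hx y hy c => hlg q x hx y hy c) (hrf q) hd hc hX' hY'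
      refine (mul_le_mul_of_nonneg_left (le_trans (le_trans ?_ hres) le_rfl) hpos.le).trans
        (le_of_eq ?_)
      · refine (pow_le_pow_iff_left₀ (norm_nonneg _) (norm_nonneg _) two_ne_zero).1 ?_
        rw [norm_sq_ampOp, PiLp.norm_sq_eq_of_L2]
        exact Finset.sum_le_sum fun p _ => pow_le_pow_left₀ (norm_nonneg _)
          ((q.1.le_opNorm _).trans (mul_le_of_le_one_left (norm_nonneg _)
            (P.norm_cen_le q.2))) 2
      · rw [hcdef]; field_simp [hnu.pos.ne', hpos.ne']; ring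
    have amp : ∀ q, ∀ v : Amp H d,
        ‖ampOp d (a q) v‖ ^ 2 ≤ 2 * ‖ampOp d q.1 v‖ ^ 2 + 2 * ε ^ 2 * ‖v‖ ^ 2 := fun q v => by
      rw [norm_sq_ampOp, norm_sq_ampOp, PiLp.norm_sq_eq_of_L2, Finset.mul_sum, Finset.mul_sum,
        ← Finset.sum_add_distrib]
      refine Finset.sum_le_sum fun p _ => ?_
      have h1 : ‖a q (v p)‖ ≤ ‖q.1 (v p)‖ + ε * ‖v p‖ := by
        refine (norm_add_le _ _).trans (add_le_add le_rfl ?_)
        show ‖(ε : ℂ) • (1 - q.1) (v p)‖ ≤ ε * ‖v p‖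
        rw [norm_smul, Complex.norm_real, Real.norm_of_nonneg hε0.le]
        refine mul_le_mul_of_nonneg_left (((1 - q.1).le_opNorm _).trans
          (mul_le_of_le_one_left (norm_nonneg _) ?_)) hε0.le
        exact (show IsStarProjection q.1 from
          ⟨(P.cen_proj k _ q.2).2.1, (P.cen_proj k _ q.2).1⟩).one_sub.norm_le
      nlinarith [pow_le_pow_left₀ (norm_nonneg _) h1 2,
        sq_nonneg (‖q.1 (v p)‖ - ε * ‖v p‖)]
    have sums : ∀ v : Amp H d, ∑ q ∈ s, ‖ampOp d (a q) v‖ ^ 2 ≤ 4 * ‖v‖ ^ 2 := fun v => by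
      refine (Finset.sum_le_sum fun q _ => amp q v).trans ?_
      rw [Finset.sum_add_distrib, ← Finset.mul_sum, Finset.sum_const, Finset.card_attach,
        nsmul_eq_mul, Finset.sum_attach (P.cen k) (fun q => ‖ampOp d q v‖ ^ 2),
        ← P.sum_norm_sq_amp (P.cen k) subset_rfl v, P.cen_sum]
      have h1 : ampOp d (1 : H →L[ℂ] H) v = v := Amp.ext' fun i j => by simp
      rw [h1]
      nlinarith [mul_le_mul_of_nonneg_right hε2 (sq_nonneg ‖v‖)]
    have sum0 : ∑ q ∈ s, ‖a q P.ξ‖ ^ 2 ≤ 4 := by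
      refine (Finset.sum_le_sum fun q _ => (hta q).2).trans ?_
      rw [Finset.sum_add_distrib, ← Finset.mul_sum, Finset.sum_const, Finset.card_attach,
        nsmul_eq_mul, Finset.sum_attach (P.cen k) (fun q => ‖q P.ξ‖ ^ 2),
        ← P.sum_norm_sq (P.cen k) subset_rfl P.ξ, P.cen_sum, one_apply_eq_self, P.norm_ξ]
      nlinarith [hε2]
    have hK : 0 ≤ 12 * C₁ * (1 + C') * ν * δ := by have := hnu.pos.le; positivity
    refine (pow_le_pow_iff_left₀ (norm_nonneg _) hK two_ne_zero).1 ?_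
    have h1 : ampOp d (1 : H →L[ℂ] H) (res P X Y nX nY L Λ) = res P X Y nX nY L Λ :=
      Amp.ext' fun i j => by simp
    rw [← h1, ← P.cen_sum k, P.sum_norm_sq_amp (P.cen k) subset_rfl,
      ← Finset.sum_attach (P.cen k) fun q => ‖ampOp d q (res P X Y nX nY L Λ)‖ ^ 2]
    calc ∑ q ∈ s, ‖ampOp d q.1 (res P X Y nX nY L Λ)‖ ^ 2
        ≤ ∑ q ∈ s, (2 * (C₁ * δ)) ^ 2 * (3 * (ν ^ 2 * ‖a q P.ξ‖ ^ 2 + ‖ampOp d (a q) u‖ ^ 2 +
            ‖ampOp d (a q) w‖ ^ 2)) := Finset.sum_le_sum fun q _ => by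
          refine (pow_le_pow_left₀ (norm_nonneg _) (part q) 2).trans ?_
          rw [mul_pow]
          refine mul_le_mul_of_nonneg_left ?_ (sq_nonneg _)
          nlinarith [sq_nonneg (ν * ‖a q P.ξ‖ - ‖ampOp d (a q) u‖),
            sq_nonneg (ν * ‖a q P.ξ‖ - ‖ampOp d (a q) w‖),
            sq_nonneg (‖ampOp d (a q) u‖ - ‖ampOp d (a q) w‖)]
      _ = (2 * (C₁ * δ)) ^ 2 * (3 * (ν ^ 2 * ∑ q ∈ s, ‖a q P.ξ‖ ^ 2 +
            ∑ q ∈ s, ‖ampOp d (a q) u‖ ^ 2 + ∑ q ∈ s, ‖ampOp d (a q) w‖ ^ 2)) := by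
          simp only [Finset.mul_sum, ← Finset.sum_add_distrib]
      _ ≤ (2 * (C₁ * δ)) ^ 2 * (3 * (ν ^ 2 * 4 + 4 * (C' * ν) ^ 2 + 4 * (C' * ν) ^ 2)) := by
          gcongr
          · exact (sums u).trans (by gcongr)
          · exact (sums w).trans (by gcongr)
      _ ≤ (12 * C₁ * (1 + C') * ν * δ) ^ 2 := by
          nlinarith [mul_nonneg (sq_nonneg (C₁ * δ * ν)) hC',
            mul_nonneg (sq_nonneg (C₁ * δ * ν)) (sq_nonneg (C' - 1)),
            mul_nonneg (sq_nonneg (C₁ * δ * ν)) (sq_nonneg C')]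

end Localise

open Localise in
/-- LOCALISE from UNIFORM. -/
theorem localiseModule : LocaliseModule.{u} := by
  classical
  intro hU
  obtain ⟨C₁, hC₁, hU⟩ := hU 1 zero_le_one
  refine ⟨12 * C₁, by positivity, ?_⟩
  intro H _ _ _ P γ ν N hN hop hnu
  choose fL fR hS using fun k => exists_stage hC₁ hU hN hop hnu k
  let U : Ultrafilter ℕ := Ultrafilter.of atTop
  have hev : ∀ k₀, ∀ᶠ k in (U : Filter ℕ), k₀ ≤ k := fun k₀ =>
    Ultrafilter.of_le _ (eventually_ge_atTop k₀)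
  choose L hL using fun z => exists_wLim U (fun k => fL k z)
    (Eventually.of_forall fun k => (hS k).bdL z)
  choose Λ hΛ using fun z => exists_wLim U (fun k => fR k z)
    (Eventually.of_forall fun k => (hS k).bdR z)
  have hmL : ∀ {d : ℕ} (X : Mat H d),
      WLim (U : Filter ℕ) (fun k => mapVec (fL k) X) (mapVec L X) := fun {d} X =>
    WLim.toLp fun p => (hL (X p.1 p.2)).smul _
  have hmR : ∀ {d : ℕ} (X : Mat H d),
      WLim (U : Filter ℕ) (fun k => mapVec (fR k) X) (mapVec Λ X) := fun {d} X =>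
    WLim.toLp fun p => (hΛ (X p.1 p.2)).smul _
  refine ⟨L, Λ, fun x hx y hy c => ?_, fun x hx y hy c => ?_, fun x hx k q hq => ?_,
    fun y hy k q hq => ?_, fun k g hg h hh x hx => ?_, fun k g hg h hh y hy => ?_,
    fun d X Y nX nY C' hd hC' hX hY => ?_⟩
  · exact (hL _).unique ((((hL x).smul c).add (hL y)).congr
      (Eventually.of_forall fun i => ((hS i).linL x hx y hy c).symm))
  · exact (hΛ _).unique ((((hΛ x).smul c).add (hΛ y)).congr
      (Eventually.of_forall fun i => ((hS i).linR x hx y hy c).symm))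
  · exact ((hL x).map q).norm_le ((hev k).mono fun i hi => (hS i).locL x k hi q hq)
  · exact ((hΛ y).map q).norm_le ((hev k).mono fun i hi => (hS i).locR y k hi q hq)
  · exact (hL _).unique ((((hL x).map (P.conjOp (star h))).map g).congr
      (Eventually.of_forall fun i => ((hS i).eqL k g hg h hh x hx).symm))
  · exact (hΛ _).unique ((((hΛ y).map (P.conjOp (star h))).map g).congr
      (Eventually.of_forall fun i => ((hS i).eqR k g hg h hh y hy).symm))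
  · have hlim : WLim (U : Filter ℕ) (fun k => res P X Y nX nY (fL k) (fR k))
        (res P X Y nX nY L Λ) :=
      ((((((WLim.const _).add (hmL _)).add (hmR _)).sub (((hmL Y).add (hmR _)).map _)).sub
        (((hmL X).add (hmR _)).map _)).add
          ((((hmL 1).add (hmR 1)).map _).map _))
    exact hlim.norm_le (Eventually.of_forall fun i => (hS i).resLe d X Y nX nY C' hd hC' hX hY)

end Vale.Agent.P096.Full
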