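import Vale.Agent.P096.Full.StandardDilate
import Vale.Agent.P096.Full.Assembly

/-!
P096, ITERATE: close standard pairs are conjugate by a unitary near the identity.
The linear step halves the local vector defect, the unitaries converge geometrically, and a vanishing
vector defect puts the moved algebra inside the second one.
-/

open scoped InnerProductSpace ComplexConjugate
open Filter Topology ContinuousLinearMap

namespace Vale.Agent.P096.Full.Std

universe u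

variable {H : Type u} [NormedAddCommGroup H] [InnerProductSpace ℂ H] [CompleteSpace H]

/-- A closed subalgebra that is near a larger one is all of it. -/
lemma mem_of_near {S T : StarSubalgebra ℂ (H →L[ℂ] H)} (hT : IsClosed (T : Set (H →L[ℂ] H)))
    (hTS : ∀ x ∈ T, x ∈ S) {γ : ℝ} (hγ : γ < 1 / 2)
    (h : NearIncl (S : Set (H →L[ℂ] H)) T γ) : ∀ y ∈ S, y ∈ T := by
  intro y hy
  have hne : (T : Set (H →L[ℂ] H)).Nonempty := ⟨1, one_mem T⟩
  set r := Metric.infDist y (T : Set (H →L[ℂ] H)) with hr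
  by_contra hyT
  have hrpos : 0 < r := (hT.notMem_iff_infDist_pos hne).1 hyT
  obtain ⟨m, hm, hdist⟩ := (Metric.infDist_lt_iff hne).1 (show r < 2 * r by linarith)
  rw [dist_eq_norm] at hdist
  set t := ‖y - m‖ with ht
  have htr : r ≤ t := by
    rw [ht, ← dist_eq_norm]; exact Metric.infDist_le_dist_of_mem hm
  have ht0 : 0 < t := hrpos.trans_le htr
  obtain ⟨z, hz, hzd⟩ := h (((t⁻¹ : ℝ) : ℂ) • (y - m))
    (SMulMemClass.smul_mem _ (sub_mem hy (hTS m hm))) (by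
      rw [opSize, norm_smul, Complex.norm_real, Real.norm_of_nonneg (inv_nonneg.2 ht0.le), ← ht,
        inv_mul_cancel₀ ht0.ne'])
  rw [opDist] at hzd
  have e : y - (m + ((t : ℝ) : ℂ) • z) = ((t : ℝ) : ℂ) • (((t⁻¹ : ℝ) : ℂ) • (y - m) - z) := by
    rw [smul_sub, smul_smul, ← Complex.ofReal_mul, mul_inv_cancel₀ ht0.ne', Complex.ofReal_one,
      one_smul]
    abel
  have hle : r ≤ t * γ := by
    refine (Metric.infDist_le_dist_of_mem (add_mem hm (SMulMemClass.smul_mem ((t : ℝ) : ℂ) hz))).trans ?_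
    rw [dist_eq_norm, e, norm_smul, Complex.norm_real, Real.norm_of_nonneg ht0.le]
    exact mul_le_mul_of_nonneg_left hzd ht0.le
  nlinarith

/-- A small operator bound puts every element of a closed algebra in the other one. -/
lemma mem_of_near_zero {S : StarSubalgebra ℂ (H →L[ℂ] H)} {T : StarSubalgebra ℂ (H →L[ℂ] H)}
    (h : NearIncl (S : Set (H →L[ℂ] H)) T 0) : ∀ x ∈ S, x ∈ T := by
  intro x hx
  set c : ℂ := ((‖x‖ + 1 : ℝ) : ℂ) with hc
  have hc0 : c ≠ 0 := Complex.ofReal_ne_zero.2 (by positivity)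
  have hcn : ‖c‖ = ‖x‖ + 1 := by
    rw [hc, Complex.norm_real, Real.norm_of_nonneg (by positivity)]
  obtain ⟨z, hz, hzd⟩ := h (c⁻¹ • x) (SMulMemClass.smul_mem _ hx) (by
    rw [opSize, norm_smul, norm_inv, hcn, inv_mul_le_iff₀ (by positivity)]; linarith)
  have e : c⁻¹ • x = z := sub_eq_zero.1 (norm_le_zero_iff.1 hzd)
  rw [← smul_inv_smul₀ hc0 x, e]
  exact SMulMemClass.smul_mem _ hz

/-- Conjugates of symmetries are symmetries. -/
lemma isSymm_conj {v : H →L[ℂ] H} (h1 : star v * v = 1) (h2 : v * star v = 1) {d : ℕ}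
    {X : Mat H d} (h : IsSymm X) : IsSymm (conjMat (star v) X) := by
  have hV : star (ampOp d v) * ampOp d v = 1 := ampOp_iso h1
  have hV' : ampOp d v * star (ampOp d v) = 1 := ampOp_coiso h2
  have e : leftOp (conjMat (star v) X) = star (ampOp d v) * leftOp X * ampOp d v := by
    rw [leftOp_conj, star_ampOp, star_ampOp, star_star]
  refine ⟨leftOp_injective ?_, leftOp_injective ?_⟩
  · rw [← star_leftOp, e, star_mul, star_mul, star_star, star_leftOp, h.1, mul_assoc]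
  · rw [leftOp_mul, leftOp_one, e]
    calc star (ampOp d v) * leftOp X * ampOp d v * (star (ampOp d v) * leftOp X * ampOp d v)
        = star (ampOp d v) * (leftOp X * ((ampOp d v * star (ampOp d v)) * leftOp X)) *
            ampOp d v := by simp only [mul_assoc]
      _ = 1 := by rw [hV', one_mul, ← leftOp_mul, h.2, leftOp_one, mul_one, hV]

/-- Conjugation of a symmetry to second order. -/
lemma norm_second_order {v T : H →L[ℂ] H} {δ : ℝ} (h1 : star v * v = 1) (h2 : v * star v = 1)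
    (hv : ‖v - 1‖ ≤ δ) (hT : ‖T‖ ≤ δ) (hE : ‖v - 1 - T‖ ≤ δ * δ) {d : ℕ} {X : Mat H d}
    (h : IsSymm X) :
    ‖leftOp (conjMat v X) - leftOp X - (ampOp d T * leftOp X - leftOp X * ampOp d T)‖ ≤
      4 * (δ * δ) := by
  have hδ0 : 0 ≤ δ := (norm_nonneg _).trans hT
  have key := norm_conj_sub_comm_le (A := Amp H d →L[ℂ] Amp H d) (v := ampOp d v) (ampOp_iso h1)
    (ampOp_coiso h2) (ampOp d T) (leftOp X)
  have e1 : ‖ampOp d v - 1 - ampOp d T‖ ≤ δ * δ := by
    rw [← ampOp_one, ← ampOp_sub, ← ampOp_sub]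
    exact (norm_ampOp_le _).trans hE
  have e2 : ‖ampOp d T‖ * ‖ampOp d v - 1‖ ≤ δ * δ :=
    mul_le_mul ((norm_ampOp_le T).trans hT) ((norm_ampOp_sub_one_le v).trans hv)
      (norm_nonneg _) hδ0
  rw [leftOp_conj]
  refine key.trans ?_
  have hna := norm_symm_le h
  have hpos : 0 ≤ 2 * ‖ampOp d v - 1 - ampOp d T‖ + 2 * ‖ampOp d T‖ * ‖ampOp d v - 1‖ :=
    add_nonneg (mul_nonneg zero_le_two (norm_nonneg _))
      (mul_nonneg (mul_nonneg zero_le_two (norm_nonneg _)) (norm_nonneg _))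
  refine (mul_le_of_le_one_right hpos hna).trans ?_
  linarith

/-- The vector seen through one part. -/
lemma norm_ampOp_xi_le (P : Pair H) (q : H →L[ℂ] H) (d : ℕ) :
    ‖ampOp d q (P.xi d)‖ ≤ ‖q P.ξ‖ := by
  refine (pow_le_pow_iff_left₀ (norm_nonneg _) (norm_nonneg _) two_ne_zero).1 ?_
  rcases Nat.eq_zero_or_pos d with rfl | hd
  · simp [norm_sq_ampOp]
  have e : ampOp d q (P.xi d) = vecOf fun i k => if i = k then q P.ξ else 0 :=
    Amp.ext' fun i k => by by_cases h : i = k <;> simp [h]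
  rw [e, norm_sq_vecOf]
  simp [apply_ite, Finset.sum_ite_eq, hd.ne']

/-- The commutator of a second order perturbation, seen through one part. -/
lemma norm_split {K : Type*} [NormedAddCommGroup K] [InnerProductSpace ℂ K]
    {a' a t R E : K →L[ℂ] K} {ξ : K} {ε e m : ℝ}
    (hs : ‖E ((a * R - R * a) ξ + ((t * a - a * t) * R - R * (t * a - a * t)) ξ)‖ ≤ ε * m)
    (hD : ‖a' - a - (t * a - a * t)‖ ≤ 4 * e) (hR : ‖R‖ ≤ 1) (hξ : ‖E ξ‖ ≤ m)
    (ha' : Commute E a') (ha : Commute E a) (ht : Commute E t) (hER : Commute E R) :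
    ‖E ((a' * R - R * a') ξ)‖ ≤ (ε + 8 * e) * m := by
  have hED : Commute E (a' - a - (t * a - a * t)) :=
    (ha'.sub_right ha).sub_right ((ht.mul_right ha).sub_right (ha.mul_right ht))
  set D := a' - a - (t * a - a * t) with hDdef
  have he : a' * R - R * a' =
      (a * R - R * a) + ((t * a - a * t) * R - R * (t * a - a * t)) + (D * R - R * D) := by
    rw [hDdef]; simp only [sub_mul, mul_sub]; abel
  rw [he, add_apply, add_apply, map_add, add_mul ε]
  refine (norm_add_le _ _).trans (add_le_add hs ?_)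
  rw [← comp_mul_apply E, ((hED.mul_right hER).sub_right (hER.mul_right hED)).eq, comp_mul_apply]
  calc ‖(D * R - R * D) (E ξ)‖ ≤ ‖D * R - R * D‖ * ‖E ξ‖ := le_opNorm _ _
    _ ≤ (‖D‖ * ‖R‖ + ‖R‖ * ‖D‖) * m := by
        exact mul_le_mul ((norm_sub_le _ _).trans (add_le_add (norm_mul_le _ _) (norm_mul_le _ _)))
          hξ (norm_nonneg _) (by positivity)
    _ ≤ 8 * e * m := mul_le_mul_of_nonneg_right
        (by nlinarith [norm_nonneg D, norm_nonneg R]) ((norm_nonneg _).trans hξ)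

/-- One step of the iteration. -/
lemma exists_step {P : Pair H} {C' ε δ : ℝ} {T : H →L[ℂ] H}
    (hT : ‖T‖ ≤ δ) (hδ : δ ≤ 1) (hskew : star T = -T) (hJ : P.conjOp T = T)
    (hG : ∀ k, ∀ g ∈ P.G k, T * g = g * T) (hsol : P.SolvesLoc ε T)
    (hC' : 0 < C') (hbound : 8 * (ε + 8 * (δ * δ)) ≤ C') :
    ∃ v : H →L[ℂ] H, ∃ hv : Rot P v, ‖v - 1‖ ≤ δ ∧ (rotate P v hv).NuLoc C' := by
  have hξ := apply_xi_eq_zero P hskew hJ hG
  obtain ⟨v, h1, h2, h3, h4, h5, h6, h7⟩ := exists_cayley P hskew (hT.trans hδ) hJ hξ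
  have hv : Rot P v := ⟨h1, h2, h5, h6, fun k g hg => h7 g (hG k g hg)⟩
  refine ⟨v, hv, h3.trans hT, nuLoc_of_symBound ?_ hC' hbound⟩
  intro d X' n hd hX' hn hXs hns k q hq
  have hδ0 : 0 ≤ δ := (norm_nonneg _).trans hT
  have hXM : ∀ i j, conjMat (star v) X' i j ∈ P.M := fun i j => by
    rw [conjMat_apply, star_star]; exact hX' i j
  have hXsymm := isSymm_conj h1 h2 hXs
  have hs := hsol d _ n hd hXM hn hXsymm hns k q hq
  have hD := norm_second_order h1 h2 (h3.trans hT) hT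
    (h4.trans (mul_le_mul hT hT (norm_nonneg _) hδ0)) hXsymm
  rw [conjMat_conjMat h2] at hD
  change ‖ampOp d q ((leftOp X' * rightOp (P.mirror n) - rightOp (P.mirror n) * leftOp X')
    (P.xi d))‖ ≤ (ε + 8 * (δ * δ)) * ‖q P.ξ‖
  exact norm_split hs hD ((P.norm_rightOp_mirror n).trans_le (norm_symm_le hns))
    (norm_ampOp_xi_le P q d)
    (commute_ampOp_leftOp fun i j => (rotate P v hv).cen_comm k q hq _ (hX' i j))
    (commute_ampOp_leftOp fun i j => P.cen_comm k q hq _ (hXM i j))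
    (commute_ampOp (P.cen_commute_of hG hq).symm)
    (commute_ampOp_rightOp fun i j => P.cen_comm_B hq (P.mirror_mem hn i j))

/-- The unitaries of the iteration. -/
def Good (P : Pair H) (C γ : ℝ) (k : ℕ) (u : H →L[ℂ] H) : Prop :=
  ∃ hu : Rot P u, ‖u - 1‖ ≤ 2 * C * γ * (1 - (1 / 2) ^ k) ∧
    (rotate P u hu).NuLoc (γ / 2 ^ k)

lemma good_zero {P : Pair H} (C : ℝ) {γ : ℝ} (hγ : 0 < γ) (h : P.OpLe γ) : Good P C γ 0 1 := by
  refine ⟨Rot.one P, by simp, by simpa using hγ, fun d X Y hX hY k q hq => ?_⟩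
  have hX' : ∀ i j, X i j ∈ P.M := fun i j => by
    simpa [mem_rotate_M] using hX i j
  simp only [pow_zero, div_one]
  change ‖ampOp d q ((leftOp X * rightOp Y - rightOp Y * leftOp X) (P.xi d))‖ ≤ _
  rw [← (Pair.simple_cen (P := P) hq).comm_commutator hX' hY]
  exact (le_opNorm _ _).trans (mul_le_mul (h.comm d X Y hX' hY) (norm_ampOp_xi_le P q d)
    (norm_nonneg _) (mul_nonneg h.nonneg (mul_nonneg (norm_nonneg _) (norm_nonneg _))))

lemma rot_of_rotate {P : Pair H} {u v : H →L[ℂ] H} {hu : Rot P u} (hv : Rot (rotate P u hu) v) :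
    Rot P v :=
  ⟨hv.iso, hv.coiso, hv.commJ, hv.fixes, hv.commG⟩

lemma nuLoc_mono_pair {P Q : Pair H} {ν : ℝ} (hN : P.N = Q.N) (hJ : P.J = Q.J) (hξ : P.ξ = Q.ξ)
    (hcen : P.cen = Q.cen) (hM : ∀ x ∈ P.M, x ∈ Q.M) (h : Q.NuLoc ν) : P.NuLoc ν := by
  refine ⟨h.pos, fun d X Y hX hY k q hq => ?_⟩
  have hc : P.conjOp = Q.conjOp := funext fun T => ContinuousLinearMap.ext fun w => by
    simp [hJ]
  have hB : P.B = Q.B := by rw [Pair.B, Pair.B, hN, hc]
  have hx : P.xi d = Q.xi d := by simp only [Pair.xi, hξ]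
  rw [hx, hξ]
  exact h.bound d X Y (fun i j => hM _ (hX i j)) (fun i j => hB ▸ hY i j) k q (hcen ▸ hq)

lemma rotate_mul_mem {P : Pair H} {u v : H →L[ℂ] H} {hu : Rot P u}
    {hv : Rot (rotate P u hu) v} {hw : Rot P (v * u)} :
    ∀ x ∈ (rotate P (v * u) hw).M, x ∈ (rotate (rotate P u hu) v hv).M := by
  intro x hx
  rw [mem_rotate_M, mem_rotate_M]
  rw [mem_rotate_M, star_mul] at hx
  simpa only [mul_assoc] using hx

lemma opLe_mono {P : Pair H} {γ Γ : ℝ} (h : P.OpLe γ) (hle : γ ≤ Γ) : P.OpLe Γ :=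
  ⟨h.nonneg.trans hle,
    fun x hx h1 => let ⟨y, hy, h2⟩ := h.inclM x hx h1; ⟨y, hy, h2.trans hle⟩,
    fun x hx h1 => let ⟨y, hy, h2⟩ := h.inclN x hx h1; ⟨y, hy, h2.trans hle⟩,
    fun d X Y hX hY => (h.comm d X Y hX hY).trans
      (mul_le_mul_of_nonneg_right hle (mul_nonneg (norm_nonneg _) (norm_nonneg _))),
    fun d X hX => let ⟨Y, hY, h2⟩ := h.nearM d X hX
      ⟨Y, hY, h2.trans (mul_le_mul_of_nonneg_right hle (norm_nonneg _))⟩,
    fun d X hX => let ⟨Y, hY, h2⟩ := h.nearN d X hX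
      ⟨Y, hY, h2.trans (mul_le_mul_of_nonneg_right hle (norm_nonneg _))⟩⟩

lemma step_arith {C Γ γ a : ℝ} {k : ℕ} (hC : 0 ≤ C) (hγ : 0 < γ) (hΓ : γ ≤ Γ)
    (hsmall : 16 * (C * a + 8 * (C * C * Γ)) ≤ 1) :
    8 * (C * (γ / 2 ^ k) * a + 8 * (C * (γ / 2 ^ k) * (C * (γ / 2 ^ k)))) ≤
      γ / 2 ^ k / 2 := by
  set ν := γ / 2 ^ k with hν
  have hν0 : 0 < ν := by positivity
  have hνΓ : ν ≤ Γ := (div_le_self hγ.le (one_le_pow₀ one_le_two)).trans hΓ
  have h1 : C * ν * (C * ν) ≤ ν * (C * C * Γ) := by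
    nlinarith [mul_le_mul_of_nonneg_left hνΓ (mul_nonneg (mul_nonneg hC hC) hν0.le)]
  nlinarith [mul_le_mul_of_nonneg_left hsmall hν0.le]

lemma good_of_step {P : Pair H} {C γ : ℝ} {k : ℕ} {u v : H →L[ℂ] H} {hu : Rot P u}
    {hv : Rot (rotate P u hu) v} (hd : ‖u - 1‖ ≤ 2 * C * γ * (1 - (1 / 2) ^ k))
    (hvd : ‖v - 1‖ ≤ C * (γ / 2 ^ k))
    (hvn : (rotate (rotate P u hu) v hv).NuLoc (γ / 2 ^ k / 2)) :
    Good P C γ (k + 1) (v * u) ∧ ‖v * u - u‖ ≤ C * γ / 2 ^ k := by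
  have hstep : ‖v * u - u‖ ≤ C * γ / 2 ^ k := by
    rw [show v * u - u = (v - 1) * u by rw [sub_mul, one_mul], mul_div_assoc]
    exact (norm_mul_le _ _).trans
      ((mul_le_of_le_one_right (norm_nonneg _) (norm_le_one hu.iso)).trans hvd)
  have hw : Rot P (v * u) := (rot_of_rotate (P := P) (u := u) (hu := hu) hv).mul hu
  refine ⟨⟨hw, ?_, ?_⟩, hstep⟩
  · refine (norm_sub_le_norm_sub_add_norm_sub _ u _).trans ((add_le_add hstep hd).trans ?_)
    rw [pow_succ, one_div, inv_pow]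
    apply le_of_eq
    field_simp
    ring
  · rw [show γ / 2 ^ (k + 1) = γ / 2 ^ k / 2 by rw [pow_succ, div_div]]
    exact nuLoc_mono_pair (P := rotate P (v * u) hw) (Q := rotate (rotate P u hu) v hv)
      rfl rfl rfl rfl (rotate_mul_mem (hu := hu) (hv := hv) (hw := hw)) hvn

lemma good_succ {P : Pair H} {C Γ γ : ℝ} {N : ℕ} (hC : 0 ≤ C) (hγ : 0 < γ)
    (hγ1 : γ ≤ 1) (hP : P.OpLe γ) (hΓ : (1 + 8 * C) * γ ≤ Γ)
    (hlin : ∀ (Q : Pair H) (ν : ℝ), ν ≤ 2 * Γ → Q.OpLe Γ → Q.NuLoc ν →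
      ∃ T : H →L[ℂ] H, ‖T‖ ≤ C * ν ∧ star T = -T ∧ Q.conjOp T = T ∧
        (∀ k, ∀ g ∈ Q.G k, T * g = g * T) ∧
        Q.SolvesLoc (C * ν * (1 / Real.sqrt (Real.log N) + N * Γ)) T)
    (hsmall : 16 * (C * (1 / Real.sqrt (Real.log N) + N * Γ) + 8 * (C * C * Γ)) ≤ 1)
    (hCΓ : C * Γ ≤ 1) {k : ℕ} {u : H →L[ℂ] H} (hu : Good P C γ k u) :
    ∃ u', Good P C γ (k + 1) u' ∧ ‖u' - u‖ ≤ C * γ / 2 ^ k := by
  obtain ⟨hr, hd, hn⟩ := hu
  set ν := γ / 2 ^ k with hν
  have hν0 : 0 < ν := by positivity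
  have hpow : 0 ≤ (1 / 2 : ℝ) ^ k := by positivity
  have hd' : ‖u - 1‖ ≤ 2 * C * γ := hd.trans (by nlinarith [mul_nonneg hC hγ.le])
  have hγΓ : γ ≤ Γ := le_trans (le_mul_of_one_le_left hγ.le (by linarith)) hΓ
  have hQo : (rotate P u hr).OpLe Γ := opLe_mono (opLe_rotate hP hγ1 hr hd') (le_trans (le_of_eq (by ring)) hΓ)
  have hνΓ : ν ≤ Γ := (div_le_self hγ.le (one_le_pow₀ one_le_two)).trans hγΓ
  have hΓ0 : 0 ≤ Γ := hν0.le.trans hνΓ
  obtain ⟨T, hT, hsk, hJT, hGT, hsol⟩ := hlin (rotate P u hr) ν (by linarith) hQo hn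
  have hδ1 : C * ν ≤ 1 := (mul_le_mul_of_nonneg_left hνΓ hC).trans hCΓ
  obtain ⟨v, hv, hvd, hvn⟩ := exists_step hT hδ1 hsk hJT hGT hsol
    (half_pos hν0) (step_arith hC hγ hγΓ hsmall)
  exact ⟨v * u, good_of_step hd hvd hvn⟩

/-- A vanishing vector defect puts the moved algebra inside the second one. -/
lemma mem_of_limit {P : Pair H} {C γ : ℝ} {u : ℕ → (H →L[ℂ] H)} {w : H →L[ℂ] H}
    (hu : ∀ k, Good P C γ k (u k)) (hlim : Tendsto u atTop (𝓝 w))
    (hB : ∀ x : H →L[ℂ] H, (∀ y ∈ P.B, x * y = y * x) → x ∈ P.N) :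
    ∀ x ∈ P.M, w * x * star w ∈ P.N := by
  intro x hx
  have key : ∀ y ∈ P.B, (w * x * star w * y - y * (w * x * star w)) P.ξ = 0 := by
    intro y hy
    set Xm : Mat H 1 := fun _ _ => x
    set Ym : Mat H 1 := fun _ _ => y
    have hb : ∀ k, ‖(u k * x * star (u k) * y - y * (u k * x * star (u k))) P.ξ‖ ≤
        γ * (‖leftOp Xm‖ * ‖rightOp Ym‖) / 2 ^ k := by
      intro k
      obtain ⟨hr, -, hn⟩ := hu k
      have h : ‖(leftOp (conjMat (u k) Xm) * rightOp Ym -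
          rightOp Ym * leftOp (conjMat (u k) Xm)) (P.xi 1)‖ ≤
            γ / 2 ^ k * (‖leftOp (conjMat (u k) Xm)‖ * ‖rightOp Ym‖) :=
        hn.nuLe.bound 1 _ _ (fun i j => by
          rw [mem_rotate_M, conjMat_apply, conj_forth hr.iso]; exact hx) fun _ _ => hy
      have h0 : 0 ≤ γ / 2 ^ k := hn.pos.le
      rw [comm_xi] at h
      have h1 := (PiLp.norm_apply_le (vecOf (comE P.ξ (conjMat (u k) Xm) Ym)) ((0 : Fin 1), 0)).trans
        (h.trans (mul_le_mul_of_nonneg_left (mul_le_mul_of_nonneg_right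
          (norm_leftOp_conj_le hr.iso hr.coiso Xm) (norm_nonneg _)) h0))
      rw [div_mul_eq_mul_div] at h1
      simp [comE, conjMat, Xm, Ym] at h1
      simpa [sub_apply] using h1
    have h0 : Tendsto (fun k => γ * (‖leftOp Xm‖ * ‖rightOp Ym‖) / 2 ^ k) atTop (𝓝 0) :=
      tendsto_const_nhds.div_atTop (tendsto_pow_atTop_atTop_of_one_lt one_lt_two)
    have hc : Continuous fun v : H →L[ℂ] H =>
        ‖(v * x * star v * y - y * (v * x * star v)) P.ξ‖ := by
      fun_prop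
    exact norm_le_zero_iff.1 (le_of_tendsto_of_tendsto' ((hc.tendsto w).comp hlim) h0 hb)
  apply hB
  intro y hy
  set a := w * x * star w
  refine ContinuousLinearMap.ext_on (Submodule.dense_iff_topologicalClosure_eq_top.2 ?_) ?_
    (s := (fun n : H →L[ℂ] H => n P.ξ) '' (P.N : Set (H →L[ℂ] H)))
  · rw [Submodule.dense_iff_topologicalClosure_eq_top.1 (P.dense_N.mono Submodule.subset_span)]
  rintro _ ⟨n, hn, rfl⟩
  set z := P.conjOp (star n) with hz
  have hzB : z ∈ P.B := ⟨_, star_mem hn, rfl⟩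
  have hyz : y * z ∈ P.B := mul_mem (s := P.Bal) hy hzB
  have hnξ : n P.ξ = z P.ξ := by rw [hz, P.conjOp_apply_xi (star_mem hn), star_star]
  have h1 := key _ hyz
  have h2 := key _ hzB
  simp only [sub_apply, comp_mul_apply, sub_eq_zero] at h1 h2
  simp only [comp_mul_apply, hnξ]
  rw [h1, h2]

end Vale.Agent.P096.Full.Std

namespace Vale.Agent.P096.Full

open Vale.Agent.P096.Full.Std

universe u

/-- ITERATE. -/
theorem standardModule : StandardModule.{u} := by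
  intro hLinear
  obtain ⟨C, γL, hγL, hC, hLinear⟩ := hLinear
  obtain ⟨N, hN64, hNlog⟩ : ∃ N : ℕ, 64 ≤ N ∧ 64 * C + 1 ≤ Real.sqrt (Real.log N) := by
    refine ⟨max 64 ⌈Real.exp ((64 * C + 1) ^ 2)⌉₊, le_max_left _ _,
      Real.le_sqrt_of_sq_le ?_⟩
    rw [← Real.log_exp ((64 * C + 1) ^ 2)]
    refine Real.log_le_log (Real.exp_pos _) ((Nat.le_ceil _).trans ?_)
    exact Nat.cast_le.2 ((Nat.ceil_mono (by rw [Real.log_exp])).trans (le_max_right _ _))
  set D : ℝ := 64 * (C * N + 8 * (C * C) + C + 1) with hD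
  have hD1 : 1 ≤ D := by rw [hD]; nlinarith [mul_nonneg hC (Nat.cast_nonneg (α := ℝ) N)]
  refine ⟨2 * C, min γL D⁻¹ / (1 + 8 * C),
    div_pos (lt_min hγL (inv_pos.2 (by linarith))) (by linarith), by linarith, ?_⟩
  intro H _ _ _ P γ hγ hP hB
  rcases hP.nonneg.eq_or_lt with h0 | hpos
  · subst h0
    exact ⟨1, by simp, by simp, by simp,
      fun x hx => by simpa using mem_of_near_zero hP.inclM x hx,
      fun y hy => by simpa using mem_of_near_zero hP.inclN y hy⟩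
  set Γ := (1 + 8 * C) * γ with hΓ
  have hΓmin : Γ ≤ min γL D⁻¹ := by
    rw [hΓ, mul_comm]; exact (le_div_iff₀ (by linarith)).1 hγ
  have hΓL : Γ ≤ γL := hΓmin.trans (min_le_left _ _)
  have hΓD : D * Γ ≤ 1 := by
    have := mul_le_mul_of_nonneg_left (hΓmin.trans (min_le_right _ _))
      (zero_le_one.trans hD1)
    rwa [mul_inv_cancel₀ (by linarith)] at this
  have hγΓ : γ ≤ Γ := by rw [hΓ]; nlinarith [mul_nonneg hC hpos.le]
  have hΓ0 : 0 ≤ Γ := hpos.le.trans hγΓ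
  have n1 := mul_nonneg (mul_nonneg hC (Nat.cast_nonneg (α := ℝ) N)) hΓ0
  have n2 := mul_nonneg (mul_nonneg hC hC) hΓ0
  have n3 := mul_nonneg hC hΓ0
  have hΓ64 : 64 * Γ ≤ 1 := by rw [hD] at hΓD; nlinarith
  have hsmall : 16 * (C * (1 / Real.sqrt (Real.log N) + N * Γ) + 8 * (C * C * Γ)) ≤ 1 := by
    have hq : C * (1 / Real.sqrt (Real.log N)) ≤ 1 / 64 := by
      rw [← mul_div_assoc, mul_one, div_le_div_iff₀ (by linarith) (by norm_num)]
      linarith
    rw [hD] at hΓD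
    nlinarith
  have hCΓ : C * Γ ≤ 1 := by rw [hD] at hΓD; nlinarith
  have step : ∀ k, ∀ w : {w // Good P C γ k w}, ∃ w' : {w' // Good P C γ (k + 1) w'},
      ‖(w' : H →L[ℂ] H) - w‖ ≤ C * γ / 2 ^ k := by
    intro k w
    obtain ⟨w', h1, h2⟩ := good_succ (Γ := Γ) (N := N) hC hpos
      (hγΓ.trans (by linarith)) hP le_rfl
      (fun Q ν hν hQ hn => hLinear H Q Γ ν N hN64 hΓL hν hQ hn) hsmall hCΓ w.2
    exact ⟨⟨w', h1⟩, h2⟩
  choose next hnext using step
  let seq : ∀ k, {w // Good P C γ k w} := fun k =>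
    Nat.rec (motive := fun k => {w // Good P C γ k w}) ⟨1, good_zero C hpos hP⟩ next k
  set us : ℕ → (H →L[ℂ] H) := fun k => (seq k : H →L[ℂ] H) with hus
  have hcauchy : CauchySeq us := cauchySeq_of_le_geometric_two (C := 2 * C * γ) fun k => by
    rw [dist_eq_norm', show 2 * C * γ / 2 / 2 ^ k = C * γ / 2 ^ k by ring]
    exact hnext k (seq k)
  obtain ⟨w, hw⟩ := cauchySeq_tendsto_of_complete hcauchy
  have hgood : ∀ k, Good P C γ k (us k) := fun k => (seq k).2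
  have lim : ∀ (f : (H →L[ℂ] H) → (H →L[ℂ] H)) (b : H →L[ℂ] H), Continuous f →
      (∀ k, f (us k) = b) → f w = b := fun f b hf h =>
    tendsto_nhds_unique ((hf.tendsto w).comp hw)
      (tendsto_const_nhds.congr fun k => (h k).symm)
  have w1 : star w * w = 1 :=
    lim (fun v => star v * v) 1 (continuous_star.mul continuous_id) fun k => (hgood k).1.iso
  have w2 : w * star w = 1 :=
    lim (fun v => v * star v) 1 (continuous_id.mul continuous_star) fun k => (hgood k).1.coiso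
  have w3 : P.conjOp w = w := by
    have hc : Continuous P.conjOp := (LipschitzWith.mk_one fun S T => by
      rw [dist_eq_norm, dist_eq_norm, ← P.conjOp_sub, P.norm_conjOp]).continuous
    exact tendsto_nhds_unique ((hc.tendsto w).comp hw)
      (hw.congr fun k => (hgood k).1.commJ.symm)
  have w4 : w P.ξ = P.ξ :=
    tendsto_nhds_unique ((((ContinuousLinearMap.apply ℂ H P.ξ).continuous).tendsto w).comp hw)
      (tendsto_const_nhds.congr fun k => (hgood k).1.fixes.symm)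
  have w5 : ∀ k, ∀ g ∈ P.G k, w * g = g * w := fun k g hg =>
    sub_eq_zero.1 (lim (fun v => v * g - g * v) 0 (by fun_prop) fun j => by
      rw [(hgood j).1.commG k g hg, sub_self])
  have w6 : ‖w - 1‖ ≤ 2 * C * γ := by
    refine le_of_tendsto' ((hw.sub tendsto_const_nhds).norm) fun k => ?_
    obtain ⟨-, h, -⟩ := hgood k
    refine h.trans ?_
    nlinarith [mul_nonneg hC hpos.le, pow_nonneg (by norm_num : (0 : ℝ) ≤ 1 / 2) k]
  have hin := mem_of_limit hgood hw hB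
  refine ⟨w, w1, w2, by linarith, hin, ?_⟩
  have hr : Rot P w := ⟨w1, w2, w3, w4, w5⟩
  have ho := opLe_rotate hP (hγΓ.trans (by linarith)) hr w6
  have hsub : ∀ x ∈ (rotate P w hr).M, x ∈ P.N := fun x hx => by
    have h := hin _ hx
    rwa [conj_back w2] at h
  have hlt : γ + 4 * (2 * C * γ) < 1 / 2 := by
    have : γ + 4 * (2 * C * γ) = Γ := by rw [hΓ]; ring
    linarith
  intro y hy
  exact mem_of_near (S := P.N) (rotate P w hr).closed_M hsub hlt ho.inclN y hy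

end Vale.Agent.P096.Full
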