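import Vale.Agent.P096.Full.Assembly
import Vale.Agent.P096.Full.Uniform.Finite

/-!
P096, UNIFORM: one pair of maps for all tests, by weak limits over finite lists of tests and levels.
-/

open scoped InnerProductSpace ComplexConjugate Matrix
open Filter Topology

namespace Vale.Agent.P096.Full

universe u

open Vale.Agent.P096.Full.Uniform in
/-- UNIFORM from TEST and KEY. -/
theorem uniformModule : UniformModule.{u} := by
  classical
  intro hT ⟨CK, hCK, hK⟩ C₀ hC₀
  refine ⟨2 * (CK + 1) * max 1 C₀, by positivity, ?_⟩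
  intro H _ _ _ P γ ν N hN hop hnu
  set ν' := max 1 C₀ * ν with hν'def
  have hle : ν ≤ ν' := le_mul_of_one_le_left hnu.pos.le (le_max_left _ _)
  have hle₀ : C₀ * ν ≤ ν' := mul_le_mul_of_nonneg_right (le_max_right _ _) hnu.pos.le
  have hν' : 0 < ν' := hnu.pos.trans_le hle
  set δ : ℝ := 1 / Real.sqrt (Real.log N) + N * γ with hδdef
  have hδ : 0 < δ := by
    have : 0 < Real.log N := Real.log_pos (by
      have : (64 : ℝ) ≤ N := by exact_mod_cast hN
      linarith)
    have := hop.nonneg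
    positivity
  set r := CK * ν'
  have hr : 0 ≤ r := mul_nonneg hCK hν'.le
  set ε := (CK + 1) * ν' * δ
  have hε0 : 0 < ε := by positivity
  have hε : CK * ν' * δ ≤ ε := by
    have : 0 ≤ ν' * δ := by positivity
    nlinarith
  let σ := Finset (Case P C₀ ν) × Finset ℕ × ℕ
  have hstage : ∀ c : σ, ∃ L Λ, Good P r c.2.2 (insert 1 c.2.1) L Λ ∧
      ∀ t ∈ c.1, ‖res P t.X t.Y t.nX t.nY L Λ‖ ≤ 2 * ε := fun c => by
    obtain ⟨L, Λ, hg, hres⟩ := stage_finite (P := P) hT hCK hK hN hop hnu hle hle₀ hε hε0 c.2.2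
      (insert 1 c.2.1) (fun i => (c.1.equivFin.symm i).1)
    refine ⟨L, Λ, hg, fun t ht => ?_⟩
    have h := hres (c.1.equivFin ⟨t, ht⟩)
    generalize he : c.1.equivFin.symm (c.1.equivFin ⟨t, ht⟩) = w at h
    obtain rfl : w = ⟨t, ht⟩ := by rw [← he, Equiv.symm_apply_apply]
    exact h
  choose fL fR hgood hres using hstage
  let U : Ultrafilter σ := Ultrafilter.of atTop
  have hev : ∀ c₀ : σ, ∀ᶠ c in (U : Filter σ), c₀ ≤ c := fun c₀ =>
    Ultrafilter.of_le _ (eventually_ge_atTop c₀)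
  have hsize : ∀ z : H →L[ℂ] H, ‖leftOp (fun _ _ : Fin 1 => z)‖ ≤ ‖z‖ ∧
      ‖rightOp (fun _ _ : Fin 1 => z)‖ ≤ ‖z‖ := by
    intro z
    refine ⟨ContinuousLinearMap.opNorm_le_bound _ (norm_nonneg z) fun v => ?_,
      ContinuousLinearMap.opNorm_le_bound _ (norm_nonneg z) fun v => ?_⟩ <;>
    · refine (pow_le_pow_iff_left₀ (norm_nonneg _) (by positivity) two_ne_zero).1 ?_
      rw [PiLp.norm_sq_eq_of_L2, mul_pow, PiLp.norm_sq_eq_of_L2, Finset.mul_sum]
      refine Finset.sum_le_sum fun p _ => ?_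
      obtain ⟨a, b⟩ := p
      rw [Subsingleton.elim a 0, Subsingleton.elim b 0]
      first
      | rw [(leftOp_apply (fun _ _ : Fin 1 => z) v 0 0 : _), Fin.sum_univ_one]
      | rw [(rightOp_apply (fun _ _ : Fin 1 => z) v 0 0 : _), Fin.sum_univ_one]
      rw [← mul_pow]
      exact pow_le_pow_left₀ (norm_nonneg _) (z.le_opNorm (v (0, 0))) 2
  have hone : ∀ (f : (H →L[ℂ] H) → H) (z : H →L[ℂ] H),
      ‖mapVec f (fun _ _ : Fin 1 => z)‖ = ‖f z‖ := fun f z =>
    (pow_left_inj₀ (norm_nonneg _) (norm_nonneg _) two_ne_zero).1 (by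
      show ‖vecOf fun _ _ : Fin 1 => f z‖ ^ 2 = _
      rw [norm_sq_vecOf]; simp)
  have hbL : ∀ c z, ‖fL c z‖ ≤ r * ‖z‖ := fun c z => by
    by_cases hz : z ∈ P.M
    · rw [← hone]
      exact ((hgood c).cbL 1 (Finset.mem_insert_self _ _) one_pos _ fun _ _ => hz).trans
        (mul_le_mul_of_nonneg_left (hsize z).1 hr)
    · rw [(hgood c).outL z hz, norm_zero]; positivity
  have hbR : ∀ c z, ‖fR c z‖ ≤ r * ‖z‖ := fun c z => by
    by_cases hz : z ∈ P.B
    · rw [← hone]
      exact ((hgood c).cbR 1 (Finset.mem_insert_self _ _) one_pos _ fun _ _ => hz).trans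
        (mul_le_mul_of_nonneg_left (hsize z).2 hr)
    · rw [(hgood c).outR z hz, norm_zero]; positivity
  choose L hL using fun z => exists_wLim U (fun c => fL c z) (r := r * ‖z‖)
    (Eventually.of_forall fun c => hbL c z)
  choose Λ hΛ using fun z => exists_wLim U (fun c => fR c z) (r := r * ‖z‖)
    (Eventually.of_forall fun c => hbR c z)
  have hmL : ∀ {d : ℕ} (X : Mat H d),
      WLim (U : Filter σ) (fun c => mapVec (fL c) X) (mapVec L X) := fun {d} X =>
    WLim.toLp fun p => (hL (X p.1 p.2)).smul _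
  have hmR : ∀ {d : ℕ} (X : Mat H d),
      WLim (U : Filter σ) (fun c => mapVec (fR c) X) (mapVec Λ X) := fun {d} X =>
    WLim.toLp fun p => (hΛ (X p.1 p.2)).smul _
  have hrC : r ≤ 2 * (CK + 1) * max 1 C₀ * ν := by
    rw [show 2 * (CK + 1) * max 1 C₀ * ν = 2 * (CK + 1) * ν' by rw [hν'def]; ring]
    nlinarith
  refine ⟨L, Λ, fun x hx y hy c => ?_, fun x hx y hy c => ?_, fun d X hd hX => ?_,
    fun d Y hd hY => ?_, fun k g hg h hh x hx => ?_, fun k g hg h hh y hy => ?_,
    fun d X Y nX nY hd hX hY => ?_⟩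
  · exact (hL _).unique ((((hL x).smul c).add (hL y)).congr
      (Eventually.of_forall fun i => ((hgood i).linL x hx y hy c).symm))
  · exact (hΛ _).unique ((((hΛ x).smul c).add (hΛ y)).congr
      (Eventually.of_forall fun i => ((hgood i).linR x hx y hy c).symm))
  · refine le_trans ((hmL X).norm_le ((hev (∅, {d}, 0)).mono fun c hc => ?_))
      (mul_le_mul_of_nonneg_right hrC (norm_nonneg (leftOp X)))
    exact (hgood c).cbL d (Finset.mem_insert_of_mem (hc.2.1 (Finset.mem_singleton_self d))) hd X hX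
  · refine le_trans ((hmR Y).norm_le ((hev (∅, {d}, 0)).mono fun c hc => ?_))
      (mul_le_mul_of_nonneg_right hrC (norm_nonneg (rightOp Y)))
    exact (hgood c).cbR d (Finset.mem_insert_of_mem (hc.2.1 (Finset.mem_singleton_self d))) hd Y hY
  · refine (hL _).unique ((((hL x).map (P.conjOp (star h))).map g).congr
      ((hev (∅, ∅, k)).mono fun c hc => ?_))
    exact ((hgood c).eqL g (monotone_nat_of_le_succ P.G_mono hc.2.2 hg) h
      (monotone_nat_of_le_succ P.G_mono hc.2.2 hh) x hx).symm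
  · refine (hΛ _).unique ((((hΛ y).map (P.conjOp (star h))).map g).congr
      ((hev (∅, ∅, k)).mono fun c hc => ?_))
    exact ((hgood c).eqR g (monotone_nat_of_le_succ P.G_mono hc.2.2 hg) h
      (monotone_nat_of_le_succ P.G_mono hc.2.2 hh) y hy).symm
  · have hlim : WLim (U : Filter σ) (fun c => res P X Y nX nY (fL c) (fR c))
        (res P X Y nX nY L Λ) :=
      ((((((WLim.const _).add (hmL _)).add (hmR _)).sub (((hmL Y).add (hmR _)).map _)).sub
        (((hmL X).add (hmR _)).map _)).add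
          ((((hmL 1).add (hmR 1)).map _).map _))
    have hb := hlim.norm_le ((hev ({⟨d, hd, X, Y, nX, nY, hX, hY⟩}, ∅, 0)).mono fun c hc =>
      hres c ⟨d, hd, X, Y, nX, nY, hX, hY⟩ (hc.1 (Finset.mem_singleton_self _)))
    refine hb.trans (le_of_eq ?_)
    simp only [ε, hν'def, hδdef]
    ring

end Vale.Agent.P096.Full
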