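import Vale.Agent.P096.Full.Assembly
import Vale.Agent.P096.Full.Test.Main
import Vale.Agent.P096.Full.Key
import Vale.Agent.P096.Full.Mirror
import Vale.Agent.P096.Full.Uniform
import Vale.Agent.P096.Full.Localise
import Vale.Agent.P096.Full.Linear
import Vale.Agent.P096.Full.Standard
import Vale.Agent.P096.Full.Reduce.Main
import Vale.Agent.P096.Full.Reduce.Groups.Main
import Vale.Agent.P096.Semi.Countable
import Vale.Agent.P096.Semi.Central
import Vale.Agent.P096.Semi.Reduce

/-!
P096: close algebras, one of them semifinite, are conjugate by a unitary near the identity.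
-/

namespace Vale.Agent.P096.Full

/-- Close standard pairs are conjugate. -/
theorem standardSpec : StandardSpec.{0} :=
  standardModule
    (linearModule mirrorSpec (localiseModule (uniformModule Test.testSpec keySpec)))

/-- Close algebras, one of them with a faithful normal tracial state, are conjugate. -/
theorem finite : ∃ δ C : ℝ, 0 < δ ∧ 0 ≤ C ∧ ∀ (H : Type) [NormedAddCommGroup H]
    [InnerProductSpace ℂ H] [CompleteSpace H] (M N : VonNeumannAlgebra H) (γ : ℝ),
    (∃ ξ, Lit.IsFaithfulTrace H M ξ) → γ < δ → Lit.IsClose H M N γ → NearConj M N (C * γ) := by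
  obtain ⟨δ, C, hδ, h⟩ := Reduce.finiteTarget Reduce.groupsSpec standardSpec
  refine Semi.finite_of_countable (le_max_right C 0) hδ fun H _ _ _ M N γ hM hg hlt hcl => ?_
  obtain ⟨u, hu, hu1, h12⟩ := h H M N γ hM hg hlt hcl
  refine ⟨u, hu, hu1.trans (mul_le_mul_of_nonneg_right (le_max_left C 0) ?_), h12⟩
  obtain ⟨x, _, hx⟩ := hcl.1 0 (zero_mem _)
    (ContinuousLinearMap.opNorm_le_bound _ zero_le_one fun z => by simp)
  exact (norm_nonneg _).trans hx

/-- One full corner with a faithful normal tracial state. -/
theorem fullCorner : ∃ δ C : ℝ, 0 < δ ∧ 0 ≤ C ∧ ∀ (H : Type) [NormedAddCommGroup H]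
    [InnerProductSpace ℂ H] [CompleteSpace H] (M N : VonNeumannAlgebra H) (K : Submodule ℂ H)
    [CompleteSpace K] (γ : ℝ), K.starProjection ∈ M → Two.Full M K →
    (∃ ξ : ℕ → K, Lit.IsFaithfulTrace K (Two.corner K M) ξ) →
    γ < δ → Lit.IsClose H M N γ → NearConj M N (C * γ) :=
  Semi.nearConj_of_full finite

/-- The strong Kadison-Kastler statement for semifinite algebras. -/
theorem target : Semi.Target.{0} := Semi.target_of_fullCorner fullCorner

end Vale.Agent.P096.Full
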