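import Vale.Agent.P096.Full.Centre

/-!
P096, II_1 factors, ITERATE: Cayley transforms and rotations of a standard pair by unitaries
fixing its groups, its conjugation and its vector.
-/

open scoped InnerProductSpace ComplexConjugate
open ContinuousLinearMap

namespace Vale.Agent.P096.Full.Std

universe u

section Algebra

variable {A : Type*} [NormedRing A] [StarRing A] [CStarRing A]

lemma norm_one_le : ‖(1 : A)‖ ≤ 1 := by
  have h : ‖(1 : A)‖ * ‖(1 : A)‖ = ‖(1 : A)‖ := by
    simpa using (CStarRing.norm_star_mul_self (x := (1 : A))).symm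
  nlinarith [norm_nonneg (1 : A)]

lemma norm_le_one {v : A} (h : star v * v = 1) : ‖v‖ ≤ 1 := by
  have h1 : ‖v‖ * ‖v‖ = ‖(1 : A)‖ := by rw [← CStarRing.norm_star_mul_self, h]
  nlinarith [norm_nonneg v, norm_one_le (A := A)]

/-- An isometry moves `x` by at most twice its distance to the identity. -/
lemma norm_conj_sub_le {v : A} (_h : star v * v = 1) (h' : v * star v = 1) (x : A) :
    ‖v * x * star v - x‖ ≤ 2 * ‖v - 1‖ * ‖x‖ := by
  have hs : star (star v) * star v = 1 := by rw [star_star, h']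
  have e : v * x * star v - x = ((v - 1) * x - x * (v - 1)) * star v := by
    calc v * x * star v - x = v * x * star v - x * (v * star v) := by rw [h', mul_one]
      _ = _ := by noncomm_ring
  rw [e]
  calc ‖((v - 1) * x - x * (v - 1)) * star v‖
      ≤ ‖(v - 1) * x - x * (v - 1)‖ * ‖star v‖ := norm_mul_le _ _
    _ ≤ ‖(v - 1) * x - x * (v - 1)‖ * 1 :=
        mul_le_mul_of_nonneg_left (norm_le_one hs) (norm_nonneg _)
    _ ≤ ‖(v - 1) * x‖ + ‖x * (v - 1)‖ := by rw [mul_one]; exact norm_sub_le _ _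
    _ ≤ ‖v - 1‖ * ‖x‖ + ‖x‖ * ‖v - 1‖ := add_le_add (norm_mul_le _ _) (norm_mul_le _ _)
    _ = _ := by ring

/-- Conjugation by an isometry near the identity is the commutator with `T` to second order. -/
lemma norm_conj_sub_comm_le {v : A} (_h : star v * v = 1) (h' : v * star v = 1) (T x : A) :
    ‖v * x * star v - x - (T * x - x * T)‖ ≤
      (2 * ‖v - 1 - T‖ + 2 * ‖T‖ * ‖v - 1‖) * ‖x‖ := by
  have hs : star (star v) * star v = 1 := by rw [star_star, h']
  set E : A := v - 1 - T with hE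
  have e : v * x * star v - x - (T * x - x * T) =
      (E * x - x * E) * star v + (T * x - x * T) * star (v - 1) := by
    calc v * x * star v - x - (T * x - x * T)
        = v * x * star v - x * (v * star v) - (T * x - x * T) := by rw [h', mul_one]
      _ = _ := by rw [hE, star_sub, star_one]; noncomm_ring
  rw [e]
  calc ‖(E * x - x * E) * star v + (T * x - x * T) * star (v - 1)‖
      ≤ ‖(E * x - x * E) * star v‖ + ‖(T * x - x * T) * star (v - 1)‖ := norm_add_le _ _
    _ ≤ ‖E * x - x * E‖ * ‖star v‖ + ‖T * x - x * T‖ * ‖star (v - 1)‖ :=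
        add_le_add (norm_mul_le _ _) (norm_mul_le _ _)
    _ ≤ (‖E‖ * ‖x‖ + ‖x‖ * ‖E‖) * 1 + (‖T‖ * ‖x‖ + ‖x‖ * ‖T‖) * ‖v - 1‖ := by
        rw [norm_star (v - 1)]
        exact add_le_add
          (mul_le_mul ((norm_sub_le _ _).trans (add_le_add (norm_mul_le _ _) (norm_mul_le _ _)))
            (norm_le_one hs) (norm_nonneg _) (by positivity))
          (mul_le_mul_of_nonneg_right
            ((norm_sub_le _ _).trans (add_le_add (norm_mul_le _ _) (norm_mul_le _ _)))
            (norm_nonneg _))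
    _ = _ := by ring

end Algebra

variable {H : Type u} [NormedAddCommGroup H] [InnerProductSpace ℂ H] [CompleteSpace H] {d : ℕ}

/-- Cayley transform: a unitary that agrees with `1 + T` to second order. -/
lemma exists_cayley (P : Pair H) {T : H →L[ℂ] H} (hT : star T = -T) (hT1 : ‖T‖ ≤ 1)
    (hJ : P.conjOp T = T) (hξ : T P.ξ = 0) :
    ∃ v : H →L[ℂ] H, star v * v = 1 ∧ v * star v = 1 ∧ ‖v - 1‖ ≤ ‖T‖ ∧
      ‖v - 1 - T‖ ≤ ‖T‖ * ‖T‖ ∧ P.conjOp v = v ∧ v P.ξ = P.ξ ∧
      ∀ g, T * g = g * T → v * g = g * v := by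
  set S : H →L[ℂ] H := (1 / 2 : ℂ) • T with hS
  have hnS : ‖S‖ < 1 := by
    rw [hS, norm_smul]; norm_num; linarith
  set U : (H →L[ℂ] H)ˣ := Units.oneSub S hnS with hU
  have hUval : (U : H →L[ℂ] H) = 1 - S := rfl
  set w : H →L[ℂ] H := (↑U⁻¹ : H →L[ℂ] H) with hw
  have hw1 : (1 - S) * w = 1 := by rw [← hUval]; exact U.mul_inv
  have hw2 : w * (1 - S) = 1 := by rw [← hUval]; exact U.inv_mul
  have hcw : ∀ g, S * g = g * S → w * g = g * w := fun g hg => by
    have h : Commute g (U : H →L[ℂ] H) := by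
      rw [hUval]; exact (Commute.one_right g).sub_right hg.symm
    exact h.units_inv_right.symm.eq
  have hwS : w * (1 + S) = (1 + S) * w := hcw _ (by noncomm_ring)
  have hwS' : w * S = S * w := hcw _ rfl
  set v : H →L[ℂ] H := (1 + S) * w with hv
  have hSs : star S = -S := by
    have h2 : star (1 / 2 : ℂ) = 1 / 2 := by norm_num
    rw [hS, star_smul, hT, h2, smul_neg]
  have hsv : star v = star w * (1 - S) := by
    rw [hv, star_mul, star_add, star_one, hSs, sub_eq_add_neg]
  have hsw : star w * (1 + S) = 1 := by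
    simpa [hSs] using congrArg star hw1
  have hsw' : (1 + S) * star w = 1 := by
    simpa [hSs] using congrArg star hw2
  have h1 : star v * v = 1 := by
    calc star v * v = star w * ((1 - S) * (1 + S)) * w := by rw [hsv, hv]; noncomm_ring
      _ = star w * ((1 + S) * (1 - S)) * w := by noncomm_ring
      _ = (star w * (1 + S)) * ((1 - S) * w) := by noncomm_ring
      _ = 1 := by rw [hsw, hw1, one_mul]
  have hsv2 : star v = (1 - S) * star w := by
    rw [← hwS, star_mul, star_add, star_one, hSs, sub_eq_add_neg]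
  have h2 : v * star v = 1 := by
    calc v * star v = (1 + S) * (w * (1 - S)) * star w := by rw [hsv2, hv]; noncomm_ring
      _ = 1 := by rw [hw2, mul_one, hsw']
  have hT2 : T = S + S := by rw [hS, ← add_smul]; norm_num
  have hvw : v + 1 = w + w := by
    calc v + 1 = (1 + S) * w + (1 - S) * w := by rw [hw1]
      _ = w + w := by noncomm_ring
  have hv1 : v - 1 = T * w := by
    calc v - 1 = (1 + S) * w - (1 - S) * w := by rw [hw1]
      _ = (S + S) * w := by noncomm_ring
      _ = T * w := by rw [← hT2]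
  have hnw : ‖w‖ ≤ 1 := by
    have h : ‖(2 : ℂ) • w‖ ≤ 2 := by
      rw [two_smul, ← hvw]
      linarith [norm_add_le v 1, norm_le_one h1, norm_one_le (A := H →L[ℂ] H)]
    rw [norm_smul, Complex.norm_ofNat] at h
    linarith
  have hd : ‖v - 1‖ ≤ ‖T‖ := by
    rw [hv1]; exact (norm_mul_le _ _).trans (mul_le_of_le_one_right (norm_nonneg _) hnw)
  have hE : ‖v - 1 - T‖ ≤ ‖T‖ * ‖T‖ := by
    have e : v - 1 - T = T * (S * w) := by
      calc v - 1 - T = T * w - T := by rw [hv1]
        _ = T * (w - (1 - S) * w) := by rw [hw1, mul_sub, mul_one]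
        _ = _ := by noncomm_ring
    rw [e]
    refine (norm_mul_le _ _).trans (mul_le_mul_of_nonneg_left ?_ (norm_nonneg _))
    refine (norm_mul_le _ _).trans ((mul_le_of_le_one_right (norm_nonneg _) hnw).trans ?_)
    rw [hS, norm_smul]; norm_num
    linarith [norm_nonneg T]
  have hJS : P.conjOp S = S := by
    have h2 : conj (1 / 2 : ℂ) = 1 / 2 := by simp [map_ofNat]
    rw [hS, P.conjOp_smul, hJ, h2]
  have hJw : P.conjOp w = w := by
    have h : (1 - S) * P.conjOp w = 1 := by
      have h' := congrArg P.conjOp hw1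
      rwa [P.conjOp_mul, P.conjOp_sub, P.conjOp_one, hJS] at h'
    calc P.conjOp w = w * ((1 - S) * P.conjOp w) := by rw [← mul_assoc, hw2, one_mul]
      _ = w := by rw [h, mul_one]
  have hwξ : w P.ξ = P.ξ := by
    have h : w ((1 - S) P.ξ) = P.ξ := by rw [← comp_mul_apply, hw2]; rfl
    simpa [hS, hξ] using h
  refine ⟨v, h1, h2, hd, hE, ?_, ?_, fun g hg => ?_⟩
  · rw [hv, P.conjOp_mul, P.conjOp_add, P.conjOp_one, hJS, hJw]
  · rw [hv, comp_mul_apply, hwξ]; simp [hS, hξ]
  · have hS' : S * g = g * S := by rw [hS, smul_mul_assoc, hg, mul_smul_comm]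
    rw [hv, mul_assoc, hcw g hS', ← mul_assoc, add_mul, one_mul, hS', ← mul_assoc, mul_add, mul_one]

/-- A skew operator fixed by `conjOp` and commuting with the groups kills the vector. -/
lemma apply_xi_eq_zero (P : Pair H) {T : H →L[ℂ] H} (hT : star T = -T) (hJ : P.conjOp T = T)
    (hG : ∀ k, ∀ g ∈ P.G k, T * g = g * T) : T P.ξ = 0 := by
  have hTJ : ∀ h, P.J (T h) = T (P.J h) := fun h => by
    simpa [P.J_J] using congrArg (fun S : H →L[ℂ] H => S (P.J h)) hJ
  have hmem := P.G_fix (T P.ξ) fun k g hg => by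
    obtain ⟨hM, -, -, hgg⟩ := P.G_mem k g hg
    have e : ∀ h, g (T h) = T (g h) := fun h => (DFunLike.congr_fun (hG k g hg) h).symm
    rw [hTJ, P.J_xi, e, hTJ, e, P.J_M g hM, ← comp_mul_apply g, hgg]
    rfl
  -- the overlap with each part is both real and imaginary
  have horth : ∀ k, ∀ q ∈ P.cen k, ⟪T P.ξ, q P.ξ⟫_ℂ = 0 := by
    intro k q hq
    obtain ⟨hqs, hqq, -⟩ := P.cen_proj k q hq
    have hre : conj ⟪T P.ξ, q P.ξ⟫_ℂ = ⟪T P.ξ, q P.ξ⟫_ℂ := by
      rw [← P.inner_J, hTJ, P.J_xi, P.J_M q (P.cen_memM hq), hqs]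
    have hself : ⟪T P.ξ, q P.ξ⟫_ℂ = ⟪T (q P.ξ), q P.ξ⟫_ℂ := by
      rw [← comp_mul_apply T, P.cen_commute_of hG hq, comp_mul_apply, ← hqs,
        ContinuousLinearMap.star_eq_adjoint, ContinuousLinearMap.adjoint_inner_left,
        ← ContinuousLinearMap.star_eq_adjoint, hqs, ← comp_mul_apply q q, hqq]
    have him : conj ⟪T P.ξ, q P.ξ⟫_ℂ = -⟪T P.ξ, q P.ξ⟫_ℂ := by
      rw [hself, inner_conj_symm, ← ContinuousLinearMap.adjoint_inner_left,
        ← ContinuousLinearMap.star_eq_adjoint, hT, neg_apply, inner_neg_left]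
    linear_combination (1 / 2 : ℂ) * him - (1 / 2 : ℂ) * hre
  have hle : (Submodule.span ℂ {v | ∃ k, ∃ q ∈ P.cen k, v = q P.ξ}).topologicalClosure ≤
      LinearMap.ker (innerSL ℂ (T P.ξ) : H →L[ℂ] ℂ).toLinearMap := by
    refine Submodule.topologicalClosure_minimal _ (Submodule.span_le.2 ?_)
      (ContinuousLinearMap.isClosed_ker _)
    rintro _ ⟨k, q, hq, rfl⟩
    exact horth k q hq
  exact inner_self_eq_zero.1 (hle hmem)

/-- What a unitary needs to rotate a pair into a new pair. -/
structure Rot (P : Pair H) (v : H →L[ℂ] H) : Prop where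
  iso : star v * v = 1
  coiso : v * star v = 1
  commJ : P.conjOp v = v
  fixes : v P.ξ = P.ξ
  commG : ∀ k, ∀ g ∈ P.G k, v * g = g * v

lemma Rot.one (P : Pair H) : Rot P 1 :=
  ⟨by simp, by simp, P.conjOp_one, rfl, fun _ g _ => by simp⟩

lemma Rot.mul {P : Pair H} {v w : H →L[ℂ] H} (hv : Rot P v) (hw : Rot P w) : Rot P (v * w) where
  iso := by rw [star_mul, mul_assoc, ← mul_assoc (star v), hv.iso, one_mul, hw.iso]
  coiso := by rw [star_mul, mul_assoc, ← mul_assoc w, hw.coiso, one_mul, hv.coiso]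
  commJ := by rw [P.conjOp_mul, hv.commJ, hw.commJ]
  fixes := by rw [comp_mul_apply, hw.fixes, hv.fixes]
  commG k g hg := by rw [mul_assoc, hw.commG k g hg, ← mul_assoc, hv.commG k g hg, mul_assoc]

lemma Rot.star_fixes {P : Pair H} {v : H →L[ℂ] H} (hv : Rot P v) : star v P.ξ = P.ξ := by
  conv_lhs => rw [← hv.fixes, ← comp_mul_apply, hv.iso]
  rfl

lemma Rot.J_apply {P : Pair H} {v : H →L[ℂ] H} (hv : Rot P v) (h : H) :
    P.J (v h) = v (P.J h) := by
  simpa [P.J_J] using congrArg (fun S : H →L[ℂ] H => S (P.J h)) hv.commJ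

lemma Rot.J_star_apply {P : Pair H} {v : H →L[ℂ] H} (hv : Rot P v) (h : H) :
    P.J (star v h) = star v (P.J h) := by
  have e := congrArg star hv.commJ
  rw [P.star_conjOp] at e
  simpa [P.J_J] using congrArg (fun S : H →L[ℂ] H => S (P.J h)) e

lemma Rot.conj_fixed {P : Pair H} {v g : H →L[ℂ] H} (hv : Rot P v) {k : ℕ} (hg : g ∈ P.G k) :
    star v * g * v = g := by
  rw [mul_assoc, ← hv.commG k g hg, ← mul_assoc, hv.iso, one_mul]

lemma conj_mul {v : H →L[ℂ] H} (h' : v * star v = 1) (a b : H →L[ℂ] H) :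
    star v * (a * b) * v = (star v * a * v) * (star v * b * v) := by
  calc star v * (a * b) * v = star v * a * (1 * (b * v)) := by rw [one_mul]; noncomm_ring
    _ = star v * a * ((v * star v) * (b * v)) := by rw [h']
    _ = _ := by noncomm_ring

/-- The algebra carried by a unitary. -/
noncomputable def moved (M : StarSubalgebra ℂ (H →L[ℂ] H)) (v : H →L[ℂ] H)
    (h : star v * v = 1) (h' : v * star v = 1) : StarSubalgebra ℂ (H →L[ℂ] H) where
  carrier := (fun x => star v * x * v) ⁻¹' (M : Set (H →L[ℂ] H))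
  mul_mem' {a b} ha hb := by
    show star v * (a * b) * v ∈ M
    rw [conj_mul h']
    exact mul_mem ha hb
  one_mem' := by
    show star v * 1 * v ∈ M
    rw [mul_one, h]
    exact one_mem M
  zero_mem' := by
    show star v * 0 * v ∈ M
    rw [mul_zero, zero_mul]
    exact zero_mem M
  add_mem' {a b} ha hb := by
    show star v * (a + b) * v ∈ M
    rw [mul_add, add_mul]
    exact add_mem ha hb
  algebraMap_mem' c := by
    show star v * algebraMap ℂ (H →L[ℂ] H) c * v ∈ M
    rw [← Algebra.commutes, mul_assoc, h, mul_one]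
    exact algebraMap_mem M c
  star_mem' {a} ha := by
    show star v * star a * v ∈ M
    have e : star v * star a * v = star (star v * a * v) := by
      rw [star_mul, star_mul, star_star, mul_assoc]
    rw [e]
    exact star_mem ha

lemma mem_moved {M : StarSubalgebra ℂ (H →L[ℂ] H)} {v : H →L[ℂ] H} {h : star v * v = 1}
    {h' : v * star v = 1} {x : H →L[ℂ] H} : x ∈ moved M v h h' ↔ star v * x * v ∈ M := Iff.rfl

lemma conj_back {v : H →L[ℂ] H} (h' : v * star v = 1) (x : H →L[ℂ] H) :
    v * (star v * x * v) * star v = x := by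
  calc v * (star v * x * v) * star v = (v * star v) * x * (v * star v) := by noncomm_ring
    _ = x := by rw [h', one_mul, mul_one]

lemma conj_forth {v : H →L[ℂ] H} (h : star v * v = 1) (x : H →L[ℂ] H) :
    star v * (v * x * star v) * v = x := by
  calc star v * (v * x * star v) * v = (star v * v) * x * (star v * v) := by noncomm_ring
    _ = x := by rw [h, one_mul, mul_one]

lemma isClosed_moved {M : StarSubalgebra ℂ (H →L[ℂ] H)} (hM : IsClosed (M : Set (H →L[ℂ] H)))
    {v : H →L[ℂ] H} (h : star v * v = 1) (h' : v * star v = 1) :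
    IsClosed (moved M v h h' : Set (H →L[ℂ] H)) :=
  hM.preimage (show Continuous fun x : H →L[ℂ] H => star v * x * v by fun_prop)

lemma moved_apply_xi (P : Pair H) {v : H →L[ℂ] H} (hv : Rot P v) (x : H →L[ℂ] H) :
    x P.ξ = v ((star v * x * v) P.ξ) := by
  conv_lhs => rw [← conj_back hv.coiso x]
  simp only [comp_mul_apply, hv.fixes, hv.star_fixes]

/-- The pair with the first algebra moved by `v`. -/
noncomputable def rotate (P : Pair H) (v : H →L[ℂ] H) (hv : Rot P v) : Pair H :=
  { P with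
    M := moved P.M v hv.iso hv.coiso
    closed_M := isClosed_moved P.closed_M hv.iso hv.coiso
    J_M := fun x hx => by
      rw [moved_apply_xi P hv x, moved_apply_xi P hv (star x), hv.J_apply, P.J_M _ hx]
      congr 2
      simp [mul_assoc]
    dense_M := by
      have hd : DenseRange v := Function.Surjective.denseRange fun h =>
        ⟨star v h, DFunLike.congr_fun hv.coiso h⟩
      refine (hd.dense_image v.continuous P.dense_M).mono ?_
      rintro _ ⟨_, ⟨x, hx, rfl⟩, rfl⟩
      refine ⟨v * x * star v, ?_, ?_⟩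
      · rw [SetLike.mem_coe, mem_moved, conj_forth hv.iso]; exact hx
      · simp only [comp_mul_apply, hv.star_fixes]
    comm_M := fun x hx y hy h => by
      have e : ∀ (z : H →L[ℂ] H) (k : H), z k = v ((star v * z * v) (star v k)) := fun z k => by
        conv_lhs => rw [← conj_back hv.coiso z]
        simp only [comp_mul_apply]
      have hsv : ∀ k, star v (v k) = k := fun k => DFunLike.congr_fun hv.iso k
      rw [e x (P.J _), e y (P.J h), hv.J_apply, hsv, ← hv.J_star_apply h, P.comm_M _ hx _ hy,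
        e x h, hv.J_apply, e y (v _), hsv, hv.J_apply]
    cen_comm := fun k q hq x hx => by
      have hvq : Commute q v := (P.cen_commute_of hv.commG hq).symm
      have hqs := (P.cen_proj k q hq).1
      have hsq : Commute q (star v) := by simpa [hqs] using hvq.star_star
      rw [← conj_back hv.coiso x]
      exact ((hvq.mul_right (P.cen_comm k q hq _ hx)).mul_right hsq).eq
    G_mem := fun k g hg => by
      obtain ⟨a, b, c, e⟩ := P.G_mem k g hg
      exact ⟨by rw [mem_moved, hv.conj_fixed hg]; exact a, b, c, e⟩ }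

lemma mem_rotate_M {P : Pair H} {v : H →L[ℂ] H} {hv : Rot P v} {x : H →L[ℂ] H} :
    x ∈ (rotate P v hv).M ↔ star v * x * v ∈ P.M := Iff.rfl

omit [CompleteSpace H] in
lemma ampOp_eq (T : H →L[ℂ] H) : ampOp d T = leftOp (Matrix.diagonal fun _ => T) :=
  ContinuousLinearMap.ext fun v => Amp.ext' fun i k => by
    rw [ampOp_apply, leftOp_apply, Finset.sum_eq_single i] <;> simp +contextual [eq_comm]

omit [CompleteSpace H] in
lemma ampOp_mul (S T : H →L[ℂ] H) : ampOp d (S * T) = ampOp d S * ampOp d T :=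
  ContinuousLinearMap.ext fun v => Amp.ext' fun i k => by simp

omit [CompleteSpace H] in
lemma ampOp_one : ampOp d (1 : H →L[ℂ] H) = 1 :=
  ContinuousLinearMap.ext fun v => Amp.ext' fun i k => by simp

omit [CompleteSpace H] in
lemma ampOp_sub (S T : H →L[ℂ] H) : ampOp d (S - T) = ampOp d S - ampOp d T :=
  ContinuousLinearMap.ext fun v => Amp.ext' fun i k => by simp

lemma star_ampOp (T : H →L[ℂ] H) : star (ampOp d T) = ampOp d (star T) := by
  rw [ampOp_eq, ampOp_eq, star_leftOp, Matrix.star_eq_conjTranspose, Matrix.diagonal_conjTranspose]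
  rfl

omit [CompleteSpace H] in
lemma norm_ampOp_le (T : H →L[ℂ] H) : ‖ampOp d T‖ ≤ ‖T‖ := by
  refine opNorm_le_bound _ (norm_nonneg T) fun v => ?_
  refine (pow_le_pow_iff_left₀ (norm_nonneg _) (mul_nonneg (norm_nonneg _) (norm_nonneg v))
    two_ne_zero).1 ?_
  rw [mul_pow, PiLp.norm_sq_eq_of_L2, PiLp.norm_sq_eq_of_L2, Finset.mul_sum]
  refine Finset.sum_le_sum fun p _ => ?_
  rw [show ampOp d T v p = T (v p) from ampOp_apply T v p.1 p.2, ← mul_pow]
  exact pow_le_pow_left₀ (norm_nonneg _) (T.le_opNorm _) 2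

/-- Entrywise conjugation of a matrix. -/
noncomputable def conjMat (v : H →L[ℂ] H) (X : Mat H d) : Mat H d :=
  fun i j => v * X i j * star v

@[simp] lemma conjMat_apply (v : H →L[ℂ] H) (X : Mat H d) (i j : Fin d) :
    conjMat v X i j = v * X i j * star v := rfl

lemma conjMat_conjMat {v : H →L[ℂ] H} (h : v * star v = 1) (X : Mat H d) :
    conjMat v (conjMat (star v) X) = X := by
  ext i j : 2
  rw [conjMat_apply, conjMat_apply, star_star, conj_back h]

lemma leftOp_conj (v : H →L[ℂ] H) (X : Mat H d) :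
    leftOp (conjMat v X) = ampOp d v * leftOp X * star (ampOp d v) := by
  rw [star_ampOp, ampOp_eq, ampOp_eq, ← leftOp_mul, ← leftOp_mul]
  congr 1
  ext i j : 2
  rw [conjMat_apply, Matrix.mul_diagonal, Matrix.diagonal_mul]

lemma ampOp_iso {v : H →L[ℂ] H} (h : star v * v = 1) :
    star (ampOp d v) * ampOp d v = 1 := by
  rw [star_ampOp, ← ampOp_mul, h, ampOp_one]

lemma ampOp_coiso {v : H →L[ℂ] H} (h : v * star v = 1) :
    ampOp d v * star (ampOp d v) = 1 := by
  rw [star_ampOp, ← ampOp_mul, h, ampOp_one]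

omit [CompleteSpace H] in
lemma norm_ampOp_sub_one_le (v : H →L[ℂ] H) : ‖ampOp d v - 1‖ ≤ ‖v - 1‖ := by
  rw [← ampOp_one, ← ampOp_sub]
  exact norm_ampOp_le _

/-- Entrywise conjugation of a matrix of an algebra by a unitary moves it little. -/
lemma norm_leftOp_conj_sub_le {v : H →L[ℂ] H} (h : star v * v = 1) (h' : v * star v = 1)
    (X : Mat H d) :
    ‖leftOp (conjMat v X) - leftOp X‖ ≤ 2 * ‖v - 1‖ * ‖leftOp X‖ := by
  rw [leftOp_conj]
  have e := norm_conj_sub_le (A := Amp H d →L[ℂ] Amp H d) (v := ampOp d v) (ampOp_iso h)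
    (ampOp_coiso h') (leftOp X)
  exact e.trans (mul_le_mul_of_nonneg_right
    (mul_le_mul_of_nonneg_left (norm_ampOp_sub_one_le v) zero_le_two) (norm_nonneg _))

lemma norm_leftOp_conj_le {v : H →L[ℂ] H} (h : star v * v = 1) (h' : v * star v = 1)
    (X : Mat H d) : ‖leftOp (conjMat v X)‖ ≤ ‖leftOp X‖ := by
  rw [leftOp_conj]
  refine (norm_mul_le _ _).trans ((mul_le_of_le_one_right (norm_nonneg _) ?_).trans
    ((norm_mul_le _ _).trans (mul_le_of_le_one_left (norm_nonneg _) (norm_le_one (ampOp_iso h)))))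
  exact norm_le_one (by rw [star_star, ampOp_coiso h'])

/-- Rotations near the identity keep the operator defect. -/
lemma opLe_rotate {P : Pair H} {γ : ℝ} (hP : P.OpLe γ) (hγ : γ ≤ 1) {v : H →L[ℂ] H}
    (hv : Rot P v) {δ : ℝ} (hδ : ‖v - 1‖ ≤ δ) : (rotate P v hv).OpLe (γ + 4 * δ) := by
  have hδ0 : 0 ≤ δ := (norm_nonneg _).trans hδ
  have hγ0 := hP.nonneg
  have hs1 : star (star v) * star v = 1 := by rw [star_star, hv.coiso]
  have hs2 : star v * star (star v) = 1 := by rw [star_star, hv.iso]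
  refine ⟨by linarith, fun x hx hx1 => ?_, fun y hy hy1 => ?_, fun d X Y hX hY => ?_,
    fun d X hX => ?_, fun d X hX => ?_⟩
  · rw [opSize] at hx1
    set x₀ := star v * x * v with hx₀
    have h0 : ‖x₀‖ ≤ 1 := by
      refine (norm_mul_le _ _).trans ((mul_le_of_le_one_right (norm_nonneg _)
        (norm_le_one hv.iso)).trans ((norm_mul_le _ _).trans ?_))
      exact mul_le_one₀ (norm_le_one hs1) (norm_nonneg _) hx1
    obtain ⟨y, hy, hxy⟩ := hP.inclM x₀ hx h0
    refine ⟨y, hy, ?_⟩
    rw [opDist] at hxy ⊢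
    have hm := norm_conj_sub_le hv.iso hv.coiso x₀
    rw [hx₀, conj_back hv.coiso, ← hx₀] at hm
    have := norm_sub_le_norm_sub_add_norm_sub x x₀ y
    nlinarith [norm_nonneg x₀, norm_nonneg (v - 1)]
  · obtain ⟨x, hx, hyx⟩ := hP.inclN y hy hy1
    rw [opSize] at hy1
    rw [opDist] at hyx
    refine ⟨v * x * star v, ?_, ?_⟩
    · rw [SetLike.mem_coe, mem_rotate_M, conj_forth hv.iso]; exact hx
    · rw [opDist]
      have hm := norm_conj_sub_le hv.iso hv.coiso x
      have h1 := norm_sub_le_norm_sub_add_norm_sub y x (v * x * star v)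
      rw [norm_sub_rev x] at h1
      have hx2 : ‖x‖ ≤ 2 := by
        have h2 : ‖x‖ ≤ ‖y‖ + ‖y - x‖ := norm_le_norm_add_norm_sub' x y |>.trans
          (by rw [norm_sub_rev])
        linarith
      nlinarith [norm_nonneg x, norm_nonneg (v - 1)]
  · set X₀ : Mat H d := conjMat (star v) X with hX₀
    have hX' : ∀ i j, X₀ i j ∈ P.M := fun i j => by
      rw [hX₀, conjMat_apply, star_star]; exact hX i j
    have hm := norm_leftOp_conj_sub_le hv.iso hv.coiso X₀
    have hn : ‖leftOp X₀‖ ≤ ‖leftOp X‖ := norm_leftOp_conj_le hs1 hs2 X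
    rw [hX₀, conjMat_conjMat hv.coiso, ← hX₀] at hm
    have h := hP.comm d X₀ Y hX' hY
    have e : leftOp X * rightOp Y - rightOp Y * leftOp X =
        (leftOp X₀ * rightOp Y - rightOp Y * leftOp X₀) +
          ((leftOp X - leftOp X₀) * rightOp Y - rightOp Y * (leftOp X - leftOp X₀)) := by
      rw [sub_mul, mul_sub]; abel
    rw [e]
    refine (norm_add_le _ _).trans ((add_le_add h ((norm_sub_le _ _).trans
      (add_le_add (norm_mul_le _ _) (norm_mul_le _ _)))).trans ?_)
    have hb : ‖leftOp X - leftOp X₀‖ ≤ 2 * δ * ‖leftOp X‖ :=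
      hm.trans (by gcongr)
    have hR := norm_nonneg (rightOp Y)
    nlinarith [mul_le_mul_of_nonneg_right hb hR,
      mul_le_mul_of_nonneg_left hn (mul_nonneg hγ0 hR)]
  · set X₀ : Mat H d := conjMat (star v) X with hX₀
    have hX' : ∀ i j, X₀ i j ∈ P.M := fun i j => by
      rw [hX₀, conjMat_apply, star_star]; exact hX i j
    obtain ⟨Y, hY, hXY⟩ := hP.nearM d X₀ hX'
    refine ⟨Y, hY, ?_⟩
    have hm := norm_leftOp_conj_sub_le hv.iso hv.coiso X₀
    have hn : ‖leftOp X₀‖ ≤ ‖leftOp X‖ := norm_leftOp_conj_le hs1 hs2 X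
    rw [hX₀, conjMat_conjMat hv.coiso, ← hX₀] at hm
    have h1 := norm_sub_le_norm_sub_add_norm_sub (leftOp X) (leftOp X₀) (leftOp Y)
    have hb : ‖leftOp X - leftOp X₀‖ ≤ 2 * δ * ‖leftOp X‖ :=
      hm.trans (by gcongr)
    nlinarith [mul_le_mul_of_nonneg_left hn hγ0, norm_nonneg (leftOp X)]
  · obtain ⟨Y, hY, hXY⟩ := hP.nearN d X hX
    refine ⟨conjMat v Y, fun i j => ?_, ?_⟩
    · rw [mem_rotate_M, conjMat_apply, conj_forth hv.iso]; exact hY i j
    · have hm := norm_leftOp_conj_sub_le hv.iso hv.coiso Y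
      have h1 := norm_sub_le_norm_sub_add_norm_sub (leftOp X) (leftOp Y)
        (leftOp (conjMat v Y))
      rw [norm_sub_rev (leftOp Y)] at h1
      have h2 : ‖leftOp Y‖ ≤ 2 * ‖leftOp X‖ := by
        have := norm_le_norm_add_norm_sub' (leftOp Y) (leftOp X)
        rw [norm_sub_rev (leftOp Y)] at this
        nlinarith [norm_nonneg (leftOp X)]
      have hb : ‖leftOp (conjMat v Y) - leftOp Y‖ ≤
          2 * δ * (2 * ‖leftOp X‖) :=
        hm.trans (by gcongr)
      rw [norm_sub_rev] at hb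
      nlinarith [norm_nonneg (leftOp X), norm_sub_rev (leftOp Y)
        (leftOp (conjMat v Y))]

end Vale.Agent.P096.Full.Std
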