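import Vale.Agent.P096.Full.StandardAux

/-!
P096, II_1 factors, ITERATE: a bound of the vector defect on symmetries bounds it on all
matrices, by a two by two dilation.
-/

open scoped InnerProductSpace ComplexConjugate
open ContinuousLinearMap

namespace Vale.Agent.P096.Full.Std

universe u

variable {H : Type u} [NormedAddCommGroup H] [InnerProductSpace ℂ H] [CompleteSpace H] {d : ℕ}

/-- The entries of the commutator seen from the vector. -/
noncomputable def comE (ξ : H) (X Y : Mat H d) : Fin d → Fin d → H :=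
  fun i k => ∑ j, ((X i j * Y j k) ξ - (Y j k * X i j) ξ)

lemma comm_xi (P : Pair H) (X Y : Mat H d) :
    (leftOp X * rightOp Y - rightOp Y * leftOp X) (P.xi d) = vecOf (comE P.ξ X Y) := by
  refine Amp.ext' fun i k => ?_
  rw [sub_apply, comp_mul_apply, comp_mul_apply, PiLp.sub_apply,
    leftOp_apply, rightOp_apply, vecOf_apply, comE, Finset.sum_sub_distrib, smul_sub,
    Finset.smul_sum, Finset.smul_sum]
  congr 1 <;> refine Finset.sum_congr rfl fun j _ => ?_
  · rw [rightOp_apply, Finset.sum_eq_single j] <;> simp +contextual [eq_comm]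
  · rw [leftOp_apply, Finset.sum_eq_single j] <;> simp +contextual [eq_comm]

/-- A matrix of twice the size from four blocks. -/
noncomputable def blk (A B C D : Mat H d) : Mat H (d + d) :=
  (Matrix.fromBlocks A B C D).submatrix finSumFinEquiv.symm finSumFinEquiv.symm

omit [CompleteSpace H] in
lemma blk_mem {S : Set (H →L[ℂ] H)} {A B C D : Mat H d} (hA : ∀ i j, A i j ∈ S)
    (hB : ∀ i j, B i j ∈ S) (hC : ∀ i j, C i j ∈ S) (hD : ∀ i j, D i j ∈ S) (i j : Fin (d + d)) :
    blk A B C D i j ∈ S := by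
  rw [blk, Matrix.submatrix_apply]
  rcases finSumFinEquiv.symm i with a | a <;> rcases finSumFinEquiv.symm j with b | b
  exacts [hA a b, hB a b, hC a b, hD a b]

lemma isSymm_dilation {A s : Mat H d} (hA : star A = A) (hs : star s = s) (hc : A * s = s * A)
    (h : A * A + s * s = 1) : IsSymm (blk A s s (-A)) := by
  constructor
  · rw [blk, Matrix.star_eq_conjTranspose, Matrix.conjTranspose_submatrix,
      Matrix.fromBlocks_conjTranspose, ← Matrix.star_eq_conjTranspose, ← Matrix.star_eq_conjTranspose,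
      ← Matrix.star_eq_conjTranspose, star_neg, hA, hs]
  · rw [blk, Matrix.submatrix_mul_equiv, Matrix.fromBlocks_multiply]
    simp only [mul_neg, neg_mul, neg_neg]
    rw [h, hc, add_neg_cancel, add_comm (s * s), h, Matrix.fromBlocks_one,
      Matrix.submatrix_one_equiv]

/-- The dilation entry of a self-adjoint contraction. -/
lemma exists_cut {S : StarSubalgebra ℂ (H →L[ℂ] H)} (hS : IsClosed (S : Set (H →L[ℂ] H)))
    {A : Mat H d} (hA : ∀ i j, A i j ∈ S) (hsa : star A = A) (hn : ‖leftOp A‖ ≤ 1) :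
    ∃ s : Mat H d, (∀ i j, s i j ∈ S) ∧ star s = s ∧ A * s = s * A ∧ A * A + s * s = 1 := by
  set a := leftOp A with ha
  have hasa : IsSelfAdjoint a := by rw [IsSelfAdjoint, ha, star_leftOp, hsa]
  have hmem : a ∈ leftAlg S d := ⟨A, hA, rfl⟩
  set b := cfc (fun t : ℝ => Real.sqrt (1 - t ^ 2)) a with hb
  have : IsClosed ((leftAlg S d : StarSubalgebra ℂ _) : Set (Amp H d →L[ℂ] Amp H d)) :=
    isClosed_leftAlg hS
  have hbel : b ∈ StarAlgebra.elemental ℂ a := by
    rw [hb, cfc_real_eq_complex _ hasa]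
    exact cfc_mem_elemental _ a
  obtain ⟨s, hsS, hs⟩ := StarAlgebra.elemental.le_of_mem this hmem hbel
  have hbsa : IsSelfAdjoint b := cfc_predicate _ a
  have hc : a * b = b * a := by
    have h := cfc_commute_cfc (R := ℝ) (id : ℝ → ℝ) (fun t : ℝ => Real.sqrt (1 - t ^ 2)) a
    rw [cfc_id ℝ a] at h
    exact h.eq
  have hone : a * a + b * b = 1 := by
    have hsp : ∀ t ∈ spectrum ℝ a, t ^ 2 ≤ 1 := fun t ht => by
      have h1 : ‖cfc (id : ℝ → ℝ) a‖ ≤ 1 := by rw [cfc_id ℝ a]; exact hn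
      have h2 := (norm_apply_le_norm_cfc (id : ℝ → ℝ) a ht).trans h1
      simp only [id_eq, Real.norm_eq_abs] at h2
      nlinarith [abs_le.1 h2]
    calc a * a + b * b
        = cfc (fun t : ℝ => t * t + Real.sqrt (1 - t ^ 2) * Real.sqrt (1 - t ^ 2)) a := by
          rw [cfc_add a (fun t : ℝ => t * t) _, cfc_mul (fun t : ℝ => t) (fun t : ℝ => t) a,
            cfc_mul (fun t : ℝ => Real.sqrt (1 - t ^ 2)) _ a, cfc_id' ℝ a]
      _ = cfc (fun _ : ℝ => (1 : ℝ)) a := cfc_congr fun t ht => by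
          show t * t + _ = (1 : ℝ)
          rw [Real.mul_self_sqrt (by linarith [hsp t ht])]; ring
      _ = 1 := cfc_const_one ℝ a
  refine ⟨s, hsS, leftOp_injective ?_, leftOp_injective ?_, leftOp_injective ?_⟩
  · rw [← star_leftOp, ← hs, hbsa.star_eq]
  · rw [leftOp_mul, leftOp_mul, ← hs, ← ha, hc]
  · rw [leftOp_add, leftOp_mul, leftOp_mul, ← hs, ← ha, hone, leftOp_one]

lemma norm_symm_le {X : Mat H d} (h : IsSymm X) : ‖leftOp X‖ ≤ 1 :=
  norm_le_one (by rw [star_leftOp, h.1, ← leftOp_mul, h.2, leftOp_one])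

lemma mirror_blk (P : Pair H) (A B C D : Mat H d) :
    P.mirror (blk A B C D) = blk (P.mirror A) (P.mirror C) (P.mirror B) (P.mirror D) := by
  ext i j : 2
  simp only [Pair.mirror, blk, Matrix.submatrix_apply]
  rcases finSumFinEquiv.symm i with a | a <;> rcases finSumFinEquiv.symm j with b | b <;> rfl

lemma mirror_neg (P : Pair H) (A : Mat H d) : P.mirror (-A) = -P.mirror A := by
  ext i j v
  simp [Pair.mirror]

omit [CompleteSpace H] in
lemma comE_blk (ξ : H) (A s B r : Mat H d) (i k : Fin d) :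
    comE ξ (blk A s s (-A)) (blk B r r (-B)) (finSumFinEquiv (Sum.inl i))
      (finSumFinEquiv (Sum.inl k)) = comE ξ A B i k + comE ξ s r i k := by
  simp only [comE, blk, Matrix.submatrix_apply]
  rw [← Equiv.sum_comp finSumFinEquiv, Fintype.sum_sum_type]
  simp only [Equiv.symm_apply_apply, Matrix.fromBlocks_apply₁₁, Matrix.fromBlocks_apply₁₂,
    Matrix.fromBlocks_apply₂₁]

omit [CompleteSpace H] in
lemma comE_neg_right (ξ : H) (X Y : Mat H d) : comE ξ X (-Y) = -comE ξ X Y := by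
  ext i k
  simp only [comE, Pi.neg_apply, Matrix.neg_apply, ← Finset.sum_neg_distrib]
  refine Finset.sum_congr rfl fun j _ => ?_
  simp
  abel

omit [CompleteSpace H] in
/-- A corner of a doubled tuple. -/
lemma norm_corner_le (w : Fin (d + d) → Fin (d + d) → H) :
    ‖vecOf (fun i k : Fin d => w (finSumFinEquiv (Sum.inl i)) (finSumFinEquiv (Sum.inl k)))‖ ≤
      2 * ‖vecOf w‖ := by
  refine (pow_le_pow_iff_left₀ (norm_nonneg _) (by positivity) two_ne_zero).1 ?_
  rw [mul_pow, norm_sq_vecOf, norm_sq_vecOf]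
  set S := ∑ i : Fin d, ∑ k : Fin d,
    ‖w (finSumFinEquiv (Sum.inl i)) (finSumFinEquiv (Sum.inl k))‖ ^ 2
  have hS : S ≤ ∑ i, ∑ k, ‖w i k‖ ^ 2 := by
    rw [← Equiv.sum_comp finSumFinEquiv, Fintype.sum_sum_type]
    refine le_add_of_le_of_nonneg (Finset.sum_le_sum fun i _ => ?_) (by positivity)
    rw [← Equiv.sum_comp finSumFinEquiv (fun k => ‖w _ k‖ ^ 2), Fintype.sum_sum_type]
    exact le_add_of_nonneg_right (by positivity)
  have h0 : 0 ≤ S := by positivity
  rcases Nat.eq_zero_or_pos d with rfl | hd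
  · simp
  have hd' : (0 : ℝ) < d := by exact_mod_cast hd
  push_cast
  rw [show (d : ℝ) + d = 2 * d by ring, mul_inv]
  calc (d : ℝ)⁻¹ * S ≤ (d : ℝ)⁻¹ * (2 * ∑ i, ∑ k, ‖w i k‖ ^ 2) := by
        refine mul_le_mul_of_nonneg_left ?_ (by positivity); linarith
    _ = _ := by ring

/-- A bound of the vector defect on symmetries. -/
def SymBound (P : Pair H) (ε : ℝ) : Prop :=
  ∀ (d : ℕ) (X n : Mat H d), 0 < d → (∀ i j, X i j ∈ P.M) → (∀ i j, n i j ∈ P.N) →
    IsSymm X → IsSymm n →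
    ‖(leftOp X * rightOp (P.mirror n) - rightOp (P.mirror n) * leftOp X) (P.xi d)‖ ≤ ε

lemma selfAdjoint_bound {P : Pair H} {ε : ℝ} (h : SymBound P ε) (hd : 0 < d) {A B : Mat H d}
    (hA : ∀ i j, A i j ∈ P.M) (hB : ∀ i j, B i j ∈ P.N) (hA' : star A = A) (hB' : star B = B)
    (hAn : ‖leftOp A‖ ≤ 1) (hBn : ‖leftOp B‖ ≤ 1) :
    ‖(leftOp A * rightOp (P.mirror B) - rightOp (P.mirror B) * leftOp A) (P.xi d)‖ ≤ 2 * ε := by
  obtain ⟨s, hs, hs', hsc, hs1⟩ := exists_cut P.closed_M hA hA' hAn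
  obtain ⟨r, hr, hr', hrc, hr1⟩ := exists_cut P.closed_N hB hB' hBn
  have hX : ∀ i j, blk A s s (-A) i j ∈ P.M :=
    blk_mem hA hs hs fun i j => neg_mem (hA i j)
  have hX' := isSymm_dilation hA' hs' hsc hs1
  have hn₁ : ∀ i j, blk B r r (-B) i j ∈ P.N := blk_mem hB hr hr fun i j => neg_mem (hB i j)
  have hn₁' := isSymm_dilation hB' hr' hrc hr1
  have hn₂ : ∀ i j, blk B (-r) (-r) (-B) i j ∈ P.N :=
    blk_mem hB (fun i j => neg_mem (hr i j)) (fun i j => neg_mem (hr i j))
      fun i j => neg_mem (hB i j)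
  have hn₂' : IsSymm (blk B (-r) (-r) (-B)) := isSymm_dilation hB' (by rw [star_neg, hr'])
    (by rw [mul_neg, neg_mul, hrc]) (by rw [neg_mul_neg, hr1])
  have h₁ := h (d + d) _ _ (by omega) hX hn₁ hX' hn₁'
  have h₂ := h (d + d) _ _ (by omega) hX hn₂ hX' hn₂'
  rw [mirror_blk, mirror_neg, comm_xi] at h₁
  rw [mirror_blk, mirror_neg, mirror_neg, comm_xi] at h₂
  rw [comm_xi]
  have c₁ := (norm_corner_le _).trans (mul_le_mul_of_nonneg_left h₁ zero_le_two)
  have c₂ := (norm_corner_le _).trans (mul_le_mul_of_nonneg_left h₂ zero_le_two)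
  simp only [comE_blk, comE_neg_right, Pi.neg_apply] at c₁ c₂
  set u₁ : Fin d → Fin d → H := comE P.ξ A (P.mirror B)
  set u₂ : Fin d → Fin d → H := comE P.ξ s (P.mirror r)
  have e : vecOf (fun i k => u₁ i k + u₂ i k) + vecOf (fun i k => u₁ i k + -u₂ i k) =
      (2 : ℂ) • vecOf u₁ := by
    rw [← vecOf_add, ← vecOf_smul]
    congr 1
    ext i k
    simp only [Pi.add_apply, Pi.smul_apply, two_smul]
    abel
  have hnorm := norm_add_le (vecOf (fun i k => u₁ i k + u₂ i k))
    (vecOf (fun i k => u₁ i k + -u₂ i k))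
  rw [e, norm_smul, Complex.norm_ofNat] at hnorm
  linarith

lemma exists_parts {S : StarSubalgebra ℂ (H →L[ℂ] H)} {X : Mat H d} (hX : ∀ i j, X i j ∈ S)
    (hn : ‖leftOp X‖ ≤ 1) : ∃ A B : Mat H d, X = A + Complex.I • B ∧ star A = A ∧ star B = B ∧
      (∀ i j, A i j ∈ S) ∧ (∀ i j, B i j ∈ S) ∧ ‖leftOp A‖ ≤ 1 ∧ ‖leftOp B‖ ≤ 1 := by
  have hXs : ∀ i j, (star X) i j ∈ S := fun i j => by
    rw [Matrix.star_apply]; exact star_mem (hX j i)
  have hns : ‖leftOp (star X)‖ ≤ 1 := by
    rw [← star_leftOp]; exact (norm_star (leftOp X)).trans_le hn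
  have h2 : star (1 / 2 : ℂ) = 1 / 2 := by norm_num
  have hI : star (Complex.I / 2) = -(Complex.I / 2) := by
    rw [← starRingEnd_apply, map_div₀, Complex.conj_I, map_ofNat, neg_div]
  refine ⟨(1 / 2 : ℂ) • (X + star X), (Complex.I / 2) • (star X - X), ?_, ?_, ?_,
    fun i j => ?_, fun i j => ?_, ?_, ?_⟩
  · rw [smul_smul, show Complex.I * (Complex.I / 2) = -(1 / 2 : ℂ) by
      rw [← mul_div_assoc, Complex.I_mul_I]; ring]
    rw [neg_smul, ← smul_neg, neg_sub, ← smul_add,
      show X + star X + (X - star X) = (2 : ℂ) • X by rw [two_smul]; abel, smul_smul]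
    norm_num
  · rw [star_smul, h2, star_add, star_star, add_comm]
  · rw [star_smul, hI, star_sub, star_star, neg_smul, ← smul_neg, neg_sub]
  · exact SMulMemClass.smul_mem _ (add_mem (hX i j) (hXs i j))
  · exact SMulMemClass.smul_mem _ (sub_mem (hXs i j) (hX i j))
  · rw [leftOp_smul, leftOp_add, norm_smul]
    have := norm_add_le (leftOp X) (leftOp (star X))
    norm_num
    linarith
  · rw [leftOp_smul, leftOp_sub, norm_smul]
    have := norm_sub_le (leftOp (star X)) (leftOp X)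
    norm_num
    linarith

lemma mirror_add (P : Pair H) (A B : Mat H d) : P.mirror (A + B) = P.mirror A + P.mirror B := by
  ext i j v
  simp [Pair.mirror]

lemma mirror_smul (P : Pair H) (c : ℂ) (A : Mat H d) :
    P.mirror (c • A) = conj c • P.mirror A := by
  ext i j : 2
  simp only [Pair.mirror, Matrix.smul_apply, P.conjOp_smul]

lemma contraction_bound {P : Pair H} {ε : ℝ} (h : SymBound P ε) (hd : 0 < d) {X n : Mat H d}
    (hX : ∀ i j, X i j ∈ P.M) (hn : ∀ i j, n i j ∈ P.N) (hXn : ‖leftOp X‖ ≤ 1)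
    (hnn : ‖leftOp n‖ ≤ 1) :
    ‖(leftOp X * rightOp (P.mirror n) - rightOp (P.mirror n) * leftOp X) (P.xi d)‖ ≤ 8 * ε := by
  obtain ⟨A, A', rfl, hA, hA', mA, mA', nA, nA'⟩ := exists_parts hX hXn
  obtain ⟨B, B', rfl, hB, hB', mB, mB', nB, nB'⟩ := exists_parts hn hnn
  have b₁ := selfAdjoint_bound h hd mA mB hA hB nA nB
  have b₂ := selfAdjoint_bound h hd mA' mB hA' hB nA' nB
  have b₃ := selfAdjoint_bound h hd mA mB' hA hB' nA nB'
  have b₄ := selfAdjoint_bound h hd mA' mB' hA' hB' nA' nB'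
  simp only [mirror_add, mirror_smul, Complex.conj_I, rightOp_add, rightOp_smul, leftOp_add,
    leftOp_smul]
  set a := leftOp A; set a' := leftOp A'
  set b := rightOp (P.mirror B); set b' := rightOp (P.mirror B')
  have e : (a + Complex.I • a') * (b + -Complex.I • b') - (b + -Complex.I • b') *
      (a + Complex.I • a') = (a * b - b * a) + Complex.I • (a' * b - b * a') +
        -Complex.I • (a * b' - b' * a) + (a' * b' - b' * a') := by
    simp only [add_mul, mul_add, smul_mul_assoc, mul_smul_comm]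
    match_scalars <;> simp
  rw [e, add_apply, add_apply, add_apply, smul_apply, smul_apply]
  refine (norm_add_le _ _).trans ?_
  refine (add_le_add ((norm_add_le _ _).trans (add_le_add (norm_add_le _ _) le_rfl)) le_rfl).trans ?_
  rw [norm_smul, norm_smul, norm_neg, Complex.norm_I, one_mul, one_mul]
  linarith

/-- The vector defect is controlled by symmetries. -/
lemma nuLe_of_symBound {P : Pair H} {ε ν : ℝ} (h : SymBound P ε) (hν : 0 < ν)
    (hle : 8 * ε ≤ ν) : P.NuLe ν := by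
  refine ⟨hν, fun d X Y hX hY => ?_⟩
  rcases Nat.eq_zero_or_pos d with rfl | hd
  · have : (P.xi 0) = 0 := Amp.ext' fun i => i.elim0
    rw [this, map_zero, norm_zero]
    positivity
  set n : Mat H d := fun j k => P.conjOp (Y k j) with hn
  have hnN : ∀ i j, n i j ∈ P.N := fun i j => P.mem_B.1 (hY j i)
  have hYn : P.mirror n = Y := by
    ext i j : 2
    simp only [Pair.mirror, hn, P.conjOp_conjOp]
  have hRn : ‖rightOp Y‖ = ‖leftOp n‖ := by rw [← hYn, P.norm_rightOp_mirror]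
  rw [← hYn, P.norm_rightOp_mirror]
  rcases (norm_nonneg (leftOp X)).eq_or_lt with hx | hx
  · rw [eq_comm, norm_eq_zero] at hx
    simp [hx]
  rcases (norm_nonneg (leftOp n)).eq_or_lt with hy | hy
  · have hR : rightOp (P.mirror n) = 0 := by
      rw [← norm_eq_zero, P.norm_rightOp_mirror, ← hy]
    simp [hR, ← hy]
  set a := ‖leftOp X‖; set b := ‖leftOp n‖
  have hc : ∀ {t : ℝ}, 0 < t → conj ((t⁻¹ : ℝ) : ℂ) = ((t⁻¹ : ℝ) : ℂ) :=
    fun _ => Complex.conj_ofReal _
  have key := contraction_bound h hd (X := ((a⁻¹ : ℝ) : ℂ) • X) (n := ((b⁻¹ : ℝ) : ℂ) • n)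
    (fun i j => SMulMemClass.smul_mem _ (hX i j)) (fun i j => SMulMemClass.smul_mem _ (hnN i j))
    (by rw [leftOp_smul, norm_smul, Complex.norm_real, Real.norm_of_nonneg (inv_nonneg.2 hx.le),
      inv_mul_cancel₀ hx.ne'])
    (by rw [leftOp_smul, norm_smul, Complex.norm_real, Real.norm_of_nonneg (inv_nonneg.2 hy.le),
      inv_mul_cancel₀ hy.ne'])
  rw [mirror_smul, hc hy, rightOp_smul, leftOp_smul, smul_mul_smul_comm, smul_mul_smul_comm,
    mul_comm ((b⁻¹ : ℝ) : ℂ), sub_apply, smul_apply, smul_apply, ← smul_sub, ← sub_apply, norm_smul, norm_mul,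
    Complex.norm_real, Complex.norm_real, Real.norm_of_nonneg (inv_nonneg.2 hx.le),
    Real.norm_of_nonneg (inv_nonneg.2 hy.le), ← mul_inv, inv_mul_le_iff₀ (mul_pos hx hy)] at key
  refine key.trans ?_
  rw [mul_comm ν]
  exact mul_le_mul_of_nonneg_left hle (mul_pos hx hy).le

/-- The local vector defect is controlled by local bounds on symmetries: dilate at every
reweighting. -/
lemma nuLoc_of_symBound {P : Pair H} {ε ν : ℝ}
    (h : ∀ (d : ℕ) (X n : Mat H d), 0 < d → (∀ i j, X i j ∈ P.M) → (∀ i j, n i j ∈ P.N) →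
      IsSymm X → IsSymm n →
      P.Loc ε ((leftOp X * rightOp (P.mirror n) - rightOp (P.mirror n) * leftOp X) (P.xi d)))
    (hν : 0 < ν) (hle : 8 * ε ≤ ν) : P.NuLoc ν := by
  refine ⟨hν, fun d X Y hX hY => Pair.loc_of_parts fun k q hq t ht => ?_⟩
  have ha := P.isWeight_part hq ht
  set a : H →L[ℂ] H := q + (t : ℂ) • (1 - q)
  have key : ∀ {e : ℕ} {A Z : Mat H e}, (∀ i j, A i j ∈ P.M) → (∀ i j, Z i j ∈ P.B) →
      ‖(leftOp A * rightOp Z - rightOp Z * leftOp A) ((P.reweigh a ha).xi e)‖ =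
        ‖a P.ξ‖⁻¹ * ‖ampOp e a ((leftOp A * rightOp Z - rightOp Z * leftOp A) (P.xi e))‖ :=
    fun hA hZ => by
      rw [P.reweigh_xi a ha, map_smul, norm_smul, P.norm_wscale,
        ha.simple.comm_commutator hA hZ]
  have hs : SymBound (P.reweigh a ha) ε := by
    intro e A n he hA hn hAs hns
    change ‖(leftOp A * rightOp (P.mirror n) - rightOp (P.mirror n) * leftOp A)
      ((P.reweigh a ha).xi e)‖ ≤ ε
    have hl := h e A n he hA hn hAs hns
    rw [key hA (P.mirror_mem hn), inv_mul_le_iff₀ ha.norm_pos, mul_comm]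
    simpa [abs_of_nonneg hl.nonneg] using hl.simple ha.simple
  have hb := (nuLe_of_symBound hs hν hle).bound d X Y hX hY
  rw [key hX hY, inv_mul_le_iff₀ ha.norm_pos] at hb
  exact hb.trans_eq (mul_comm _ _)

end Vale.Agent.P096.Full.Std
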